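import Vale.Agent.P365.CU.Ring2

set_option linter.all false

/-!
# P365 / CU / Asm1: bounds for the factors of the chain.
-/

namespace P365CU

open MeasureTheory ProbabilityTheory Complex Matrix Function P365S6
open P365L P365L.Comp P365X
open scoped ENNReal Real

variable {X : Finset Site} {lam c p : ℝ} {ζ : ℂ}

/-- ring data with bounds: off a bad event the weights are at most `G` -/
structure RB (X : Finset Site) (m : ℕ) (lam c p G β : ℝ) (kI kO : (X → ℝ) → ℝ)
    (bI bO : (X → ℝ) → ℝ≥0∞) : Prop where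
  rd : RD X m lam c kI kO
  G0 : 0 ≤ G
  β0 : 0 ≤ β
  mI : Measurable bI
  mO : Measurable bO
  dI : Dep (sl X (2 * m) (3 * m)) bI
  dO : Dep (sl X (3 * m) (4 * m)) bO
  leI : ∀ v, gw p kI v ≤ ENNReal.ofReal G + bI v
  leO : ∀ v, gw p kO v ≤ ENNReal.ofReal G + bO v
  intI : ∫⁻ v, bI v ∂(Measure.pi fun _ : X => uni) ≤ ENNReal.ofReal β
  intO : ∫⁻ v, bO v ∂(Measure.pi fun _ : X => uni) ≤ ENNReal.ofReal β

variable {m : ℕ} {G β : ℝ} {kI kO : (X → ℝ) → ℝ} {bI bO : (X → ℝ) → ℝ≥0∞}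

theorem RB.int_gwI (h : RB X m lam c p G β kI kO bI bO) :
    ∫⁻ v, gw p kI v ∂(Measure.pi fun _ : X => uni) ≤ ENNReal.ofReal (G + β) := by
  refine (lintegral_mono h.leI).trans ?_
  rw [lintegral_add_left measurable_const, lintegral_const, measure_univ, mul_one,
    ENNReal.ofReal_add h.G0 h.β0]
  gcongr
  exact h.intI

theorem RB.int_gwO (h : RB X m lam c p G β kI kO bI bO) :
    ∫⁻ v, gw p kO v ∂(Measure.pi fun _ : X => uni) ≤ ENNReal.ofReal (G + β) := by
  refine (lintegral_mono h.leO).trans ?_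
  rw [lintegral_add_left measurable_const, lintegral_const, measure_univ, mul_one,
    ENNReal.ofReal_add h.G0 h.β0]
  gcongr
  exact h.intO

/-- the crossing quantity of the gap, with the two contacts, in the region `X` -/
noncomputable def TX (X : Finset Site) (lam c p : ℝ) (ζ : ℂ) (m : ℕ) : ℝ≥0∞ :=
  ∫⁻ v, MP (cut (cut (AF X) (inn X (12 * m))) (inn X (3 * m))) lam ζ
    (prX X c m) p (sl X (3 * m) (4 * m)) (sl X (8 * m) (12 * m)) v
      ∂(Measure.pi fun _ : X => uni)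

theorem prX_nonneg (hc : 0 < c) (x : X) : 0 ≤ prX X c m x := by
  unfold prX
  split_ifs
  · positivity
  · positivity
  · exact le_rfl

theorem prX_ne (hc : 0 < c) (hm : 0 < m) {x : X}
    (hx : x ∈ sl X (3 * m) (4 * m) ∨ x ∈ sl X (8 * m) (12 * m)) : prX X c m x ≠ 0 := by
  have hm' : (0 : ℝ) < m := by exact_mod_cast hm
  have hm4 : (0 : ℝ) < (4 * m : ℕ) := by exact_mod_cast (by omega : 0 < 4 * m)
  unfold prX
  split_ifs with h1 h2
  · positivity
  · positivity
  · tauto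

theorem card_sl (X : Finset Site) (a b : ℕ) : (sl X a b).card ≤ (2 * b + 1) ^ 2 := by
  have h1 : (sl X a b).card ≤ (Bl 0 b).card := by
    refine Finset.card_le_card_of_injOn (fun x => (x : Site)) ?_ ?_
    · intro x hx
      have h2 := mem_sl.1 (Finset.mem_coe.1 hx)
      refine Finset.mem_coe.2 (mem_Bl.2 ?_)
      show ds (x : Site) 0 ≤ b
      omega
    · intro x _ y _ h
      exact Subtype.ext h
  refine h1.trans (le_of_eq ?_)
  unfold Bl
  rw [Finset.card_product]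
  simp only [Int.card_Icc]
  have h2 : ((0 : Site).1 + (b : ℤ) + 1 - ((0 : Site).1 - (b : ℤ))).toNat = 2 * b + 1 := by
    have : (0 : Site).1 = 0 := rfl
    rw [this]
    omega
  have h3 : ((0 : Site).2 + (b : ℤ) + 1 - ((0 : Site).2 - (b : ℤ))).toNat = 2 * b + 1 := by
    have : (0 : Site).2 = 0 := rfl
    rw [this]
    omega
  rw [h2, h3, sq]

theorem card_le81 (X : Finset Site) {a : ℕ} (hm : 0 < m) :
    ((sl X a (4 * m)).card : ℝ) ≤ 81 * m ^ 2 := by
  have h1 := card_sl X a (4 * m)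
  have h2 : (2 * (4 * m) + 1) ^ 2 ≤ 81 * m ^ 2 := by nlinarith
  have h3 : (sl X a (4 * m)).card ≤ 81 * m ^ 2 := h1.trans h2
  exact_mod_cast h3

/-- the crossing quantity is bounded pointwise -/
theorem MP_cap (hlam : 0 < lam) (hζ : 0 < ζ.im) (hc : 0 < c) (hm : 0 < m) (hp : 0 < p)
    (hp1 : p < 1) {v : X → ℝ} (hv : ∀ x, |v x| < 1) :
    MP (cut (cut (AF X) (inn X (12 * m))) (inn X (3 * m))) lam ζ
      (prX X c m) p (sl X (3 * m) (4 * m)) (sl X (8 * m) (12 * m)) v ≤
        ENNReal.ofReal (81 * m ^ 2) := by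
  have hA : (cut (cut (AF X) (inn X (12 * m))) (inn X (3 * m))).IsSymm :=
    cut_symm (cut_symm (AF_symm X) _) _
  have h1 := MM_contact (A := cut (cut (AF X) (inn X (12 * m))) (inn X (3 * m))) hA hlam hζ
    (κ := prX X c m) (v := v) (fun x => prX_nonneg hc x) hv
    (N := sl X (3 * m) (4 * m)) (B := sl X (8 * m) (12 * m))
    (fun x hx => prX_ne hc hm (Or.inl hx)) (fun x hx => prX_ne hc hm (Or.inr hx))
  unfold MP
  refine ENNReal.ofReal_le_ofReal ?_
  have hm' : (1 : ℝ) ≤ m := by exact_mod_cast hm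
  have h2 := h1.trans (card_le81 X (a := 3 * m) hm)
  have h3 : (1 : ℝ) ≤ 81 * m ^ 2 := by nlinarith
  calc MM (cut (cut (AF X) (inn X (12 * m))) (inn X (3 * m))) lam ζ
          (prX X c m) (sl X (3 * m) (4 * m)) (sl X (8 * m) (12 * m)) v ^ (p / 2)
      ≤ (81 * m ^ 2 : ℝ) ^ (p / 2) := Real.rpow_le_rpow (MM_nonneg _ _ _) h2 (by positivity)
    _ ≤ (81 * m ^ 2 : ℝ) ^ (1 : ℝ) := Real.rpow_le_rpow_of_exponent_le h3 (by linarith)
    _ = 81 * m ^ 2 := Real.rpow_one _

/-- BOUND FOR THE GAP FACTOR -/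
theorem Xg_le (hlam : 0 < lam) (hζ : 0 < ζ.im) (hc : 0 < c) (hm : 0 < m) (hp : 0 < p)
    (hp1 : p < 1) {β' : ℝ} {kI' kO' : (X → ℝ) → ℝ} {bI' bO' : (X → ℝ) → ℝ≥0∞}
    (h : RB X m lam c p G β kI kO bI bO) (h' : RB X (4 * m) lam c p G β' kI' kO' bI' bO') :
    Xg X lam c p ζ m kO kI' ≤ ENNReal.ofReal (G ^ 2) * TX X lam c p ζ m +
      ENNReal.ofReal (81 * m ^ 2 * (G * β' + G * β + β * β')) := by
  obtain ⟨M, hM⟩ : ∃ M : (X → ℝ) → ℝ≥0∞, M = MP (cut (cut (AF X) (inn X (12 * m)))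
    (inn X (3 * m))) lam ζ (prX X c m) p (sl X (3 * m) (4 * m)) (sl X (8 * m) (12 * m)) :=
    ⟨_, rfl⟩
  have hMm : Measurable M := by
    rw [hM]
    exact measurable_MP _ _
  obtain ⟨g, hg⟩ : ∃ g, g = ENNReal.ofReal G := ⟨_, rfl⟩
  obtain ⟨q, hq⟩ : ∃ q : ℝ≥0∞, q = ENNReal.ofReal (81 * m ^ 2) := ⟨_, rfl⟩
  have hG0 := h.G0
  have hβ0 := h.β0
  have hβ0' := h'.β0
  have hle : Xg X lam c p ζ m kO kI' ≤
      ∫⁻ v, (g ^ 2 * M v + (g * q * bI' v + (g * q * bO v + q * (bO v * bI' v))))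
        ∂(Measure.pi fun _ : X => uni) := by
    unfold Xg
    refine lintegral_mono_ae ?_
    filter_upwards [ae_pi_uni (ι := X)] with v hv
    have h1 : M v ≤ q := by
      rw [hM, hq]
      exact MP_cap hlam hζ hc hm hp hp1 hv
    have h2 := h.leO v
    have h3 := h'.leI v
    rw [← hg] at h2 h3
    rw [← hM]
    calc gw p kO v * (gw p kI' v * M v)
        ≤ (g + bO v) * ((g + bI' v) * M v) := by gcongr
      _ = g ^ 2 * M v + (g * M v * bI' v + (g * M v * bO v + M v * (bO v * bI' v))) := by ring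
      _ ≤ _ := by gcongr
  refine hle.trans ?_
  have hm1 : Measurable fun v => g ^ 2 * M v := hMm.const_mul _
  have hm2 : Measurable fun v => g * q * bI' v := h'.mI.const_mul _
  have hm3 : Measurable fun v => g * q * bO v := h.mO.const_mul _
  have hm4 : Measurable fun v => bO v * bI' v := h.mO.mul h'.mI
  rw [lintegral_add_left hm1, lintegral_add_left hm2, lintegral_add_left hm3,
    lintegral_const_mul _ hMm, lintegral_const_mul _ h'.mI, lintegral_const_mul _ h.mO,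
    lintegral_const_mul _ hm4]
  have hind := lintegral_indep (μ := uni) (R := sl X (3 * m) (4 * m))
    (R' := sl X (2 * (4 * m)) (3 * (4 * m))) (fun x hx => by
      rw [mem_sl] at hx ⊢
      omega) h.mO h'.mI h.dO h'.dI
  have hTX : ∫⁻ v, M v ∂(Measure.pi fun _ : X => uni) = TX X lam c p ζ m := by
    rw [hM]
    rfl
  have hind' : ∫⁻ v, bO v * bI' v ∂(Measure.pi fun _ : X => uni) ≤
      ENNReal.ofReal β * ENNReal.ofReal β' := by
    refine (le_of_eq hind).trans ?_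
    gcongr
    · exact h.intO
    · exact h'.intI
  rw [hTX]
  have e1 : ENNReal.ofReal (81 * m ^ 2 * (G * β' + G * β + β * β')) =
      g * q * ENNReal.ofReal β' + (g * q * ENNReal.ofReal β + q * (ENNReal.ofReal β *
        ENNReal.ofReal β')) := by
    rw [hg, hq, ← ENNReal.ofReal_mul hG0, ← ENNReal.ofReal_mul (by positivity),
      ← ENNReal.ofReal_mul (by positivity), ← ENNReal.ofReal_mul hβ0,
      ← ENNReal.ofReal_mul (by positivity), ← ENNReal.ofReal_add (by positivity) (by positivity),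
      ← ENNReal.ofReal_add (by positivity) (by positivity)]
    congr 1
    ring
  have e2 : ENNReal.ofReal (G ^ 2) = g ^ 2 := by
    rw [hg, ENNReal.ofReal_pow hG0]
  rw [e1, e2]
  gcongr
  · exact h'.intI
  · exact h.intO

/-- BOUND FOR THE ROOT FACTOR -/
theorem Zin_le (hp : 0 < p) (hp1 : p < 1) (hlam : 0 < lam) : ∃ K : ℝ, 0 < K ∧
    ∀ {X : Finset Site} {m : ℕ} {c G β : ℝ} {kI kO : (X → ℝ) → ℝ} {bI bO : (X → ℝ) → ℝ≥0∞} {ζ : ℂ},
      0 < ζ.im → 0 < c → 0 < m → RB X m lam c p G β kI kO bI bO → ∀ o : X, ds (o : Site) 0 < 2 * m →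
      Zin X lam c p ζ {o} m kI ≤ ENNReal.ofReal (K * (G + β)) := by
  obtain ⟨K, hK, H⟩ := site_avg (lam := lam) (q := p / 2) (by positivity) (by linarith) hlam
  refine ⟨K, hK, ?_⟩
  intro X m c G β kI kO bI bO ζ hζ hc hm h o ho
  have hm' : (0 : ℝ) < m := by exact_mod_cast hm
  have hA : (cut (AF X) (inn X (3 * m))).IsSymm := cut_symm (AF_symm X) _
  have hκo : prI X c m o = 0 := by
    unfold prI
    rw [if_neg]
    rw [mem_sl]
    omega
  have h1 : ∀ v, MP (cut (AF X) (inn X (3 * m))) lam ζ (prI X c m) p {o}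
      (sl X (2 * m) (3 * m)) v ≤
        ENNReal.ofReal (‖Gr (cut (AF X) (inn X (3 * m))) (WP lam ζ (prI X c m) v) o o‖ ^ (p / 2)) := by
    intro v
    have h2 := MP_flux (A := cut (AF X) (inn X (3 * m))) (κ := prI X c m) (v := v) (p := p)
      hA hlam hζ hp hp1 (N := sl X (2 * m) (3 * m)) (B := {o}) (fun x hx => by
        unfold prI
        rw [if_pos hx]
        positivity) (fun x hx => by
        rw [Finset.mem_singleton] at hx
        rw [hx, hκo])
    rw [Finset.sum_singleton] at h2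
    refine le_trans (le_of_eq ?_) h2
    unfold MP
    rw [MM_comm hA]
  unfold Zin
  calc ∫⁻ v, gw p kI v * MP (cut (AF X) (inn X (3 * m))) lam ζ (prI X c m) p {o}
        (sl X (2 * m) (3 * m)) v ∂(Measure.pi fun _ : X => uni)
      ≤ ∫⁻ v, gw p kI v * ENNReal.ofReal (‖Gr (cut (AF X) (inn X (3 * m)))
        (WP lam ζ (prI X c m) v) o o‖ ^ (p / 2)) ∂(Measure.pi fun _ : X => uni) := by
        refine lintegral_mono fun v => ?_
        gcongr
        exact h1 v
    _ ≤ ENNReal.ofReal K * ∫⁻ v, gw p kI v ∂(Measure.pi fun _ : X => uni) :=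
        H _ hA ζ hζ _ o hκo (sl X (2 * m) (3 * m)) (by
          rw [mem_sl]
          omega) _ (measurable_gw h.rd.mI) (gw_dep h.rd.dI)
    _ ≤ ENNReal.ofReal K * ENNReal.ofReal (G + β) := by
        gcongr
        exact h.int_gwI
    _ = _ := by rw [← ENNReal.ofReal_mul hK.le]

/-- BOUND FOR THE TARGET FACTOR -/
theorem Zout_le (hp : 0 < p) (hp1 : p < 1) (hlam : 0 < lam) : ∃ K : ℝ, 0 < K ∧
    ∀ {X : Finset Site} {m : ℕ} {c G β : ℝ} {kI kO : (X → ℝ) → ℝ} {bI bO : (X → ℝ) → ℝ≥0∞} {ζ : ℂ},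
      0 < ζ.im → 0 < c → 0 < m → RB X m lam c p G β kI kO bI bO → ∀ B : Finset X,
      (∀ b ∈ B, 4 * m ≤ ds (b : Site) 0) →
      Zout X lam c p ζ B m kO ≤ ENNReal.ofReal (B.card * (K * (G + β))) := by
  obtain ⟨K, hK, H⟩ := site_avg (lam := lam) (q := p / 2) (by positivity) (by linarith) hlam
  refine ⟨K, hK, ?_⟩
  intro X m c G β kI kO bI bO ζ hζ hc hm h B hB
  have hm' : (0 : ℝ) < m := by exact_mod_cast hm
  have hA : (cut (AF X) (inn X (3 * m))).IsSymm := cut_symm (AF_symm X) _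
  have hκB : ∀ b ∈ B, prO X c m b = 0 := by
    intro b hb
    unfold prO
    rw [if_neg]
    rw [mem_sl]
    have := hB b hb
    omega
  have h1 : ∀ v, MP (cut (AF X) (inn X (3 * m))) lam ζ (prO X c m) p
      (sl X (3 * m) (4 * m)) B v ≤ ∑ b ∈ B,
        ENNReal.ofReal (‖Gr (cut (AF X) (inn X (3 * m))) (WP lam ζ (prO X c m) v) b b‖ ^ (p / 2)) := by
    intro v
    exact MP_flux (A := cut (AF X) (inn X (3 * m))) (κ := prO X c m) (v := v) (p := p)
      hA hlam hζ hp hp1 (N := sl X (3 * m) (4 * m)) (B := B) (fun x hx => by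
        unfold prO
        rw [if_pos hx]
        positivity) hκB
  have hmg : ∀ b, Measurable fun v : X → ℝ => gw p kO v *
      ENNReal.ofReal (‖Gr (cut (AF X) (inn X (3 * m))) (WP lam ζ (prO X c m) v) b b‖ ^ (p / 2)) := by
    intro b
    refine (measurable_gw h.rd.mO).mul ?_
    have := measurable_Gr (A := cut (AF X) (inn X (3 * m)))
      (fun v : X → ℝ => WP lam ζ (prO X c m) v) (fun z => measurable_WP z) b b
    exact (this.norm.pow_const _).ennreal_ofReal
  unfold Zout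
  calc ∫⁻ v, gw p kO v * MP (cut (AF X) (inn X (3 * m))) lam ζ (prO X c m) p
        (sl X (3 * m) (4 * m)) B v ∂(Measure.pi fun _ : X => uni)
      ≤ ∫⁻ v, ∑ b ∈ B, gw p kO v * ENNReal.ofReal (‖Gr (cut (AF X) (inn X (3 * m)))
        (WP lam ζ (prO X c m) v) b b‖ ^ (p / 2)) ∂(Measure.pi fun _ : X => uni) := by
        refine lintegral_mono fun v => ?_
        rw [← Finset.mul_sum]
        gcongr
        exact h1 v
    _ = ∑ b ∈ B, ∫⁻ v, gw p kO v * ENNReal.ofReal (‖Gr (cut (AF X) (inn X (3 * m)))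
        (WP lam ζ (prO X c m) v) b b‖ ^ (p / 2)) ∂(Measure.pi fun _ : X => uni) :=
        lintegral_finset_sum _ fun b _ => hmg b
    _ ≤ ∑ b ∈ B, ENNReal.ofReal (K * (G + β)) := by
        refine Finset.sum_le_sum fun b hb => ?_
        refine (H _ hA ζ hζ _ b (hκB b hb) (sl X (3 * m) (4 * m)) (by
          rw [mem_sl]
          have := hB b hb
          omega) _ (measurable_gw h.rd.mO) (gw_dep h.rd.dO)).trans ?_
        rw [ENNReal.ofReal_mul hK.le]
        gcongr
        exact h.int_gwO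
    _ = _ := by
        rw [Finset.sum_const, nsmul_eq_mul, ENNReal.ofReal_mul (Nat.cast_nonneg _),
          ENNReal.ofReal_natCast]

end P365CU
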