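import Vale.Agent.P365.CU.Asm1

set_option linter.all false

/-!
# P365 / CU / Asm2: transport of the crossing quantity to the annulus; ring data with bounds.
-/

namespace P365CU

open MeasureTheory ProbabilityTheory Complex Matrix Function P365S6
open P365L P365L.Comp P365X
open scoped ENNReal Real

variable {lam c p : ℝ} {ζ : ℂ}

/-- the annulus `3m ≤ |x| < 12m` -/
noncomputable def Ann (m : ℕ) : Finset Site :=
  (Bl 0 (12 * m)).filter fun x => 3 * m ≤ ds x 0 ∧ ds x 0 < 12 * m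

theorem mem_Ann {m : ℕ} {x : Site} : x ∈ Ann m ↔ 3 * m ≤ ds x 0 ∧ ds x 0 < 12 * m := by
  unfold Ann
  rw [Finset.mem_filter, mem_Bl]
  constructor
  · exact fun h => h.2
  · exact fun h => ⟨h.2.le, h⟩

/-- **THE CROSSING QUANTITY**: the transmitted power `Σ e_x e_y |G_xy|²` between the soft contacts
`3m ≤ |x| < 4m` and `8m ≤ |y| < 12m` of the annulus `3m ≤ |z| < 12m`, to the power `p/2`, averaged
over iid potentials uniform on `[-λ, λ]` -/
noncomputable def TT (lam c p : ℝ) (ζ : ℂ) (m : ℕ) : ℝ≥0∞ :=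
  ∫⁻ v, MP (AF (Ann m)) lam ζ (prX (Ann m) c m) p (sl (Ann m) (3 * m) (4 * m))
    (sl (Ann m) (8 * m) (12 * m)) v ∂(Measure.pi fun _ : Ann m => uni)

theorem MP_block {ι κ : Type} [Fintype ι] [DecidableEq ι] [Fintype κ] [DecidableEq κ]
    {A : Matrix ι ι ℝ} (hA : A.IsSymm) (hlam : 0 < lam) (hζ : 0 < ζ.im) (e : κ ↪ ι)
    (hD : Dec A (fun x => x ∈ Set.range e)) (k : ι → ℝ) (S B : Finset κ) (v : ι → ℝ) :
    MP A lam ζ k p (S.map e) (B.map e) v =
      MP (A.submatrix e e) lam ζ (fun x => k (e x)) p S B (fun x => v (e x)) := by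
  unfold MP MM bl
  rw [Finset.sum_map]
  congr 2
  refine Finset.sum_congr rfl fun a _ => ?_
  rw [Finset.sum_map]
  refine Finset.sum_congr rfl fun b _ => ?_
  beta_reduce
  rw [Gr_block hA (WP_neg hlam hζ) e e.injective hD a b]
  rfl

theorem TX_eq (hlam : 0 < lam) (hζ : 0 < ζ.im) {X : Finset Site} {m : ℕ} (hR : Ann m ⊆ X) :
    TX X lam c p ζ m = TT lam c p ζ m := by
  obtain ⟨A, hA⟩ : ∃ A, A = cut (cut (AF X) (inn X (12 * m))) (inn X (3 * m)) := ⟨_, rfl⟩
  have hsym : A.IsSymm := by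
    rw [hA]
    exact cut_symm (cut_symm (AF_symm X) _) _
  have hr : ∀ x : X, x ∈ Set.range (incl hR) ↔ 3 * m ≤ ds (x : Site) 0 ∧ ds (x : Site) 0 < 12 * m := by
    intro x
    constructor
    · rintro ⟨y, rfl⟩
      exact mem_Ann.1 y.2
    · intro h
      exact ⟨⟨x, mem_Ann.2 h⟩, rfl⟩
  have hD : Dec A (fun x => x ∈ Set.range (incl hR)) := by
    intro x y h
    simp only [hr] at h
    rw [hA]
    unfold cut
    by_cases h1 : x ∈ inn X (3 * m) ↔ y ∈ inn X (3 * m)
    · rw [if_pos h1]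
      rw [mem_inn, mem_inn] at h1
      rw [if_neg]
      rw [mem_inn, mem_inn]
      omega
    · rw [if_neg h1]
  have hmap : ∀ a b : ℕ, 3 * m ≤ a → b ≤ 12 * m →
      sl X a b = (sl (Ann m) a b).map (incl hR) := by
    intro a b ha hb
    ext x
    rw [mem_sl, Finset.mem_map]
    constructor
    · intro h
      exact ⟨⟨x, mem_Ann.2 (by omega)⟩, mem_sl.2 h, rfl⟩
    · rintro ⟨y, hy, rfl⟩
      have h1 := mem_sl.1 hy
      exact h1
  unfold TX TT
  rw [← (measurePreserving_marg uni (incl hR) (incl hR).injective).lintegral_comp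
    (measurable_MP _ _)]
  refine lintegral_congr fun v => ?_
  rw [← hA, hmap (3 * m) (4 * m) le_rfl (by omega), hmap (8 * m) (12 * m) (by omega) le_rfl,
    MP_block hsym hlam hζ (incl hR) hD]
  have h1 : A.submatrix (incl hR) (incl hR) = AF (Ann m) := by
    ext x y
    rw [Matrix.submatrix_apply, hA]
    have hx := mem_Ann.1 x.2
    have hy := mem_Ann.1 y.2
    unfold cut
    rw [if_pos, if_pos]
    · rfl
    · rw [mem_inn, mem_inn]
      exact iff_of_true hx.2 hy.2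
    · rw [mem_inn, mem_inn]
      exact iff_of_false (not_lt.2 hx.1) (not_lt.2 hy.1)
  have h2 : (fun x : Ann m => prX X c m (incl hR x)) = prX (Ann m) c m := by
    funext x
    unfold prX
    simp only [mem_sl]
    rfl
  rw [h1, h2]

/-- the statement of the cut-off theorem -/
def CutStatement (q C1 C2 : ℝ) : Prop :=
  ∀ (X : Finset Site) (R m : ℕ), 8 ≤ m → 1 ≤ R → ∃ (χ : (X → ℝ) → X → ℝ) (k : (X → ℝ) → ℝ),
    CutP X R m χ k ∧
    ∫⁻ v in {v | C1 / m < k v}, ENNReal.ofReal ((1 + k v) ^ q) ∂(Measure.pi fun _ : X => uni) ≤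
      ENNReal.ofReal (C2 * (R + m) ^ 2 * (3 / 4) ^ m)

/-- size of the weights off the bad event -/
noncomputable def Gc (lam c p C1 : ℝ) : ℝ := (1 + 8 * C1 / (lam * c)) ^ p

/-- contribution of the bad event -/
noncomputable def βc (lam c C2 : ℝ) (m : ℕ) : ℝ :=
  (1 + 8 * m / (lam * c)) * (C2 * (4 * m) ^ 2 * (3 / 4) ^ m)

theorem bad_part {X : Finset Site} {R m : ℕ} {C1 C2 : ℝ} (hC1 : 0 < C1) (hC2 : 0 < C2)
    (hlam : 0 < lam) (hc : 0 < c) (hp : 0 < p) (hp1 : p < 1) (hm : 0 < m) (hRm : R + m ≤ 4 * m)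
    {χ : (X → ℝ) → X → ℝ} {k : (X → ℝ) → ℝ} (hk : CutP X R m χ k)
    (hint : ∫⁻ v in {v | C1 / m < k v}, ENNReal.ofReal ((1 + k v) ^ p)
      ∂(Measure.pi fun _ : X => uni) ≤ ENNReal.ofReal (C2 * (R + m) ^ 2 * (3 / 4) ^ m)) :
    ∃ b : (X → ℝ) → ℝ≥0∞, Measurable b ∧ Dep (sl X R (R + m)) b ∧
      (∀ v, gw p (fun v => 8 / (lam * (c / m)) * k v) v ≤
        ENNReal.ofReal (Gc lam c p C1) + b v) ∧
      ∫⁻ v, b v ∂(Measure.pi fun _ : X => uni) ≤ ENNReal.ofReal (βc lam c C2 m) := by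
  have hm' : (0 : ℝ) < m := by exact_mod_cast hm
  obtain ⟨a, ha⟩ : ∃ a, a = 8 / (lam * (c / m)) := ⟨_, rfl⟩
  have ha' : a = 8 * m / (lam * c) := by
    rw [ha]
    field_simp
  have ha0 : 0 ≤ a := by
    rw [ha']
    positivity
  have hS : MeasurableSet {v : X → ℝ | C1 / m < k v} :=
    measurableSet_lt measurable_const hk.meas
  obtain ⟨g, hg⟩ : ∃ g : (X → ℝ) → ℝ≥0∞, g = fun v => ENNReal.ofReal ((1 + a * k v) ^ p) :=
    ⟨_, rfl⟩
  have hgm : Measurable g := by
    rw [hg]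
    have := hk.meas
    fun_prop
  have hgw : ∀ v, gw p (fun v => 8 / (lam * (c / m)) * k v) v = g v := by
    intro v
    rw [hg, ← ha]
    rfl
  refine ⟨Set.indicator {v | C1 / m < k v} g, hgm.indicator hS, ?_, ?_, ?_⟩
  · intro v v' h
    have h1 : k v = k v' := hk.dep v v' fun x h1 h2 => h x (mem_sl.2 ⟨h1, h2⟩)
    unfold Set.indicator
    simp only [Set.mem_setOf_eq]
    rw [hg]
    simp only
    rw [h1]
  · intro v
    rw [hgw]
    by_cases hv : C1 / m < k v
    · rw [Set.indicator_of_mem (by exact hv)]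
      exact le_add_self
    · refine le_trans ?_ le_self_add
      rw [hg]
      refine ENNReal.ofReal_le_ofReal ?_
      have h1 := not_lt.1 hv
      have h0 := hk.k0 v
      unfold Gc
      refine Real.rpow_le_rpow (by positivity) ?_ hp.le
      have h2 : a * k v ≤ a * (C1 / m) := mul_le_mul_of_nonneg_left h1 ha0
      have h3 : a * (C1 / m) = 8 * C1 / (lam * c) := by
        rw [ha']
        field_simp
      linarith
  · rw [lintegral_indicator hS]
    have h1 : ∀ v, g v ≤ ENNReal.ofReal (1 + a) * ENNReal.ofReal ((1 + k v) ^ p) := by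
      intro v
      have h0 := hk.k0 v
      rw [hg, ← ENNReal.ofReal_mul (by positivity)]
      refine ENNReal.ofReal_le_ofReal ?_
      have h2 : 1 + a * k v ≤ (1 + a) * (1 + k v) := by nlinarith
      calc (1 + a * k v) ^ p ≤ ((1 + a) * (1 + k v)) ^ p :=
            Real.rpow_le_rpow (by positivity) h2 hp.le
        _ = (1 + a) ^ p * (1 + k v) ^ p := Real.mul_rpow (by positivity) (by positivity)
        _ ≤ (1 + a) ^ (1 : ℝ) * (1 + k v) ^ p := by
            refine mul_le_mul_of_nonneg_right ?_ (by positivity)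
            exact Real.rpow_le_rpow_of_exponent_le (by linarith) hp1.le
        _ = _ := by rw [Real.rpow_one]
    refine (lintegral_mono h1).trans ?_
    rw [lintegral_const_mul' _ _ ENNReal.ofReal_ne_top]
    unfold βc
    rw [← ha', ENNReal.ofReal_mul (by positivity)]
    gcongr
    refine hint.trans (ENNReal.ofReal_le_ofReal ?_)
    have h2 : ((R : ℝ) + m) ≤ 4 * m := by exact_mod_cast hRm
    have h3 : (0 : ℝ) ≤ (R : ℝ) + m := by positivity
    have h4 : ((R : ℝ) + m) ^ 2 ≤ (4 * m) ^ 2 := pow_le_pow_left₀ h3 h2 2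
    have h5 : (0 : ℝ) ≤ (3 / 4) ^ m := by positivity
    exact mul_le_mul_of_nonneg_right (mul_le_mul_of_nonneg_left h4 hC2.le) h5

theorem RB.of_cut {C1 C2 : ℝ} (hC1 : 0 < C1) (hC2 : 0 < C2) (H : CutStatement p C1 C2)
    (hlam : 0 < lam) (hc : 0 < c) (hp : 0 < p) (hp1 : p < 1) (X : Finset Site) {m : ℕ}
    (hm : 8 ≤ m) (hcm : c / m ≤ 1) : ∃ kI kO bI bO,
      RB X m lam c p (Gc lam c p C1) (βc lam c C2 m) kI kO bI bO := by
  have hm0 : 0 < m := by omega
  obtain ⟨χI, kI, hI, hIi⟩ := H X (2 * m) m hm (by omega)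
  obtain ⟨χO, kO, hO, hOi⟩ := H X (3 * m) m hm (by omega)
  obtain ⟨bI, hI1, hI2, hI3, hI4⟩ := bad_part hC1 hC2 hlam hc hp hp1 hm0 (by omega) hI hIi
  obtain ⟨bO, hO1, hO2, hO3, hO4⟩ := bad_part hC1 hC2 hlam hc hp hp1 hm0 (by omega) hO hOi
  refine ⟨_, _, bI, bO, RD.of_cut hm0 hlam hc hcm hI hO, ?_, ?_, hI1, hO1, ?_, ?_, hI3, hO3, hI4,
    hO4⟩
  · unfold Gc
    positivity
  · unfold βc
    positivity
  · have e : 2 * m + m = 3 * m := by ring
    rwa [e] at hI2
  · have e : 3 * m + m = 4 * m := by ring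
    rwa [e] at hO2

end P365CU
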