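import Vale.Agent.P365.CU.Law

set_option linter.all false

/-!
# P365 / CU / Asm3: the composition theorem for the exact uniform law.
-/

namespace P365CU

open MeasureTheory ProbabilityTheory Complex Matrix Function P365S6 Filter Topology
open P365L P365L.Comp P365X
open scoped ENNReal Real

variable {lam c p : ℝ} {ζ : ℂ}

theorem Wv_scl (lam : ℝ) (ζ : ℂ) {ι : Type*} (v : ι → ℝ) :
    Wv ζ (fun x => lam * v x) = WP lam ζ (0 : ι → ℝ) v := by
  funext x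
  unfold Wv WP
  rw [Pi.zero_apply, aa_zero, EE_zero, mul_zero, ofReal_zero, zero_mul, sub_zero]

/-- from the boundary sum to the weighted norm -/
theorem tau_le (hp : 0 < p) (lam : ℝ) (ζ : ℂ) (r : ℕ) (h0 : (0 : Site) ∈ Bl 0 r) :
    tau (scl lam uni) ζ p r ≤ (sub (Bl 0 r) (Sh 0 r)).card *
      ∫⁻ v, MP (AF (Bl 0 r)) lam ζ 0 p {⟨0, h0⟩} (sub (Bl 0 r) (Sh 0 r)) v
        ∂(Measure.pi fun _ : Bl 0 r => uni) := by
  have hs : sub (Bl 0 r) {(0 : Site)} = {⟨0, h0⟩} := by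
    ext v
    rw [mem_sub, Finset.mem_singleton, Finset.mem_singleton, Subtype.ext_iff]
  unfold tau ER
  rw [hs, Finset.sum_singleton, ← nsmul_eq_mul]
  refine Finset.sum_le_card_nsmul _ _ _ fun b hb => ?_
  unfold EG
  rw [lintegral_pi_scl lam (measurable_H p _ b)]
  refine lintegral_mono fun v => ?_
  unfold MP
  refine ENNReal.ofReal_le_ofReal ?_
  rw [Wv_scl]
  have h1 : ‖Gr (AF (Bl 0 r)) (WP lam ζ 0 v) ⟨0, h0⟩ b‖ ^ 2 ≤
      MM (AF (Bl 0 r)) lam ζ 0 {⟨0, h0⟩} (sub (Bl 0 r) (Sh 0 r)) v := by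
    unfold MM bl
    rw [Finset.sum_singleton]
    refine le_trans (le_of_eq ?_) (Finset.single_le_sum (f := fun b =>
      ‖(dP lam (0 : Bl 0 r → ℝ) v ⟨0, h0⟩ : ℂ) * Gr (AF (Bl 0 r)) (WP lam ζ 0 v) ⟨0, h0⟩ b *
        dP lam (0 : Bl 0 r → ℝ) v b‖ ^ 2) (fun _ _ => sq_nonneg _) hb)
    have hd : ∀ x : Bl 0 r, dP lam (0 : Bl 0 r → ℝ) v x = 1 := fun x => by
      unfold dP
      rw [Pi.zero_apply, if_pos rfl]
    rw [hd, hd, ofReal_one, one_mul, mul_one]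
  rw [← P365S6.sq_rpow_half (norm_nonneg _)]
  exact Real.rpow_le_rpow (sq_nonneg _) h1 (by positivity)

/-- iteration of the chain step -/
theorem chain_iter {X : Finset Site} (hlam : 0 < lam) (hζ : 0 < ζ.im) (hc : 0 < c) (hp : 0 < p)
    (hp1 : p < 1) {m0 : ℕ} (hm0 : 0 < m0) (hcm : c < m0) {G : ℝ} {β : ℕ → ℝ} {o : X}
    (ho : ds (o : Site) 0 < 2 * m0)
    {kI kO : ℕ → (X → ℝ) → ℝ} {bI bO : ℕ → (X → ℝ) → ℝ≥0∞}
    (h : ∀ j, RB X (4 ^ j * m0) lam c p G (β j) (kI j) (kO j) (bI j) (bO j)) {q : ℝ} (hq : 0 ≤ q)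
    (n : ℕ) (hX : ∀ j < n, Ann (4 ^ j * m0) ⊆ X)
    (hstep : ∀ j < n, ENNReal.ofReal (CR p (c / (4 ^ j * m0 : ℕ))
      (sl X (2 * (4 ^ j * m0)) (4 * (4 ^ j * m0))).card) *
      (ENNReal.ofReal (G ^ 2) * TT lam c p ζ (4 ^ j * m0) + ENNReal.ofReal
        (81 * (4 ^ j * m0 : ℕ) ^ 2 * (G * β (j + 1) + G * β j + β j * β (j + 1)))) ≤
      ENNReal.ofReal q) :
    Zin X lam c p ζ {o} (4 ^ n * m0) (kI n) ≤
      ENNReal.ofReal (q ^ n) * Zin X lam c p ζ {o} (4 ^ 0 * m0) (kI 0) := by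
  induction n with
  | zero => simp
  | succ n ih =>
    have ih' := ih (fun j hj => hX j (by omega)) (fun j hj => hstep j (by omega))
    have hmn : 0 < 4 ^ n * m0 := by positivity
    have hmn1 : m0 ≤ 4 ^ n * m0 := Nat.le_mul_of_pos_left _ (by positivity)
    have hmn2 : (m0 : ℝ) ≤ (4 ^ n * m0 : ℕ) := by exact_mod_cast hmn1
    have hcm' : c / (4 ^ n * m0 : ℕ) < 1 := by
      rw [div_lt_one (by exact_mod_cast hmn)]
      linarith
    have e : 4 ^ (n + 1) * m0 = 4 * (4 ^ n * m0) := by ring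
    have h' := h (n + 1)
    rw [e] at h'
    have h1 := chain_step (S := {o}) hlam hζ hp hp1 hmn hc hcm' (h n).rd h'.rd (fun x hx => by
      rw [Finset.mem_singleton] at hx
      rw [hx]
      omega)
    rw [e]
    refine h1.trans ?_
    have h2 := Xg_le hlam hζ hc hmn hp hp1 (h n) h'
    rw [TX_eq hlam hζ (hX n (by omega))] at h2
    have h3 := hstep n (by omega)
    calc ENNReal.ofReal (CR p (c / (4 ^ n * m0 : ℕ)) (sl X (2 * (4 ^ n * m0))
          (4 * (4 ^ n * m0))).card) * (Zin X lam c p ζ {o} (4 ^ n * m0) (kI n) *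
          Xg X lam c p ζ (4 ^ n * m0) (kO n) (kI (n + 1)))
        = Zin X lam c p ζ {o} (4 ^ n * m0) (kI n) * (ENNReal.ofReal (CR p (c / (4 ^ n * m0 : ℕ))
          (sl X (2 * (4 ^ n * m0)) (4 * (4 ^ n * m0))).card) *
          Xg X lam c p ζ (4 ^ n * m0) (kO n) (kI (n + 1))) := by ring
      _ ≤ (ENNReal.ofReal (q ^ n) * Zin X lam c p ζ {o} (4 ^ 0 * m0) (kI 0)) *
          ENNReal.ofReal q := by
          gcongr
          refine le_trans ?_ h3
          gcongr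
      _ = _ := by
          rw [mul_right_comm, ← ENNReal.ofReal_mul (by positivity), pow_succ]

/-- the loss per ring is bounded -/
noncomputable def CRc (p c : ℝ) : ℝ := π * (1 + CK p * 2 ^ p) * Real.exp (162 * c ^ 2)

theorem CRc_pos {p c : ℝ} (hp : 0 < p) (hp1 : p < 1) : 0 < CRc p c := by
  unfold CRc
  have := CK_nonneg hp hp1
  have := Real.pi_pos
  positivity

theorem exp_le_one_sub {x : ℝ} (h0 : 0 ≤ x) (h1 : x ≤ 1 / 2) : Real.exp (-(2 * x)) ≤ 1 - x := by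
  rw [Real.exp_neg, inv_le_comm₀ (Real.exp_pos _) (by linarith)]
  refine le_trans ?_ (Real.add_one_le_exp _)
  rw [inv_le_comm₀ (by linarith) (by linarith)]
  rw [inv_le_comm₀ (by linarith) (by linarith), inv_le_iff_one_le_mul₀ (by linarith)]
  nlinarith

theorem CR_le {X : Finset Site} (hp : 0 < p) (hp1 : p < 1) (hc : 0 < c) {m : ℕ} (hm : 0 < m)
    (hcm : 2 * c ≤ m) (a : ℕ) : CR p (c / m) (sl X a (4 * m)).card ≤ CRc p c := by
  have hm' : (0 : ℝ) < m := by exact_mod_cast hm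
  obtain ⟨κ, hκ⟩ : ∃ κ, κ = c / m := ⟨_, rfl⟩
  have hκ0 : 0 < κ := by
    rw [hκ]
    positivity
  have hκ1 : κ ≤ 1 / 2 := by
    rw [hκ, div_le_iff₀ hm']
    linarith
  have hκ2 : κ ^ 2 ≤ 1 / 2 := by nlinarith
  have h1 := exp_le_one_sub (sq_nonneg κ) hκ2
  have hN := card_le81 X (a := a) hm
  obtain ⟨N, hNd⟩ : ∃ N : ℕ, N = (sl X a (4 * m)).card := ⟨_, rfl⟩
  rw [← hNd] at hN ⊢
  rw [← hκ]
  unfold CR CRc
  have h2 : Real.exp (-(162 * c ^ 2)) ≤ (1 - κ ^ 2) ^ N := by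
    calc Real.exp (-(162 * c ^ 2)) ≤ Real.exp (N * -(2 * κ ^ 2)) := by
          refine Real.exp_le_exp.2 ?_
          have h3 : (N : ℝ) * κ ^ 2 ≤ 81 * m ^ 2 * κ ^ 2 :=
            mul_le_mul_of_nonneg_right hN (sq_nonneg _)
          have h4 : 81 * (m : ℝ) ^ 2 * κ ^ 2 = 81 * c ^ 2 := by
            rw [hκ]
            field_simp
          linarith
      _ = Real.exp (-(2 * κ ^ 2)) ^ N := Real.exp_nat_mul _ _
      _ ≤ _ := pow_le_pow_left₀ (Real.exp_pos _).le h1 N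
  have h3 := CK_nonneg hp hp1
  have h4 := Real.pi_pos
  rw [div_le_iff₀ (lt_of_lt_of_le (Real.exp_pos _) h2)]
  have h5 : Real.exp (162 * c ^ 2) * Real.exp (-(162 * c ^ 2)) = 1 := by
    rw [← Real.exp_add, add_neg_cancel, Real.exp_zero]
  calc π * (1 + CK p * 2 ^ p) = π * (1 + CK p * 2 ^ p) *
        (Real.exp (162 * c ^ 2) * Real.exp (-(162 * c ^ 2))) := by rw [h5, mul_one]
    _ ≤ π * (1 + CK p * 2 ^ p) * (Real.exp (162 * c ^ 2) * (1 - κ ^ 2) ^ N) := by gcongr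
    _ = _ := by ring

/-- the error of the gap factor -/
noncomputable def err (G lam c C2 : ℝ) (m : ℕ) : ℝ :=
  81 * (m : ℝ) ^ 2 * (G * βc lam c C2 (4 * m) + G * βc lam c C2 m +
    βc lam c C2 m * βc lam c C2 (4 * m))

theorem tendsto_poly_geom (k : ℕ) : Tendsto (fun m : ℕ => (m : ℝ) ^ k * (3 / 4 : ℝ) ^ m) atTop (𝓝 0) :=
  tendsto_pow_const_mul_const_pow_of_abs_lt_one k (by norm_num [abs_of_pos])

theorem tendsto_βc (lam c C2 : ℝ) (k : ℕ) :
    Tendsto (fun m : ℕ => (m : ℝ) ^ k * βc lam c C2 m) atTop (𝓝 0) := by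
  have h1 := (tendsto_poly_geom (k + 2)).const_mul (16 * C2)
  have h2 := (tendsto_poly_geom (k + 3)).const_mul (8 / (lam * c) * (16 * C2))
  have h3 := h1.add h2
  rw [mul_zero, mul_zero, add_zero] at h3
  refine h3.congr fun m => ?_
  unfold βc
  ring

theorem tendsto_err (G lam c C2 : ℝ) : Tendsto (fun m : ℕ => err G lam c C2 m) atTop (𝓝 0) := by
  have h4 : Tendsto (fun m : ℕ => 4 * m) atTop atTop :=
    tendsto_atTop_mono (fun m => by show m ≤ 4 * m; omega) tendsto_id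
  have a1 := (tendsto_βc lam c C2 2).comp h4
  have a2 := tendsto_βc lam c C2 2
  have a3 := (tendsto_βc lam c C2 0).comp h4
  have b := ((a1.const_mul (81 * G / 16)).add (a2.const_mul (81 * G))).add
    ((a2.mul a3).const_mul 81)
  simp only [mul_zero, add_zero] at b
  refine b.congr fun m => ?_
  simp only [Function.comp]
  unfold err
  push_cast
  ring

theorem βc_nonneg (hlam : 0 < lam) (hc : 0 < c) {C2 : ℝ} (hC2 : 0 < C2) (m : ℕ) :
    0 ≤ βc lam c C2 m := by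
  unfold βc
  positivity

/-- common `η₀` for finitely many scales -/
theorem common_eta {P : ℕ → ℝ → Prop} (n : ℕ)
    (h : ∀ j < n, ∃ η₀ : ℝ, 0 < η₀ ∧ ∀ η : ℝ, 0 < η → η ≤ η₀ → P j η) :
    ∃ η₀ : ℝ, 0 < η₀ ∧ ∀ η : ℝ, 0 < η → η ≤ η₀ → ∀ j < n, P j η := by
  induction n with
  | zero => exact ⟨1, one_pos, fun η _ _ j hj => absurd hj (by omega)⟩
  | succ n ih =>
    obtain ⟨a, ha, h1⟩ := ih fun j hj => h j (by omega)
    obtain ⟨b, hb, h2⟩ := h n (by omega)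
    refine ⟨min a b, lt_min ha hb, fun η hη hη1 j hj => ?_⟩
    rcases Nat.lt_succ_iff_lt_or_eq.1 hj with h3 | h3
    · exact h1 η hη (hη1.trans (min_le_left _ _)) j h3
    · rw [h3]
      exact h2 η hη (hη1.trans (min_le_right _ _))

end P365CU
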