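import Vale.Agent.P365.CU.Indep

set_option linter.all false

/-!
# P365 / CU / Chain: concentric rings, the chain of ring steps.
-/

namespace P365CU

open MeasureTheory ProbabilityTheory Complex Matrix Function P365S6
open P365L P365L.Comp P365X
open scoped ENNReal Real

variable {X : Finset Site} {lam c p : ℝ} {ζ : ℂ}

/-- inside -/
noncomputable def inn (X : Finset Site) (a : ℕ) : Finset X :=
  Finset.univ.filter fun x => ds (x : Site) 0 < a

/-- outside -/
noncomputable def out (X : Finset Site) (a : ℕ) : Finset X :=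
  Finset.univ.filter fun x => a ≤ ds (x : Site) 0

/-- shell -/
noncomputable def sl (X : Finset Site) (a b : ℕ) : Finset X :=
  Finset.univ.filter fun x => a ≤ ds (x : Site) 0 ∧ ds (x : Site) 0 < b

theorem mem_inn {a : ℕ} {x : X} : x ∈ inn X a ↔ ds (x : Site) 0 < a := by simp [inn]
theorem mem_out {a : ℕ} {x : X} : x ∈ out X a ↔ a ≤ ds (x : Site) 0 := by simp [out]
theorem mem_sl {a b : ℕ} {x : X} :
    x ∈ sl X a b ↔ a ≤ ds (x : Site) 0 ∧ ds (x : Site) 0 < b := by simp [sl]

/-- the data of a ring `2m ≤ |x| < 4m`, Dirichlet circle at `3m` -/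
structure RD (X : Finset Site) (m : ℕ) (lam c : ℝ) (kI kO : (X → ℝ) → ℝ) : Prop where
  mI : Measurable kI
  mO : Measurable kO
  dI : ∀ v v' : X → ℝ, (∀ x ∈ sl X (2 * m) (3 * m), v x = v' x) → kI v = kI v'
  dO : ∀ v v' : X → ℝ, (∀ x ∈ sl X (3 * m) (4 * m), v x = v' x) → kO v = kO v'
  co : ∀ v : X → ℝ, (∀ x, |v x| < 1) → ∀ A : Matrix X X ℝ, A.IsSymm →
    (∀ x y, |A x y| ≤ adj x y) → ∀ κ : X → ℝ, (∀ x ∈ sl X (2 * m) (4 * m), κ x = c / m) →
    ∃ χ χ' : X → ℝ,
      CO (scA (dP lam κ v) A) (inn X (3 * m)) (sl X (2 * m) (3 * m)) χ (kI v) ∧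
      CO (scA (dP lam κ v) A) (out X (3 * m)) (sl X (3 * m) (4 * m)) χ' (kO v) ∧
      (∀ x : X, ds (x : Site) 0 ≤ 2 * m → χ x = 1) ∧
      (∀ x : X, 4 * m ≤ ds (x : Site) 0 → χ' x = 1)

/-- the weight functions -/
noncomputable def gw (p : ℝ) (k : (X → ℝ) → ℝ) (v : X → ℝ) : ℝ≥0∞ := ENNReal.ofReal ((1 + k v) ^ p)

theorem measurable_gw {k : (X → ℝ) → ℝ} (hk : Measurable k) : Measurable (gw p k) := by
  unfold gw
  fun_prop

theorem gw_dep {k : (X → ℝ) → ℝ} {R : Finset X}
    (h : ∀ v v' : X → ℝ, (∀ x ∈ R, v x = v' x) → k v = k v') : Dep R (gw p k) := by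
  intro v v' hv
  unfold gw
  rw [h v v' hv]

/-- profile of the inner contact -/
noncomputable def prI (X : Finset Site) (c : ℝ) (m : ℕ) : X → ℝ :=
  fun x => if x ∈ sl X (2 * m) (3 * m) then c / m else 0

/-- profile of the outer contact -/
noncomputable def prO (X : Finset Site) (c : ℝ) (m : ℕ) : X → ℝ :=
  fun x => if x ∈ sl X (3 * m) (4 * m) then c / m else 0

/-- profile of the gap: contacts on both sides -/
noncomputable def prX (X : Finset Site) (c : ℝ) (m : ℕ) : X → ℝ :=
  fun x => if x ∈ sl X (3 * m) (4 * m) then c / m else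
    if x ∈ sl X (8 * m) (12 * m) then c / (4 * m : ℕ) else 0

/-- from the root to the inner contact of the ring `m` -/
noncomputable def Zin (X : Finset Site) (lam c p : ℝ) (ζ : ℂ) (S : Finset X) (m : ℕ)
    (kI : (X → ℝ) → ℝ) : ℝ≥0∞ :=
  ∫⁻ v, gw p kI v * MP (cut (AF X) (inn X (3 * m))) lam ζ (prI X c m) p S
    (sl X (2 * m) (3 * m)) v ∂(Measure.pi fun _ : X => uni)

/-- through the gap between the rings `m` and `4m` -/
noncomputable def Xg (X : Finset Site) (lam c p : ℝ) (ζ : ℂ) (m : ℕ)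
    (kO kI' : (X → ℝ) → ℝ) : ℝ≥0∞ :=
  ∫⁻ v, gw p kO v * (gw p kI' v * MP (cut (cut (AF X) (inn X (12 * m))) (inn X (3 * m))) lam ζ
    (prX X c m) p (sl X (3 * m) (4 * m)) (sl X (8 * m) (12 * m)) v)
      ∂(Measure.pi fun _ : X => uni)

/-- from the outer contact of the ring `m` to the target -/
noncomputable def Zout (X : Finset Site) (lam c p : ℝ) (ζ : ℂ) (B : Finset X) (m : ℕ)
    (kO : (X → ℝ) → ℝ) : ℝ≥0∞ :=
  ∫⁻ v, gw p kO v * MP (cut (AF X) (inn X (3 * m))) lam ζ (prO X c m) p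
    (sl X (3 * m) (4 * m)) B v ∂(Measure.pi fun _ : X => uni)

theorem adj_nonneg (x y : Site) : 0 ≤ adj x y := by
  unfold adj
  split_ifs <;> norm_num

theorem abs_AF_le (x y : X) : |AF X x y| ≤ adj x y := by
  unfold AF
  rw [abs_of_nonneg (adj_nonneg _ _)]

theorem abs_cut_le {A : Matrix X X ℝ} (hA : ∀ x y, |A x y| ≤ adj x y) (R : Finset X) (x y : X) :
    |cut A R x y| ≤ adj x y := by
  unfold cut
  split_ifs
  · exact hA x y
  · rw [abs_zero]
    exact adj_nonneg _ _

/-- a double cut is decoupled along both sets -/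
theorem dec_cut_of {ι : Type*} [Fintype ι] [DecidableEq ι] {A : Matrix ι ι ℝ} {R : Finset ι}
    (hD : Dec A fun x => x ∈ R) (R' : Finset ι) : Dec (cut A R') fun x => x ∈ R := by
  intro x y h
  unfold cut
  rw [hD x y h]
  split_ifs <;> rfl

/-- THE CHAIN STEP -/
theorem chain_step (hlam : 0 < lam) (hζ : 0 < ζ.im) (hp : 0 < p) (hp1 : p < 1) {m : ℕ}
    (hm : 0 < m) (hc : 0 < c) (hcm : c / m < 1) {kI kO kI' kO' : (X → ℝ) → ℝ}
    (h : RD X m lam c kI kO) (h' : RD X (4 * m) lam c kI' kO') {S : Finset X}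
    (hS : ∀ x ∈ S, ds (x : Site) 0 < 2 * m) :
    Zin X lam c p ζ S (4 * m) kI' ≤
      ENNReal.ofReal (CR p (c / m) (sl X (2 * m) (4 * m)).card) *
        (Zin X lam c p ζ S m kI * Xg X lam c p ζ m kO kI') := by
  have hm' : (0 : ℝ) < m := by exact_mod_cast hm
  have hcm0 : 0 < c / m := by positivity
  have e12 : 3 * (4 * m) = 12 * m := by ring
  have e8 : 2 * (4 * m) = 8 * m := by ring
  obtain ⟨A, hAdef⟩ : ∃ A : Matrix X X ℝ, A = cut (AF X) (inn X (12 * m)) := ⟨_, rfl⟩
  have hA : A.IsSymm := by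
    rw [hAdef]
    exact cut_symm (AF_symm X) _
  have hAadj : ∀ x y, |A x y| ≤ adj x y := by
    intro x y
    rw [hAdef]
    exact abs_cut_le abs_AF_le _ x y
  have hκ : ∀ x, 0 ≤ prI X c (4 * m) x := by
    intro x
    unfold prI
    split_ifs
    · positivity
    · exact le_rfl
  have hmain := ring_exp (A := A) (p := p) (ζ := ζ) (κ := prI X c (4 * m)) hA hlam hζ hp hp1 hκ
    hcm0 hcm (R := inn X (3 * m)) (N := sl X (2 * m) (3 * m)) (R' := out X (3 * m))
    (N' := sl X (3 * m) (4 * m)) (L := sl X (2 * m) (4 * m)) (S := S)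
    (B := sl X (8 * m) (12 * m))
    (fun x hx => by
      rw [mem_sl] at hx
      unfold prI
      rw [if_neg]
      rw [mem_sl]
      omega)
    (fun x hx => by
      rw [mem_sl]
      have := hS x hx
      omega)
    (fun x hx => by
      rw [mem_sl] at hx ⊢
      omega)
    (fun x => by
      rw [mem_out, mem_inn]
      omega)
    (fun x => by
      rw [mem_sl, mem_sl, mem_sl]
      omega)
    (k := kI) (k' := kO)
    (fun v hv => by
      obtain ⟨χ, χ', h1, h2, h3, h4⟩ := h.co v hv A hA hAadj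
        (swOn (prI X c (4 * m)) (sl X (2 * m) (4 * m)) (c / m)) (fun x hx => by
          unfold swOn
          rw [if_pos hx])
      refine ⟨χ, χ', h1, h2, fun a ha => h3 a (hS a ha).le, fun b hb => h4 b ?_, fun b hb => ?_⟩
      · rw [mem_sl] at hb
        omega
      · refine h1.zero b ?_
        rw [mem_sl] at hb
        rw [mem_inn]
        omega)
    (Φ := gw p kI') (measurable_gw h'.mI) (fun v v' hv => gw_dep h'.dI v v' fun x hx => hv x (by
      rw [mem_sl] at hx ⊢
      omega))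
  have hZ : Zin X lam c p ζ S (4 * m) kI' = ∫⁻ v, MP A lam ζ (prI X c (4 * m)) p S
      (sl X (8 * m) (12 * m)) v * gw p kI' v ∂(Measure.pi fun _ : X => uni) := by
    unfold Zin
    refine lintegral_congr fun v => ?_
    rw [mul_comm, e12, e8, hAdef]
  rw [hZ]
  refine hmain.trans ?_
  gcongr
  have hD1 : Dec A fun x => x ∈ inn X (12 * m) := by
    rw [hAdef]
    exact cut_dec _ _
  obtain ⟨A2, hA2⟩ : ∃ A2 : Matrix X X ℝ, A2 = cut A (inn X (3 * m)) := ⟨_, rfl⟩
  have hA2s : A2.IsSymm := by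
    rw [hA2]
    exact cut_symm hA _
  have hD2 : Dec A2 fun x => x ∈ inn X (3 * m) := by
    rw [hA2]
    exact cut_dec _ _
  have hD3 : Dec A2 fun x => x ∈ out X (3 * m) := dec_compl (fun x => by
    rw [mem_out, mem_inn]
    omega) hD2
  rw [← hA2]
  -- the inner factor
  have e1 : ∀ v, MP A2 lam ζ (swOn (prI X c (4 * m)) (sl X (2 * m) (4 * m)) (c / m)) p S
      (sl X (2 * m) (3 * m)) v = MP (cut (AF X) (inn X (3 * m))) lam ζ (prI X c m) p S
      (sl X (2 * m) (3 * m)) v := by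
    intro v
    refine MP_blk (R := inn X (3 * m)) hA2s (cut_symm (AF_symm X) _) hlam hζ hD2 (cut_dec _ _)
      (fun x hx y hy => ?_) (fun x hx => ?_) (fun _ _ => rfl) (fun x hx => ?_) (fun x hx => ?_)
    · rw [hA2, hAdef]
      unfold cut
      rw [mem_inn] at hx hy
      rw [if_pos (by rw [mem_inn, mem_inn]; omega), if_pos (by rw [mem_inn, mem_inn]; omega),
        if_pos (by rw [mem_inn, mem_inn]; omega)]
    · unfold swOn prI
      rw [mem_inn] at hx
      simp only [mem_sl]
      by_cases h1 : 2 * m ≤ ds (x : Site) 0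
      · rw [if_pos (by omega), if_pos (by omega)]
      · rw [if_neg (by omega), if_neg (by omega), if_neg (by omega)]
    · rw [mem_inn]
      have := hS x hx
      omega
    · rw [mem_sl] at hx
      rw [mem_inn]
      omega
  have e2 : ∀ v, MP A2 lam ζ (swOn (prI X c (4 * m)) (sl X (2 * m) (4 * m)) (c / m)) p
      (sl X (3 * m) (4 * m)) (sl X (8 * m) (12 * m)) v = MP A2 lam ζ (prX X c m) p
      (sl X (3 * m) (4 * m)) (sl X (8 * m) (12 * m)) v := by
    intro v
    refine MP_blk (R := out X (3 * m)) hA2s hA2s hlam hζ hD3 hD3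
      (fun x hx y hy => rfl) (fun x hx => ?_) (fun _ _ => rfl) (fun x hx => ?_) (fun x hx => ?_)
    · unfold swOn prI prX
      rw [mem_out] at hx
      simp only [mem_sl]
      by_cases h1 : ds (x : Site) 0 < 4 * m
      · rw [if_pos (by omega), if_pos (by omega)]
      · by_cases h2 : 8 * m ≤ ds (x : Site) 0 ∧ ds (x : Site) 0 < 12 * m
        · rw [if_neg (by omega), if_pos (by omega), if_neg (by omega), if_pos h2]
        · rw [if_neg (by omega), if_neg (by omega), if_neg (by omega), if_neg h2]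
    · rw [mem_sl] at hx
      rw [mem_out]
      omega
    · rw [mem_sl] at hx
      rw [mem_out]
      omega
  obtain ⟨f, hf⟩ : ∃ f : (X → ℝ) → ℝ≥0∞, f = fun v => gw p kI v *
      MP A2 lam ζ (swOn (prI X c (4 * m)) (sl X (2 * m) (4 * m)) (c / m)) p S
        (sl X (2 * m) (3 * m)) v := ⟨_, rfl⟩
  obtain ⟨g, hg⟩ : ∃ g : (X → ℝ) → ℝ≥0∞, g = fun v => gw p kO v * (gw p kI' v *
      MP A2 lam ζ (swOn (prI X c (4 * m)) (sl X (2 * m) (4 * m)) (c / m)) p
      (sl X (3 * m) (4 * m)) (sl X (8 * m) (12 * m)) v) := ⟨_, rfl⟩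
  have hfm : Measurable f := by
    rw [hf]
    exact (measurable_gw h.mI).mul (measurable_MP _ _)
  have hgm : Measurable g := by
    rw [hg]
    exact (measurable_gw h.mO).mul ((measurable_gw h'.mI).mul (measurable_MP _ _))
  have hfd : Dep (inn X (3 * m)) f := by
    rw [hf]
    refine Dep.mul ((gw_dep h.dI).mono fun x hx => ?_) (MP_dep hA2s hlam hζ hD2 (fun x hx => ?_)
      fun x hx => ?_)
    · rw [mem_sl] at hx
      rw [mem_inn]
      omega
    · rw [mem_inn]
      have := hS x hx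
      omega
    · rw [mem_sl] at hx
      rw [mem_inn]
      omega
  have hgd : Dep (out X (3 * m)) g := by
    rw [hg]
    refine Dep.mul ((gw_dep h.dO).mono fun x hx => ?_) (Dep.mul ((gw_dep h'.dI).mono
      fun x hx => ?_) (MP_dep hA2s hlam hζ hD3 (fun x hx => ?_) fun x hx => ?_))
    · rw [mem_sl] at hx
      rw [mem_out]
      omega
    · rw [mem_sl] at hx
      rw [mem_out]
      omega
    · rw [mem_sl] at hx
      rw [mem_out]
      omega
    · rw [mem_sl] at hx
      rw [mem_out]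
      omega
  have hind := lintegral_indep (μ := uni) (R := inn X (3 * m)) (R' := out X (3 * m)) (fun x hx => by
    rw [mem_out] at hx
    rw [mem_inn]
    omega) hfm hgm hfd hgd
  have hle : ∫⁻ v, ((ENNReal.ofReal ((1 + kI v) ^ p) *
      MP A2 lam ζ (swOn (prI X c (4 * m)) (sl X (2 * m) (4 * m)) (c / m)) p S
        (sl X (2 * m) (3 * m)) v) * (ENNReal.ofReal ((1 + kO v) ^ p) *
      MP A2 lam ζ (swOn (prI X c (4 * m)) (sl X (2 * m) (4 * m)) (c / m)) p
      (sl X (3 * m) (4 * m)) (sl X (8 * m) (12 * m)) v)) * gw p kI' v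
        ∂(Measure.pi fun _ : X => uni) = ∫⁻ v, f v * g v ∂(Measure.pi fun _ : X => uni) := by
    refine lintegral_congr fun v => ?_
    rw [hf, hg]
    unfold gw
    ring
  rw [hle, hind]
  refine le_of_eq ?_
  congr 1
  · unfold Zin
    refine lintegral_congr fun v => ?_
    rw [hf]
    simp only
    rw [e1]
  · unfold Xg
    refine lintegral_congr fun v => ?_
    rw [hg]
    simp only
    rw [e2, hA2, hAdef]

/-- THE FIRST (outermost) STEP: from the full operator -/
theorem chain_end (hlam : 0 < lam) (hζ : 0 < ζ.im) (hp : 0 < p) (hp1 : p < 1) {m : ℕ}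
    (hm : 0 < m) (hc : 0 < c) (hcm : c / m < 1) {kI kO : (X → ℝ) → ℝ}
    (h : RD X m lam c kI kO) {S B : Finset X}
    (hS : ∀ x ∈ S, ds (x : Site) 0 < 2 * m) (hB : ∀ x ∈ B, 4 * m ≤ ds (x : Site) 0) :
    ∫⁻ v, MP (AF X) lam ζ 0 p S B v ∂(Measure.pi fun _ : X => uni) ≤
      ENNReal.ofReal (CR p (c / m) (sl X (2 * m) (4 * m)).card) *
        (Zin X lam c p ζ S m kI * Zout X lam c p ζ B m kO) := by
  have hm' : (0 : ℝ) < m := by exact_mod_cast hm
  have hcm0 : 0 < c / m := by positivity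
  have hmain := ring_exp (A := AF X) (p := p) (ζ := ζ) (κ := (0 : X → ℝ)) (AF_symm X) hlam hζ hp
    hp1 (fun x => le_rfl)
    hcm0 hcm (R := inn X (3 * m)) (N := sl X (2 * m) (3 * m)) (R' := out X (3 * m))
    (N' := sl X (3 * m) (4 * m)) (L := sl X (2 * m) (4 * m)) (S := S)
    (B := B)
    (fun x hx => rfl)
    (fun x hx => by
      rw [mem_sl]
      have := hS x hx
      omega)
    (fun x hx => by
      rw [mem_sl]
      have := hB x hx
      omega)
    (fun x => by
      rw [mem_out, mem_inn]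
      omega)
    (fun x => by
      rw [mem_sl, mem_sl, mem_sl]
      omega)
    (k := kI) (k' := kO)
    (fun v hv => by
      obtain ⟨χ, χ', h1, h2, h3, h4⟩ := h.co v hv (AF X) (AF_symm X) abs_AF_le
        (swOn (0 : X → ℝ) (sl X (2 * m) (4 * m)) (c / m)) (fun x hx => by
          unfold swOn
          rw [if_pos hx])
      refine ⟨χ, χ', h1, h2, fun a ha => h3 a (hS a ha).le, fun b hb => h4 b (hB b hb),
        fun b hb => ?_⟩
      · refine h1.zero b ?_
        rw [mem_inn]
        have := hB b hb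
        omega)
    (Φ := fun _ => 1) measurable_const (fun v v' hv => rfl)
  simp only [mul_one] at hmain
  refine hmain.trans ?_
  gcongr
  obtain ⟨A2, hA2⟩ : ∃ A2 : Matrix X X ℝ, A2 = cut (AF X) (inn X (3 * m)) := ⟨_, rfl⟩
  have hA2s : A2.IsSymm := by
    rw [hA2]
    exact cut_symm (AF_symm X) _
  have hD2 : Dec A2 fun x => x ∈ inn X (3 * m) := by
    rw [hA2]
    exact cut_dec _ _
  have hD3 : Dec A2 fun x => x ∈ out X (3 * m) := dec_compl (fun x => by
    rw [mem_out, mem_inn]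
    omega) hD2
  rw [← hA2]
  have e1 : ∀ v, MP A2 lam ζ (swOn (0 : X → ℝ) (sl X (2 * m) (4 * m)) (c / m)) p S
      (sl X (2 * m) (3 * m)) v = MP A2 lam ζ (prI X c m) p S
      (sl X (2 * m) (3 * m)) v := by
    intro v
    refine MP_blk (R := inn X (3 * m)) hA2s hA2s hlam hζ hD2 hD2
      (fun x hx y hy => rfl) (fun x hx => ?_) (fun _ _ => rfl) (fun x hx => ?_) (fun x hx => ?_)
    · unfold swOn prI
      rw [mem_inn] at hx
      simp only [mem_sl, Pi.zero_apply]
      by_cases h1 : 2 * m ≤ ds (x : Site) 0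
      · rw [if_pos (by omega), if_pos (by omega)]
      · rw [if_neg (by omega), if_neg (by omega)]
    · rw [mem_inn]
      have := hS x hx
      omega
    · rw [mem_sl] at hx
      rw [mem_inn]
      omega
  have hBo : B ⊆ out X (3 * m) := fun x hx => by
    rw [mem_out]
    have := hB x hx
    omega
  have e2 : ∀ v, MP A2 lam ζ (swOn (0 : X → ℝ) (sl X (2 * m) (4 * m)) (c / m)) p
      (sl X (3 * m) (4 * m)) B v = MP A2 lam ζ (prO X c m) p
      (sl X (3 * m) (4 * m)) B v := by
    intro v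
    refine MP_blk (R := out X (3 * m)) hA2s hA2s hlam hζ hD3 hD3
      (fun x hx y hy => rfl) (fun x hx => ?_) (fun _ _ => rfl) (fun x hx => ?_) hBo
    · unfold swOn prO
      rw [mem_out] at hx
      simp only [mem_sl, Pi.zero_apply]
      by_cases h1 : ds (x : Site) 0 < 4 * m
      · rw [if_pos (by omega), if_pos (by omega)]
      · rw [if_neg (by omega), if_neg (by omega)]
    · rw [mem_sl] at hx
      rw [mem_out]
      omega
  obtain ⟨f, hf⟩ : ∃ f : (X → ℝ) → ℝ≥0∞, f = fun v => gw p kI v *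
      MP A2 lam ζ (swOn (0 : X → ℝ) (sl X (2 * m) (4 * m)) (c / m)) p S
        (sl X (2 * m) (3 * m)) v := ⟨_, rfl⟩
  obtain ⟨g, hg⟩ : ∃ g : (X → ℝ) → ℝ≥0∞, g = fun v => gw p kO v *
      MP A2 lam ζ (swOn (0 : X → ℝ) (sl X (2 * m) (4 * m)) (c / m)) p
      (sl X (3 * m) (4 * m)) B v := ⟨_, rfl⟩
  have hfm : Measurable f := by
    rw [hf]
    exact (measurable_gw h.mI).mul (measurable_MP _ _)
  have hgm : Measurable g := by
    rw [hg]
    exact (measurable_gw h.mO).mul (measurable_MP _ _)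
  have hfd : Dep (inn X (3 * m)) f := by
    rw [hf]
    refine Dep.mul ((gw_dep h.dI).mono fun x hx => ?_) (MP_dep hA2s hlam hζ hD2 (fun x hx => ?_)
      fun x hx => ?_)
    · rw [mem_sl] at hx
      rw [mem_inn]
      omega
    · rw [mem_inn]
      have := hS x hx
      omega
    · rw [mem_sl] at hx
      rw [mem_inn]
      omega
  have hgd : Dep (out X (3 * m)) g := by
    rw [hg]
    refine Dep.mul ((gw_dep h.dO).mono fun x hx => ?_)
      (MP_dep hA2s hlam hζ hD3 (fun x hx => ?_) hBo)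
    · rw [mem_sl] at hx
      rw [mem_out]
      omega
    · rw [mem_sl] at hx
      rw [mem_out]
      omega
  have hind := lintegral_indep (μ := uni) (R := inn X (3 * m)) (R' := out X (3 * m)) (fun x hx => by
    rw [mem_out] at hx
    rw [mem_inn]
    omega) hfm hgm hfd hgd
  have hle : ∫⁻ v, (ENNReal.ofReal ((1 + kI v) ^ p) *
      MP A2 lam ζ (swOn (0 : X → ℝ) (sl X (2 * m) (4 * m)) (c / m)) p S
        (sl X (2 * m) (3 * m)) v) * (ENNReal.ofReal ((1 + kO v) ^ p) *
      MP A2 lam ζ (swOn (0 : X → ℝ) (sl X (2 * m) (4 * m)) (c / m)) p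
      (sl X (3 * m) (4 * m)) B v)
        ∂(Measure.pi fun _ : X => uni) = ∫⁻ v, f v * g v ∂(Measure.pi fun _ : X => uni) := by
    refine lintegral_congr fun v => ?_
    rw [hf, hg]
    unfold gw
    ring
  rw [hle, hind]
  refine le_of_eq ?_
  congr 1
  · unfold Zin
    refine lintegral_congr fun v => ?_
    rw [hf]
    simp only
    rw [e1, hA2]
  · unfold Zout
    refine lintegral_congr fun v => ?_
    rw [hg]
    simp only
    rw [e2, hA2]

end P365CU
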