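import Vale.Agent.P365.CU.Final

set_option linter.all false

/-!
# P365 / CU / Cut: the first passage cut-off.

For a configuration `v` call a site `x` a defect when `1 - v_x² < τ`.  The number of edges of a
path whose two ends are not defects gives a distance `dd` from the sphere `|x| = R` in the strip
`R ≤ |x| < R + m`; the cut-off is `χ = 1 - dd / T` with `T = m / 4`.
-/

namespace P365CU

open MeasureTheory ProbabilityTheory Complex Matrix Function P365S6
open P365L P365L.Comp P365X
open scoped ENNReal Real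

namespace FP

variable {X : Finset Site} {R m : ℕ} {df : X → Prop}

/-- the strip -/
def st (X : Finset Site) (R m : ℕ) (x : X) : Prop := R ≤ ds (x : Site) 0 ∧ ds (x : Site) 0 < R + m

open Classical in
/-- weight of an edge -/
noncomputable def wt (df : X → Prop) (x y : X) : ℕ := if df x ∨ df y then 0 else 1

theorem wt_le (x y : X) : wt df x y ≤ 1 := by
  unfold wt
  split_ifs <;> norm_num

theorem wt_comm (x y : X) : wt df x y = wt df y x := by
  unfold wt
  by_cases h1 : df x <;> by_cases h2 : df y <;> simp [h1, h2]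

/-- self-avoiding path (read from its end) in the strip, from the inner sphere, with its weight -/
inductive Pth (X : Finset Site) (R m : ℕ) (df : X → Prop) : List X → ℕ → Prop
  | base (x : X) (hm : 0 < m) (hx : ds (x : Site) 0 = R) : Pth X R m df [x] 0
  | cons (x y : X) (l : List X) (j : ℕ) (h : Pth X R m df (x :: l) j) (ha : adj x y ≠ 0)
      (hy : st X R m y) (hn : y ∉ x :: l) : Pth X R m df (y :: x :: l) (j + wt df x y)

theorem Pth.suf {l : List X} {j : ℕ} (h : Pth X R m df l j) {y : X} (hy : y ∈ l) :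
    ∃ l' j', Pth X R m df (y :: l') j' ∧ j' ≤ j := by
  induction h with
  | base x hm hx =>
    rw [List.mem_singleton] at hy
    subst hy
    exact ⟨[], 0, Pth.base _ hm hx, le_rfl⟩
  | cons x z l j h ha hz hn ih =>
    rw [List.mem_cons] at hy
    rcases hy with rfl | hy
    · exact ⟨x :: l, _, Pth.cons x y l j h ha hz hn, le_rfl⟩
    · obtain ⟨l', j', h1, h2⟩ := ih hy
      exact ⟨l', j', h1, by omega⟩

theorem Pth.ext' {x : X} {l : List X} {j : ℕ} (h : Pth X R m df (x :: l) j) {y : X}
    (ha : adj x y ≠ 0) (hy : st X R m y) :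
    ∃ l' j', Pth X R m df (y :: l') j' ∧ j' ≤ j + wt df x y := by
  by_cases hn : y ∈ x :: l
  · obtain ⟨l', j', h1, h2⟩ := h.suf hn
    exact ⟨l', j', h1, by omega⟩
  · exact ⟨x :: l, _, Pth.cons x y l j h ha hy hn, le_rfl⟩

theorem Pth.len {l : List X} {j : ℕ} (h : Pth X R m df l j) {n : ℕ} (hn : n + 1 ≤ l.length) :
    ∃ x l' j', Pth X R m df (x :: l') j' ∧ l'.length = n ∧ j' ≤ j := by
  induction h with
  | base x hm hx =>
    rw [List.length_singleton] at hn
    refine ⟨x, [], 0, Pth.base _ hm hx, ?_, le_rfl⟩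
    simp only [List.length_nil]
    omega
  | cons x z l j h ha hz hn' ih =>
    by_cases h1 : n + 1 ≤ (x :: l).length
    · obtain ⟨x', l', j', h2, h3, h4⟩ := ih h1
      exact ⟨x', l', j', h2, h3, by omega⟩
    · refine ⟨z, x :: l, _, Pth.cons x z l j h ha hz hn', ?_, le_rfl⟩
      rw [List.length_cons] at hn
      omega

theorem Pth.reach {l : List X} {j : ℕ} (h : Pth X R m df l j) :
    ∀ x ∈ l.head?, ds (x : Site) 0 + 1 ≤ R + l.length := by
  induction h with
  | base x hm hx => simp [hx]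
  | cons x z l j h ha hz hn ih =>
    intro y hy
    simp only [List.head?_cons, Option.mem_def, Option.some.injEq] at hy
    subst hy
    have h1 := ih x (by simp)
    have h2 := (ds_adj (z := 0) ha).1
    simp only [List.length_cons] at h1 ⊢
    omega

theorem Pth.strip {l : List X} {j : ℕ} (h : Pth X R m df l j) : ∀ x ∈ l, st X R m x := by
  induction h with
  | base x hm hx =>
    intro y hy
    rw [List.mem_singleton] at hy
    subst hy
    exact ⟨hx.ge, by omega⟩
  | cons x z l j h ha hz hn ih =>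
    intro y hy
    rw [List.mem_cons] at hy
    rcases hy with rfl | hy
    · exact hz
    · exact ih y hy

open Classical in
theorem Pth.count {l : List X} {j : ℕ} (h : Pth X R m df l j) :
    ∀ x ∈ l.head?, l.length + (if df x then 1 else 0) ≤
      1 + j + 2 * (l.toFinset.filter df).card := by
  induction h with
  | base x hm hx =>
    intro y hy
    simp only [List.head?_cons, Option.mem_def, Option.some.injEq] at hy
    subst hy
    by_cases h1 : df x
    · rw [if_pos h1]
      have : (([x] : List X).toFinset.filter df).card = 1 := by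
        rw [Finset.card_eq_one]
        refine ⟨x, ?_⟩
        ext z
        simp only [List.toFinset_cons, List.toFinset_nil, Finset.mem_filter,
          Finset.mem_singleton, insert_empty_eq]
        constructor
        · exact fun h => h.1
        · rintro rfl
          exact ⟨rfl, h1⟩
      rw [this]
      simp
    · rw [if_neg h1]
      simp
  | cons x z l j h ha hz hn ih =>
    intro y hy
    simp only [List.head?_cons, Option.mem_def, Option.some.injEq] at hy
    subst hy
    have h1 := ih x (by simp)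
    have hn' : z ∉ (x :: l).toFinset := by rwa [List.mem_toFinset]
    have h3 : ((z :: x :: l).toFinset.filter df).card =
        ((x :: l).toFinset.filter df).card + (if df z then 1 else 0) := by
      rw [List.toFinset_cons, Finset.filter_insert]
      by_cases h2 : df z
      · rw [if_pos h2, if_pos h2, Finset.card_insert_of_notMem]
        exact fun h => hn' (Finset.mem_filter.1 h).1
      · rw [if_neg h2, if_neg h2, add_zero]
    rw [h3]
    have h4 : (z :: x :: l).length = (x :: l).length + 1 := rfl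
    rw [h4]
    unfold wt
    by_cases h5 : df x <;> by_cases h6 : df z <;>
      simp only [h5, h6, if_true, if_false, or_true, true_or, or_false, false_or] at h1 ⊢ <;> omega

open Classical in
/-- neighbours in the strip -/
noncomputable def nb (X : Finset Site) (R m : ℕ) (x : X) : Finset X :=
  Finset.univ.filter fun y => adj x y ≠ 0 ∧ st X R m y

theorem card_nb (x : X) : (nb X R m x).card ≤ 4 := by
  classical
  have h2 : (nb X R m x).card ≤ (nbr x).card := by
    refine Finset.card_le_card_of_injOn (fun y => (y : Site)) ?_ ?_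
    · intro y hy
      have := (Finset.mem_filter.1 hy).2
      exact mem_nbr_of_adj this.1
    · intro y _ z _ h
      exact Subtype.ext h
  exact h2.trans (card_nbr x)

open Classical in
/-- ends and supports of the paths with `n` steps -/
noncomputable def QQ (X : Finset Site) (R m : ℕ) : ℕ → Finset (X × Finset X)
  | 0 => (Finset.univ.filter fun x : X => ds (x : Site) 0 = R).image fun x => (x, {x})
  | n + 1 => (QQ X R m n).biUnion fun p => (nb X R m p.1).image fun y => (y, insert y p.2)

theorem card_QQ (n : ℕ) : (QQ X R m n).card ≤ (8 * R + 4) * 4 ^ n := by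
  classical
  induction n with
  | zero =>
    unfold QQ
    refine Finset.card_image_le.trans ?_
    rw [pow_zero, mul_one]
    have h2 : (Finset.univ.filter fun x : X => ds (x : Site) 0 = R).card ≤ (Sh 0 R).card := by
      refine Finset.card_le_card_of_injOn (fun y => (y : Site)) ?_ ?_
      · intro y hy
        exact mem_Sh.2 (Finset.mem_filter.1 hy).2
      · intro y _ z _ h
        exact Subtype.ext h
    exact h2.trans (card_Sh_le 0 R)
  | succ n ih =>
    unfold QQ
    refine Finset.card_biUnion_le.trans ?_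
    refine (Finset.sum_le_card_nsmul _ _ 4 fun p _ => Finset.card_image_le.trans
      (card_nb p.1)).trans ?_
    rw [smul_eq_mul, pow_succ]
    nlinarith

theorem QQ_card (n : ℕ) : ∀ p ∈ QQ X R m n, p.2.card ≤ n + 1 := by
  classical
  induction n with
  | zero =>
    intro p hp
    unfold QQ at hp
    obtain ⟨x, _, rfl⟩ := Finset.mem_image.1 hp
    simp
  | succ n ih =>
    intro p hp
    unfold QQ at hp
    obtain ⟨q, hq, hp⟩ := Finset.mem_biUnion.1 hp
    obtain ⟨y, _, rfl⟩ := Finset.mem_image.1 hp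
    exact (Finset.card_insert_le _ _).trans (by have := ih q hq; omega)

theorem QQ_strip (hm : 0 < m) (n : ℕ) : ∀ p ∈ QQ X R m n, ∀ x ∈ p.2, st X R m x := by
  classical
  induction n with
  | zero =>
    intro p hp
    unfold QQ at hp
    obtain ⟨x, hx, rfl⟩ := Finset.mem_image.1 hp
    intro y hy
    have h1 := (Finset.mem_filter.1 hx).2
    rw [Finset.mem_singleton] at hy
    subst hy
    exact ⟨h1.ge, by omega⟩
  | succ n ih =>
    intro p hp
    unfold QQ at hp
    obtain ⟨q, hq, hp⟩ := Finset.mem_biUnion.1 hp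
    obtain ⟨y, hy, rfl⟩ := Finset.mem_image.1 hp
    intro z hz
    rw [Finset.mem_insert] at hz
    rcases hz with rfl | hz
    · exact (Finset.mem_filter.1 hy).2.2
    · exact ih q hq z hz

theorem Pth.mem_QQ {l : List X} {j : ℕ} (h : Pth X R m df l j) :
    ∀ x ∈ l.head?, ∀ n, l.length = n + 1 → (x, l.toFinset) ∈ QQ X R m n := by
  classical
  induction h with
  | base x hm hx =>
    intro y hy n hn
    simp only [List.head?_cons, Option.mem_def, Option.some.injEq] at hy
    subst hy
    simp only [List.length_singleton] at hn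
    obtain rfl : n = 0 := by omega
    unfold QQ
    refine Finset.mem_image.2 ⟨x, Finset.mem_filter.2 ⟨Finset.mem_univ _, hx⟩, ?_⟩
    simp
  | cons x z l j h ha hz hn ih =>
    intro y hy n hn
    simp only [List.head?_cons, Option.mem_def, Option.some.injEq] at hy
    subst hy
    obtain ⟨k, rfl⟩ : ∃ k, n = k + 1 := ⟨n - 1, by simp only [List.length_cons] at hn; omega⟩
    have h1 := ih x (by simp) k (by simp only [List.length_cons] at hn ⊢; omega)
    unfold QQ
    refine Finset.mem_biUnion.2 ⟨_, h1, Finset.mem_image.2 ⟨z, ?_, ?_⟩⟩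
    · exact Finset.mem_filter.2 ⟨Finset.mem_univ _, ha, hz⟩
    · rw [List.toFinset_cons (a := z)]

open Classical in
/-- the dangerous sets of defects -/
noncomputable def DD (X : Finset Site) (R m : ℕ) : Finset (Finset X) :=
  (QQ X R m (m - 1)).biUnion fun p => p.2.powerset.filter fun D => 3 * m ≤ 8 * D.card

theorem card_DD (hm : 0 < m) : (DD X R m).card ≤ (8 * R + 4) * 4 ^ (m - 1) * 2 ^ m := by
  classical
  unfold DD
  refine Finset.card_biUnion_le.trans ?_
  refine (Finset.sum_le_card_nsmul _ _ (2 ^ m) fun p hp => ?_).trans ?_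
  · refine (Finset.card_filter_le _ _).trans ?_
    rw [Finset.card_powerset]
    have := QQ_card (m - 1) p hp
    exact Nat.pow_le_pow_right (by norm_num) (by omega)
  · rw [smul_eq_mul]
    exact Nat.mul_le_mul_right _ (card_QQ _)

/-- the distance -/
noncomputable def dd (X : Finset Site) (R m : ℕ) (df : X → Prop) (T : ℕ) (x : X) : ℕ :=
  sInf ({T} ∪ {j | ∃ l, Pth X R m df (x :: l) j})

theorem dd_le_T (T : ℕ) (x : X) : dd X R m df T x ≤ T := Nat.sInf_le (Or.inl rfl)

theorem dd_base (hm : 0 < m) (T : ℕ) {x : X} (hx : ds (x : Site) 0 = R) :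
    dd X R m df T x = 0 :=
  Nat.le_zero.1 (Nat.sInf_le (Or.inr ⟨[], Pth.base x hm hx⟩))

theorem dd_step (T : ℕ) {x y : X} (ha : adj x y ≠ 0) (hy : st X R m y) :
    dd X R m df T y ≤ dd X R m df T x + wt df x y := by
  have h1 : dd X R m df T x ∈ ({T} ∪ {j | ∃ l, Pth X R m df (x :: l) j} : Set ℕ) :=
    Nat.sInf_mem ⟨T, Or.inl rfl⟩
  rcases h1 with h1 | ⟨l, hl⟩
  · rw [h1]
    exact (dd_le_T T y).trans (by omega)
  · obtain ⟨l', j', h2, h3⟩ := hl.ext' ha hy
    exact (Nat.sInf_le (Or.inr ⟨l', h2⟩)).trans h3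

/-- without a dangerous set of defects the distance of the outer sphere is `T` -/
theorem dd_far {T : ℕ} (hm : 0 < m) (hT : 4 * T ≤ m) {x : X} (hx : R + m ≤ ds (x : Site) 0 + 1)
    (hG : ¬ ∃ D ∈ DD X R m, ∀ z ∈ D, df z) : dd X R m df T x = T := by
  classical
  have h1 : dd X R m df T x ∈ ({T} ∪ {j | ∃ l, Pth X R m df (x :: l) j} : Set ℕ) :=
    Nat.sInf_mem ⟨T, Or.inl rfl⟩
  rcases h1 with h1 | ⟨l, hl⟩
  · exact h1
  · by_contra h2
    have h3 : dd X R m df T x < T := lt_of_le_of_ne (dd_le_T T x) h2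
    apply hG
    have h4 := hl.reach x (by simp)
    obtain ⟨y, l', j', h5, h6, h7⟩ := hl.len (n := m - 1) (by omega)
    have h8 := h5.count y (by simp)
    have h9 := h5.mem_QQ y (by simp) (m - 1) (by rw [List.length_cons, h6])
    refine ⟨(y :: l').toFinset.filter df, ?_, fun z hz => (Finset.mem_filter.1 hz).2⟩
    unfold DD
    refine Finset.mem_biUnion.2 ⟨_, h9, Finset.mem_filter.2 ⟨?_, ?_⟩⟩
    · rw [Finset.mem_powerset]
      exact Finset.filter_subset _ _
    · rw [List.length_cons, h6] at h8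
      omega


/-! ### the law of one site -/

theorem uni_edge {τ : ℝ} (hτ : 0 < τ) (hτ1 : τ ≤ 1) :
    uni {v | 1 - v ^ 2 < τ} ≤ ENNReal.ofReal τ := by
  have h1 : uni {v | 1 - v ^ 2 < τ} ≤ uni (Set.Icc (-1) (-1 + τ) ∪ Set.Icc (1 - τ) 1) := by
    refine measure_mono_ae ?_
    filter_upwards [ae_uni] with v hv hv'
    have h2 : 1 - v ^ 2 < τ := hv'
    rw [abs_lt] at hv
    rcases le_total 0 v with h3 | h3
    · right
      constructor
      · nlinarith
      · exact hv.2.le
    · left
      constructor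
      · exact hv.1.le
      · nlinarith
  refine h1.trans ((measure_union_le _ _).trans ?_)
  have h4 : ∀ a b : ℝ, uni (Set.Icc a b) ≤ ENNReal.ofReal ((b - a) / 2) := by
    intro a b
    unfold uni
    rw [Measure.smul_apply, smul_eq_mul]
    refine (mul_le_mul_right (Measure.restrict_apply_le _ _) _).trans ?_
    rw [Real.volume_Icc, ← ENNReal.ofReal_mul (by norm_num)]
    refine ENNReal.ofReal_le_ofReal (le_of_eq (by ring))
  refine (add_le_add (h4 _ _) (h4 _ _)).trans ?_
  rw [← ENNReal.ofReal_add (by linarith) (by linarith)]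
  exact ENNReal.ofReal_le_ofReal (le_of_eq (by ring))

theorem uni_mom {r : ℝ} (hr : 0 < r) (hr1 : r < 1) : ∃ C : ℝ, 0 < C ∧
    ∫⁻ v, ENNReal.ofReal (|1 - v ^ 2|⁻¹ ^ r) ∂uni ≤ ENNReal.ofReal C := by
  have hA : ∫⁻ v, ENNReal.ofReal (|1 - v ^ 2|⁻¹ ^ r) ∂uni < ∞ := by
    have h1 : ∫⁻ v, ENNReal.ofReal (|1 - v ^ 2|⁻¹ ^ r) ∂uni ≤
        ∫⁻ v, ENNReal.ofReal ((1 - v) ^ (-r) + (1 + v) ^ (-r)) ∂uni := by
      refine lintegral_mono_ae ?_
      filter_upwards [ae_uni] with v hv
      refine ENNReal.ofReal_le_ofReal ?_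
      rw [abs_lt] at hv
      have h2 : 0 < 1 - v := by linarith
      have h3 : 0 < 1 + v := by linarith
      have h4 : |1 - v ^ 2| = (1 - v) * (1 + v) := by
        rw [abs_of_nonneg (by nlinarith)]
        ring
      rw [h4, Real.inv_rpow (by positivity), ← Real.rpow_neg (by positivity)]
      rcases le_total 0 v with h5 | h5
      · have h6 : ((1 - v) * (1 + v)) ^ (-r) ≤ (1 - v) ^ (-r) :=
          Real.rpow_le_rpow_of_nonpos h2 (by nlinarith) (by linarith)
        have h7 : 0 ≤ (1 + v) ^ (-r) := Real.rpow_nonneg h3.le _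
        linarith
      · have h6 : ((1 - v) * (1 + v)) ^ (-r) ≤ (1 + v) ^ (-r) :=
          Real.rpow_le_rpow_of_nonpos h3 (by nlinarith) (by linarith)
        have h7 : 0 ≤ (1 - v) ^ (-r) := Real.rpow_nonneg h2.le _
        linarith
    refine h1.trans_lt ?_
    unfold uni
    rw [lintegral_smul_measure, smul_eq_mul]
    refine ENNReal.mul_lt_top ENNReal.ofReal_lt_top ?_
    have h2 : IntervalIntegrable (fun x : ℝ => x ^ (-r)) volume 0 2 :=
      intervalIntegral.intervalIntegrable_rpow' (by linarith)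
    have h3 : IntervalIntegrable (fun x : ℝ => (1 - x) ^ (-r)) volume (-1) 1 := by
      have := h2.comp_sub_left 1
      simp only [sub_zero] at this
      norm_num at this
      exact this.symm
    have h4 : IntervalIntegrable (fun x : ℝ => (1 + x) ^ (-r)) volume (-1) 1 := by
      have := h2.comp_add_left 1
      norm_num at this
      exact this
    have h5 := (h3.add h4).1
    have h6 : IntegrableOn (fun x : ℝ => (1 - x) ^ (-r) + (1 + x) ^ (-r))
        (Set.Icc (-1) 1) volume := by
      rw [integrableOn_Icc_iff_integrableOn_Ioc]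
      exact h5
    exact h6.lintegral_lt_top
  refine ⟨(∫⁻ v, ENNReal.ofReal (|1 - v ^ 2|⁻¹ ^ r) ∂uni).toReal + 1, by positivity, ?_⟩
  rw [ENNReal.ofReal_add ENNReal.toReal_nonneg zero_le_one, ENNReal.ofReal_toReal hA.ne]
  exact le_self_add

/-- probability that a dangerous set consists of defects -/
theorem bad_le {m : ℕ} (hm : 0 < m) :
    (Measure.pi fun _ : X => uni) {v | ∃ D ∈ DD X R m, ∀ z ∈ D, 1 - v z ^ 2 < (1 / 2) ^ 16} ≤
      ENNReal.ofReal ((8 * R + 4) * (1 / 8) ^ m) := by
  classical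
  have h1 : {v : X → ℝ | ∃ D ∈ DD X R m, ∀ z ∈ D, 1 - v z ^ 2 < (1 / 2) ^ 16} =
      ⋃ D ∈ DD X R m, {v | ∀ z ∈ D, 1 - v z ^ 2 < (1 / 2) ^ 16} := by
    ext v
    simp
  rw [h1]
  refine (measure_biUnion_finset_le _ _).trans ?_
  have h2 : ∀ D ∈ DD X R m, (Measure.pi fun _ : X => uni)
      {v | ∀ z ∈ D, 1 - v z ^ 2 < (1 / 2) ^ 16} ≤ ENNReal.ofReal ((1 / 64) ^ m) := by
    intro D hD
    obtain ⟨p, _, hD⟩ := Finset.mem_biUnion.1 hD
    have hc := (Finset.mem_filter.1 hD).2
    have h3 : {v : X → ℝ | ∀ z ∈ D, 1 - v z ^ 2 < (1 / 2) ^ 16} =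
        Set.univ.pi fun z => if z ∈ D then {v | 1 - v ^ 2 < (1 / 2) ^ 16} else Set.univ := by
      ext v
      simp only [Set.mem_setOf_eq, Set.mem_pi, Set.mem_univ, true_implies]
      refine forall_congr' fun z => ?_
      by_cases hz : z ∈ D <;> simp [hz]
    rw [h3, Measure.pi_pi]
    have h4 : ∏ z : X, uni (if z ∈ D then {v | 1 - v ^ 2 < (1 / 2) ^ 16} else Set.univ) ≤
        ∏ z : X, if z ∈ D then ENNReal.ofReal ((1 / 2) ^ 16) else 1 := by
      refine Finset.prod_le_prod' fun z _ => ?_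
      by_cases hz : z ∈ D
      · rw [if_pos hz, if_pos hz]
        exact uni_edge (by norm_num) (by norm_num)
      · rw [if_neg hz, if_neg hz]
        exact prob_le_one
    refine h4.trans ?_
    rw [Finset.prod_ite_mem, Finset.univ_inter, Finset.prod_const,
      ← ENNReal.ofReal_pow (by norm_num), ← pow_mul]
    refine ENNReal.ofReal_le_ofReal ?_
    have h5 : ((1 : ℝ) / 64) ^ m = (1 / 2) ^ (6 * m) := by
      rw [pow_mul]
      norm_num
    rw [h5]
    exact pow_le_pow_of_le_one (by norm_num) (by norm_num) (by omega)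
  refine (Finset.sum_le_card_nsmul _ _ _ h2).trans ?_
  rw [nsmul_eq_mul]
  refine (mul_le_mul_left (Nat.cast_le.2 (card_DD (R := R) (X := X) hm)) _).trans ?_
  rw [← ENNReal.ofReal_natCast, ← ENNReal.ofReal_mul (by positivity)]
  refine ENNReal.ofReal_le_ofReal ?_
  push_cast
  have h6 : (4 : ℝ) ^ (m - 1) ≤ 4 ^ m := pow_le_pow_right₀ (by norm_num) (by omega)
  have h7 : ((1 : ℝ) / 8) ^ m = 4 ^ m * 2 ^ m * (1 / 64) ^ m := by
    rw [← mul_pow, ← mul_pow]
    norm_num
  rw [h7]
  calc (8 * (R : ℝ) + 4) * 4 ^ (m - 1) * 2 ^ m * (1 / 64) ^ m ≤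
      (8 * (R : ℝ) + 4) * 4 ^ m * 2 ^ m * (1 / 64) ^ m := by gcongr
    _ = _ := by ring


/-! ### the cut-off -/

/-- a site is a defect -/
def df1 (v : X → ℝ) (x : X) : Prop := 1 - v x ^ 2 < (1 / 2) ^ 16

/-- the bad event -/
def Bad (X : Finset Site) (R m : ℕ) (v : X → ℝ) : Prop :=
  ∃ D ∈ DD X R m, ∀ z ∈ D, 1 - v z ^ 2 < (1 / 2) ^ 16

open Classical in
/-- the cut-off function -/
noncomputable def chi (X : Finset Site) (R m : ℕ) (v : X → ℝ) (x : X) : ℝ :=
  if ds (x : Site) 0 ≤ R then 1 else if Bad X R m v then 0 else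
    1 - (dd X R m (df1 v) (m / 4) x : ℝ) / (m / 4 : ℕ)

open Classical in
/-- one term of the Lipschitz constant on the bad event -/
noncomputable def aS (R m : ℕ) (v : X → ℝ) (x : X) : ℝ := if st X R m x then |1 - v x ^ 2|⁻¹ else 0

open Classical in
/-- the Lipschitz constant -/
noncomputable def kk (X : Finset Site) (R m : ℕ) (v : X → ℝ) : ℝ :=
  2 ^ 19 / m + if Bad X R m v then ∑ x : X, aS R m v x else 0

theorem aS_nonneg (R m : ℕ) (v : X → ℝ) (x : X) : 0 ≤ aS R m v x := by
  unfold aS
  split_ifs <;> positivity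

theorem meas_bad : MeasurableSet {v : X → ℝ | Bad X R m v} := by
  classical
  have h1 : {v : X → ℝ | Bad X R m v} =
      ⋃ D ∈ DD X R m, ⋂ z ∈ D, {v | 1 - v z ^ 2 < (1 / 2) ^ 16} := by
    ext v
    simp [Bad]
  rw [h1]
  refine Finset.measurableSet_biUnion _ fun D _ => Finset.measurableSet_biInter _ fun z _ => ?_
  exact measurableSet_lt (by fun_prop) measurable_const

theorem meas_aS (x : X) : Measurable fun v : X → ℝ => aS R m v x := by
  unfold aS
  by_cases h : st X R m x
  · simp only [h, if_true]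
    have : Measurable fun v : X → ℝ => 1 - v x ^ 2 := by fun_prop
    exact (continuous_abs.measurable.comp this).inv
  · simp only [h, if_false]
    exact measurable_const

theorem meas_kk : Measurable (kk X R m) := by
  classical
  unfold kk
  refine measurable_const.add (Measurable.ite meas_bad ?_ measurable_const)
  exact Finset.measurable_sum _ fun x _ => meas_aS x

theorem DD_strip (hm : 0 < m) {D : Finset X} (hD : D ∈ DD X R m) : ∀ z ∈ D, st X R m z := by
  classical
  obtain ⟨p, hp, hD⟩ := Finset.mem_biUnion.1 hD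
  have h1 := Finset.mem_powerset.1 (Finset.mem_filter.1 hD).1
  exact fun z hz => QQ_strip hm _ p hp z (h1 hz)

theorem bad_dep (hm : 0 < m) {v v' : X → ℝ}
    (h : ∀ x : X, R ≤ ds (x : Site) 0 → ds (x : Site) 0 < R + m → v x = v' x) :
    Bad X R m v → Bad X R m v' := by
  rintro ⟨D, hD, h1⟩
  refine ⟨D, hD, fun z hz => ?_⟩
  have h2 := DD_strip hm hD z hz
  rw [← h z h2.1 h2.2]
  exact h1 z hz

theorem kk_dep (hm : 0 < m) {v v' : X → ℝ}
    (h : ∀ x : X, R ≤ ds (x : Site) 0 → ds (x : Site) 0 < R + m → v x = v' x) :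
    kk X R m v = kk X R m v' := by
  classical
  unfold kk
  have h1 : Bad X R m v ↔ Bad X R m v' :=
    ⟨bad_dep hm h, bad_dep hm fun x hx hx' => (h x hx hx').symm⟩
  have h2 : ∑ x : X, aS R m v x = ∑ x : X, aS R m v' x := by
    refine Finset.sum_congr rfl fun x _ => ?_
    unfold aS
    by_cases h3 : st X R m x
    · rw [if_pos h3, if_pos h3, h x h3.1 h3.2]
    · rw [if_neg h3, if_neg h3]
  rw [h2]
  by_cases h4 : Bad X R m v
  · rw [if_pos h4, if_pos (h1.1 h4)]
  · rw [if_neg h4, if_neg (fun h5 => h4 (h1.2 h5))]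

theorem chi_far (hm : 8 ≤ m) (v : X → ℝ) {x : X} (hx : R + m ≤ ds (x : Site) 0 + 1) :
    chi X R m v x = 0 := by
  classical
  unfold chi
  rw [if_neg (by omega)]
  by_cases h1 : Bad X R m v
  · rw [if_pos h1]
  · rw [if_neg h1, dd_far (df := df1 v) (T := m / 4) (by omega) (by omega) hx h1]
    have : ((m / 4 : ℕ) : ℝ) ≠ 0 := by
      have : 0 < m / 4 := by omega
      positivity
    rw [div_self this, sub_self]

theorem chi_st (hm : 8 ≤ m) {v : X → ℝ} (h1 : ¬ Bad X R m v) {x : X} (hx : st X R m x) :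
    chi X R m v x = 1 - (dd X R m (df1 v) (m / 4) x : ℝ) / (m / 4 : ℕ) := by
  classical
  unfold chi
  rw [if_neg h1]
  by_cases h2 : ds (x : Site) 0 ≤ R
  · rw [if_pos h2, dd_base (by omega) _ (le_antisymm h2 hx.1)]
    simp
  · rw [if_neg h2]

theorem chi_mem (hm : 8 ≤ m) (v : X → ℝ) (x : X) : 0 ≤ chi X R m v x ∧ chi X R m v x ≤ 1 := by
  classical
  unfold chi
  split_ifs
  · norm_num
  · norm_num
  · have h1 : (0 : ℝ) < (m / 4 : ℕ) := by
      have : 0 < m / 4 := by omega
      positivity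
    have h2 : (dd X R m (df1 v) (m / 4) x : ℝ) ≤ (m / 4 : ℕ) := by exact_mod_cast dd_le_T _ x
    constructor
    · rw [sub_nonneg, div_le_one h1]
      exact h2
    · have : 0 ≤ (dd X R m (df1 v) (m / 4) x : ℝ) / (m / 4 : ℕ) := by positivity
      linarith

theorem chi_out (hm : 8 ≤ m) (v : X → ℝ) {x y : X} (ha : adj x y ≠ 0) (hx : ¬ st X R m x) :
    chi X R m v x = chi X R m v y := by
  classical
  have h1 := ds_adj (z := 0) ha
  have h2 : ds (x : Site) 0 < R ∨ R + m ≤ ds (x : Site) 0 := by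
    by_contra h3
    exact hx ⟨by omega, by omega⟩
  rcases h2 with h2 | h2
  · unfold chi
    rw [if_pos (by omega), if_pos (by omega)]
  · rw [chi_far hm v (by omega), chi_far hm v (by omega)]

theorem adj_symm' {x y : X} (ha : adj x y ≠ 0) : adj y x ≠ 0 := by
  rwa [adj_comm]

theorem chi_good (hm : 8 ≤ m) {v : X → ℝ} (h1 : ¬ Bad X R m v) {x y : X} (ha : adj x y ≠ 0)
    (hx : st X R m x) (hy : st X R m y) :
    |chi X R m v x - chi X R m v y| ≤ (wt (df1 v) x y : ℝ) / (m / 4 : ℕ) := by
  have h2 : (0 : ℝ) < (m / 4 : ℕ) := by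
    have : 0 < m / 4 := by omega
    positivity
  rw [chi_st hm h1 hx, chi_st hm h1 hy]
  have h3 : (dd X R m (df1 v) (m / 4) y : ℝ) ≤ dd X R m (df1 v) (m / 4) x + wt (df1 v) x y := by
    exact_mod_cast dd_step (m / 4) ha hy
  have h4 : (dd X R m (df1 v) (m / 4) x : ℝ) ≤ dd X R m (df1 v) (m / 4) y + wt (df1 v) x y := by
    have := dd_step (df := df1 v) (m / 4) (adj_symm' ha) hx
    rw [wt_comm] at this
    exact_mod_cast this
  rw [abs_le]
  constructor
  · rw [← sub_nonneg]
    have : 1 - (dd X R m (df1 v) (m / 4) x : ℝ) / (m / 4 : ℕ) -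
        (1 - (dd X R m (df1 v) (m / 4) y : ℝ) / (m / 4 : ℕ)) - -((wt (df1 v) x y : ℝ) / (m / 4 : ℕ))
        = (dd X R m (df1 v) (m / 4) y + wt (df1 v) x y - dd X R m (df1 v) (m / 4) x) /
          (m / 4 : ℕ) := by ring
    rw [this]
    exact div_nonneg (by linarith) h2.le
  · rw [← sub_nonneg]
    have : (wt (df1 v) x y : ℝ) / (m / 4 : ℕ) - (1 - (dd X R m (df1 v) (m / 4) x : ℝ) / (m / 4 : ℕ) -
        (1 - (dd X R m (df1 v) (m / 4) y : ℝ) / (m / 4 : ℕ)))
        = (dd X R m (df1 v) (m / 4) x + wt (df1 v) x y - dd X R m (df1 v) (m / 4) y) /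
          (m / 4 : ℕ) := by ring
    rw [this]
    exact div_nonneg (by linarith) h2.le

theorem kk_nonneg (v : X → ℝ) : 0 ≤ kk X R m v := by
  classical
  unfold kk
  have h1 : 0 ≤ ∑ x : X, aS R m v x := Finset.sum_nonneg fun x _ => aS_nonneg R m v x
  split_ifs <;> positivity

theorem lip_good (hm : 8 ≤ m) {v : X → ℝ} (h1 : ¬ Bad X R m v) {x y : X} (ha : adj x y ≠ 0)
    (hx : st X R m x) (hy : st X R m y) (hne : chi X R m v x ≠ chi X R m v y) :
    |chi X R m v x - chi X R m v y| ≤
      kk X R m v * Real.sqrt ((1 - v x ^ 2) * (1 - v y ^ 2)) := by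
  classical
  have h2 := chi_good hm h1 ha hx hy
  have h3 : ¬ (df1 v x ∨ df1 v y) := by
    intro h3
    unfold wt at h2
    rw [if_pos h3] at h2
    simp only [Nat.cast_zero, zero_div] at h2
    exact hne (sub_eq_zero.1 (abs_eq_zero.1 (le_antisymm h2 (abs_nonneg _))))
  have h4 : wt (df1 v) x y = 1 := by
    unfold wt
    rw [if_neg h3]
  rw [h4] at h2
  push Not at h3
  obtain ⟨h5, h6⟩ := h3
  unfold df1 at h5 h6
  push Not at h5 h6
  have h7 : (1 / 2 : ℝ) ^ 16 ≤ Real.sqrt ((1 - v x ^ 2) * (1 - v y ^ 2)) := by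
    refine Real.le_sqrt_of_sq_le ?_
    rw [sq]
    exact mul_le_mul h5 h6 (by positivity) (le_trans (by positivity) h5)
  have h8 : (m : ℝ) / 8 ≤ (m / 4 : ℕ) := by
    have : m ≤ 8 * (m / 4) := by omega
    have : (m : ℝ) ≤ 8 * (m / 4 : ℕ) := by exact_mod_cast this
    linarith
  have hm' : (0 : ℝ) < m := by
    have : 0 < m := by omega
    exact_mod_cast this
  unfold kk
  rw [if_neg h1, add_zero]
  refine h2.trans ?_
  calc ((1 : ℕ) : ℝ) / (m / 4 : ℕ) ≤ 1 / (m / 8) := by
        rw [Nat.cast_one]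
        exact one_div_le_one_div_of_le (by positivity) h8
    _ = 2 ^ 19 / m * (1 / 2) ^ 16 := by
        field_simp
        norm_num
    _ ≤ _ := mul_le_mul_of_nonneg_left h7 (by positivity)

theorem lip_bad {v : X → ℝ} (hv : ∀ x, |v x| < 1) (h1 : Bad X R m v) {x y : X}
    (hx : st X R m x) (hy : st X R m y) (h01 : |chi X R m v x - chi X R m v y| ≤ 1) :
    |chi X R m v x - chi X R m v y| ≤
      kk X R m v * Real.sqrt ((1 - v x ^ 2) * (1 - v y ^ 2)) := by
  classical
  refine h01.trans ?_
  have hp : ∀ z, 0 < 1 - v z ^ 2 := by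
    intro z
    have := (sq_lt_one_iff_abs_lt_one (v z)).2 (hv z)
    linarith
  have h2 : ∀ z : X, st X R m z → (1 - v z ^ 2)⁻¹ ≤ kk X R m v := by
    intro z hz
    unfold kk
    rw [if_pos h1]
    have h3 : aS R m v z ≤ ∑ x : X, aS R m v x :=
      Finset.single_le_sum (fun x _ => aS_nonneg R m v x) (Finset.mem_univ z)
    unfold aS at h3
    rw [if_pos hz, abs_of_pos (hp z)] at h3
    have h4 : (0 : ℝ) ≤ 2 ^ 19 / m := by positivity
    unfold aS
    linarith
  have h3 := h2 x hx
  have h4 := h2 y hy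
  have h5 : 0 < (1 - v x ^ 2)⁻¹ := inv_pos.2 (hp x)
  have h6 : 0 < (1 - v y ^ 2)⁻¹ := inv_pos.2 (hp y)
  have h7 : (1 - v x ^ 2)⁻¹ * (1 - v y ^ 2)⁻¹ ≤ kk X R m v ^ 2 := by
    rw [sq (kk X R m v)]
    exact mul_le_mul h3 h4 h6.le (h5.le.trans h3)
  have h8 : Real.sqrt ((1 - v x ^ 2)⁻¹ * (1 - v y ^ 2)⁻¹) ≤ kk X R m v :=
    Real.sqrt_le_iff.2 ⟨h5.le.trans h3, h7⟩
  calc (1 : ℝ) = Real.sqrt ((1 - v x ^ 2)⁻¹ * (1 - v y ^ 2)⁻¹) *
        Real.sqrt ((1 - v x ^ 2) * (1 - v y ^ 2)) := by
        rw [← Real.sqrt_mul (by positivity)]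
        have : (1 - v x ^ 2)⁻¹ * (1 - v y ^ 2)⁻¹ * ((1 - v x ^ 2) * (1 - v y ^ 2)) = 1 := by
          have := (hp x).ne'
          have := (hp y).ne'
          field_simp
        rw [this, Real.sqrt_one]
    _ ≤ _ := mul_le_mul_of_nonneg_right h8 (Real.sqrt_nonneg _)

theorem cutP (hm : 8 ≤ m) : CutP X R m (chi X R m) (kk X R m) where
  meas := meas_kk
  k0 := kk_nonneg
  dep := fun v v' h => kk_dep (by omega) h
  one := fun v x hx => by
    unfold chi
    rw [if_pos hx]
  zero := fun v x hx => chi_far hm v hx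
  nonneg := fun v x => (chi_mem hm v x).1
  le_one := fun v x => (chi_mem hm v x).2
  lip := by
    intro v hv x y ha hne
    have hx : st X R m x := by
      by_contra h
      exact hne (chi_out hm v ha h)
    have hy : st X R m y := by
      by_contra h
      exact hne (chi_out hm v (adj_symm' ha) h).symm
    refine ⟨hx, hy, ?_⟩
    by_cases h1 : Bad X R m v
    · refine lip_bad hv h1 hx hy ?_
      have h2 := chi_mem (R := R) hm v x
      have h3 := chi_mem (R := R) hm v y
      rw [abs_le]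
      constructor <;> linarith
    · exact lip_good hm h1 ha hx hy hne

open Classical in
theorem card_strip : (∑ x : X, if st X R m x then (1 : ℝ) else 0) ≤ m * (8 * (R + m) + 4) := by
  classical
  have h1 : ∀ n : ℕ, n ≤ m → ((Finset.univ.filter fun x : X => R ≤ ds (x : Site) 0 ∧
      ds (x : Site) 0 < R + n).card : ℝ) ≤ n * (8 * (R + m) + 4) := by
    intro n
    induction n with
    | zero =>
      intro _
      have : (Finset.univ.filter fun x : X => R ≤ ds (x : Site) 0 ∧ ds (x : Site) 0 < R + 0) = ∅ := by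
        rw [Finset.filter_eq_empty_iff]
        intro x _
        omega
      rw [this]
      simp
    | succ n ih =>
      intro hn
      have h2 := ih (by omega)
      have h3 : (Finset.univ.filter fun x : X => R ≤ ds (x : Site) 0 ∧
          ds (x : Site) 0 < R + (n + 1)) ⊆ (Finset.univ.filter fun x : X => R ≤ ds (x : Site) 0 ∧
          ds (x : Site) 0 < R + n) ∪ Finset.univ.filter fun x : X => ds (x : Site) 0 = R + n := by
        intro x hx
        simp only [Finset.mem_filter, Finset.mem_univ, true_and, Finset.mem_union] at hx ⊢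
        omega
      have h4 : (Finset.univ.filter fun x : X => ds (x : Site) 0 = R + n).card ≤
          (Sh 0 (R + n)).card := by
        refine Finset.card_le_card_of_injOn (fun y => (y : Site)) ?_ ?_
        · intro y hy
          exact mem_Sh.2 (Finset.mem_filter.1 hy).2
        · intro y _ z _ h
          exact Subtype.ext h
      have h5 := h4.trans (card_Sh_le 0 (R + n))
      have h6 := (Finset.card_le_card h3).trans (Finset.card_union_le _ _)
      have h7 : ((Finset.univ.filter fun x : X => R ≤ ds (x : Site) 0 ∧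
          ds (x : Site) 0 < R + (n + 1)).card : ℝ) ≤ ((Finset.univ.filter fun x : X =>
          R ≤ ds (x : Site) 0 ∧ ds (x : Site) 0 < R + n).card : ℝ) + (8 * (R + n) + 4) := by
        exact_mod_cast h6.trans (Nat.add_le_add_left h5 _)
      have h8 : (n : ℝ) ≤ m := by exact_mod_cast (by omega : n ≤ m)
      push_cast
      nlinarith
  have h2 := h1 m le_rfl
  rw [Finset.sum_boole]
  refine (le_of_eq ?_).trans h2
  congr 2
  exact Finset.filter_congr fun x _ => Iff.rfl

theorem tail {q C : ℝ} (hq : 0 < q) (hq1 : q < 1 / 2) (hC : 0 < C)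
    (hmom : ∫⁻ v, ENNReal.ofReal (|1 - v ^ 2|⁻¹ ^ (2 * q)) ∂uni ≤ ENNReal.ofReal C)
    (hm : 8 ≤ m) (hR : 1 ≤ R) :
    ∫⁻ v in {v | 2 ^ 19 / m < kk X R m v}, ENNReal.ofReal ((1 + kk X R m v) ^ q)
      ∂(Measure.pi fun _ : X => uni) ≤
    ENNReal.ofReal ((12 * (1 + 2 ^ 19) + 9 * C + 108) * (R + m) ^ 2 * (3 / 4) ^ m) := by
  classical
  obtain ⟨μ, hμ⟩ : ∃ μ, μ = Measure.pi fun _ : X => uni := ⟨_, rfl⟩
  have hprob : IsProbabilityMeasure μ := by
    rw [hμ]
    infer_instance
  have hm0 : (0 : ℝ) < m := by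
    have : 0 < m := by omega
    exact_mod_cast this
  have hR0 : (1 : ℝ) ≤ R := by exact_mod_cast hR
  have hm8 : (8 : ℝ) ≤ m := by exact_mod_cast hm
  have hB : {v : X → ℝ | 2 ^ 19 / m < kk X R m v} ⊆ {v | Bad X R m v} := by
    intro v hv
    by_contra h
    have h1 : (2 : ℝ) ^ 19 / m < kk X R m v := hv
    have h : ¬ Bad X R m v := h
    unfold kk at h1
    rw [if_neg h, add_zero] at h1
    exact lt_irrefl _ h1
  obtain ⟨s, hs⟩ : ∃ s : ℝ, s = (3 / 4) ^ m := ⟨_, rfl⟩
  have hs0 : 0 < s := by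
    rw [hs]
    positivity
  -- pointwise bound
  have hpt : ∀ v : X → ℝ, Bad X R m v → ENNReal.ofReal ((1 + kk X R m v) ^ q) ≤
      ENNReal.ofReal (1 + 2 ^ 19) + ∑ x : X, if st X R m x then
        (ENNReal.ofReal s * ENNReal.ofReal (|1 - v x ^ 2|⁻¹ ^ (2 * q)) + ENNReal.ofReal s⁻¹)
        else 0 := by
    intro v hv
    have h1 : (1 + kk X R m v) ^ q ≤ (1 + 2 ^ 19) + ∑ x : X, if st X R m x then
        (s * |1 - v x ^ 2|⁻¹ ^ (2 * q) + s⁻¹) else 0 := by
      unfold kk
      rw [if_pos hv, ← add_assoc]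
      have h2 : 0 ≤ ∑ x : X, aS R m v x := Finset.sum_nonneg fun x _ => aS_nonneg R m v x
      refine (Real.rpow_add_le_add_rpow (by positivity) h2 hq.le (by linarith)).trans ?_
      refine add_le_add ?_ ?_
      · have h3 : (1 : ℝ) ≤ 1 + 2 ^ 19 / m := by
          have : (0 : ℝ) ≤ 2 ^ 19 / m := by positivity
          linarith
        calc (1 + 2 ^ 19 / (m : ℝ)) ^ q ≤ (1 + 2 ^ 19 / (m : ℝ)) ^ (1 : ℝ) :=
              Real.rpow_le_rpow_of_exponent_le h3 (by linarith)
          _ = 1 + 2 ^ 19 / (m : ℝ) := Real.rpow_one _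
          _ ≤ 1 + 2 ^ 19 := by
              have : (2 : ℝ) ^ 19 / m ≤ 2 ^ 19 := div_le_self (by positivity) (by linarith)
              linarith
      · refine (sum_rpow_le' _ _ (fun x _ => aS_nonneg R m v x) hq (by linarith)).trans ?_
        refine Finset.sum_le_sum fun x _ => ?_
        unfold aS
        by_cases h4 : st X R m x
        · rw [if_pos h4, if_pos h4]
          obtain ⟨t, ht⟩ : ∃ t : ℝ, t = |1 - v x ^ 2|⁻¹ ^ q := ⟨_, rfl⟩
          have h5 : |1 - v x ^ 2|⁻¹ ^ (2 * q) = t ^ 2 := by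
            rw [ht, mul_comm, Real.rpow_mul (by positivity)]
            norm_num
          rw [h5, ← ht]
          have h6 : 0 ≤ s⁻¹ * (s * t - 1) ^ 2 := by positivity
          have h7 : s⁻¹ * (s * t - 1) ^ 2 = s * t ^ 2 - 2 * t + s⁻¹ := by
            field_simp
            ring
          rw [h7] at h6
          have h8 : 0 ≤ t := by
            rw [ht]
            positivity
          linarith
        · rw [if_neg h4, if_neg h4, Real.zero_rpow hq.ne']
    refine (ENNReal.ofReal_le_ofReal h1).trans ?_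
    have h9 : ∀ x : X, 0 ≤ if st X R m x then (s * |1 - v x ^ 2|⁻¹ ^ (2 * q) + s⁻¹) else 0 := by
      intro x
      split_ifs <;> positivity
    rw [ENNReal.ofReal_add (by norm_num) (Finset.sum_nonneg fun x _ => h9 x),
      ENNReal.ofReal_sum_of_nonneg fun x _ => h9 x]
    refine add_le_add le_rfl (Finset.sum_le_sum fun x _ => ?_)
    by_cases h4 : st X R m x
    · rw [if_pos h4, if_pos h4, ENNReal.ofReal_add (by positivity) (by positivity),
        ENNReal.ofReal_mul hs0.le]
    · rw [if_neg h4, if_neg h4, ENNReal.ofReal_zero]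
  have hmeas : ∀ x : X, Measurable fun v : X → ℝ =>
      ENNReal.ofReal (|1 - v x ^ 2|⁻¹ ^ (2 * q)) := by
    intro x
    have h1 : Measurable fun v : X → ℝ => 1 - v x ^ 2 := by fun_prop
    exact ((continuous_abs.measurable.comp h1).inv.pow_const _).ennreal_ofReal
  have hμB : μ {v | Bad X R m v} ≤ ENNReal.ofReal ((8 * R + 4) * (1 / 8) ^ m) := by
    rw [hμ]
    exact bad_le (by omega)
  have hone : ∀ x : X, ∫⁻ v, ENNReal.ofReal (|1 - v x ^ 2|⁻¹ ^ (2 * q)) ∂μ ≤ ENNReal.ofReal C := by
    intro x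
    rw [hμ]
    have h1 := (measurePreserving_eval (μ := fun _ : X => uni) x).lintegral_comp
      (f := fun v : ℝ => ENNReal.ofReal (|1 - v ^ 2|⁻¹ ^ (2 * q))) (by
        have h1 : Measurable fun v : ℝ => 1 - v ^ 2 := by fun_prop
        exact ((continuous_abs.measurable.comp h1).inv.pow_const _).ennreal_ofReal)
    exact h1.le.trans hmom
  rw [← hμ]
  calc ∫⁻ v in {v | 2 ^ 19 / m < kk X R m v}, ENNReal.ofReal ((1 + kk X R m v) ^ q) ∂μ ≤
      ∫⁻ v in {v | Bad X R m v}, ENNReal.ofReal ((1 + kk X R m v) ^ q) ∂μ :=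
        lintegral_mono_set hB
    _ ≤ ∫⁻ v in {v | Bad X R m v}, (ENNReal.ofReal (1 + 2 ^ 19) + ∑ x : X, if st X R m x then
        (ENNReal.ofReal s * ENNReal.ofReal (|1 - v x ^ 2|⁻¹ ^ (2 * q)) + ENNReal.ofReal s⁻¹)
        else 0) ∂μ := setLIntegral_mono' meas_bad fun v hv => hpt v hv
    _ = ENNReal.ofReal (1 + 2 ^ 19) * μ {v | Bad X R m v} + ∑ x : X, if st X R m x then
        (ENNReal.ofReal s * ∫⁻ v in {v | Bad X R m v},
          ENNReal.ofReal (|1 - v x ^ 2|⁻¹ ^ (2 * q)) ∂μ +
          ENNReal.ofReal s⁻¹ * μ {v | Bad X R m v}) else 0 := by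
        rw [lintegral_add_left measurable_const, setLIntegral_const, lintegral_finset_sum]
        · congr 1
          refine Finset.sum_congr rfl fun x _ => ?_
          by_cases h4 : st X R m x
          · simp only [h4, if_true]
            rw [lintegral_add_right _ measurable_const, setLIntegral_const,
              lintegral_const_mul _ (hmeas x)]
          · simp only [h4, if_false]
            exact lintegral_zero
        · intro x _
          by_cases h4 : st X R m x
          · simp only [h4, if_true]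
            exact ((hmeas x).const_mul _).add measurable_const
          · simp only [h4, if_false]
            exact measurable_const
    _ ≤ ENNReal.ofReal (1 + 2 ^ 19) * ENNReal.ofReal ((8 * R + 4) * (1 / 8) ^ m) +
        ∑ x : X, if st X R m x then
        (ENNReal.ofReal s * ENNReal.ofReal C +
          ENNReal.ofReal s⁻¹ * ENNReal.ofReal ((8 * R + 4) * (1 / 8) ^ m)) else 0 := by
        refine add_le_add (mul_le_mul_right hμB _) (Finset.sum_le_sum fun x _ => ?_)
        by_cases h4 : st X R m x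
        · rw [if_pos h4, if_pos h4]
          exact add_le_add (mul_le_mul_right ((setLIntegral_le_lintegral _ _).trans (hone x)) _)
            (mul_le_mul_right hμB _)
        · rw [if_neg h4, if_neg h4]
    _ = ENNReal.ofReal ((1 + 2 ^ 19) * ((8 * R + 4) * (1 / 8) ^ m) +
        (∑ x : X, if st X R m x then (1 : ℝ) else 0) *
          (s * C + s⁻¹ * ((8 * R + 4) * (1 / 8) ^ m))) := by
        have h5 : 0 ≤ s * C + s⁻¹ * ((8 * R + 4) * (1 / 8) ^ m) := by positivity
        have h6 : 0 ≤ ∑ x : X, if st X R m x then (1 : ℝ) else 0 :=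
          Finset.sum_nonneg fun x _ => by split_ifs <;> norm_num
        rw [ENNReal.ofReal_add (by positivity) (mul_nonneg h6 h5),
          ENNReal.ofReal_mul (p := 1 + 2 ^ 19) (by norm_num)]
        congr 1
        rw [Finset.sum_mul, ENNReal.ofReal_sum_of_nonneg]
        · refine Finset.sum_congr rfl fun x _ => ?_
          by_cases h4 : st X R m x
          · rw [if_pos h4, if_pos h4, one_mul, ENNReal.ofReal_add (by positivity) (by positivity),
              ENNReal.ofReal_mul hs0.le, ENNReal.ofReal_mul (by positivity : (0 : ℝ) ≤ s⁻¹)]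
          · rw [if_neg h4, if_neg h4, zero_mul, ENNReal.ofReal_zero]
        · intro x _
          refine mul_nonneg ?_ h5
          split_ifs <;> norm_num
    _ ≤ _ := by
        refine ENNReal.ofReal_le_ofReal ?_
        have h5 : 0 ≤ s * C + s⁻¹ * ((8 * R + 4) * (1 / 8) ^ m) := by positivity
        have h6 := card_strip (X := X) (R := R) (m := m)
        have h7 : (m : ℝ) * (8 * (R + m) + 4) ≤ 9 * m * (R + m) := by nlinarith
        have h8 : ((1 : ℝ) / 8) ^ m ≤ (3 / 4) ^ m :=
          pow_le_pow_left₀ (by norm_num) (by norm_num) m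
        have h9 : s⁻¹ * (1 / 8) ^ m = (1 / 6) ^ m := by
          rw [hs, ← inv_pow, ← mul_pow]
          norm_num
        have h10 : (m : ℝ) * (1 / 6) ^ m ≤ (3 / 4) ^ m := by
          have h11 : (m : ℝ) ≤ 2 ^ m := by exact_mod_cast Nat.lt_two_pow_self.le
          calc (m : ℝ) * (1 / 6) ^ m ≤ 2 ^ m * (1 / 6) ^ m :=
                mul_le_mul_of_nonneg_right h11 (by positivity)
            _ = (1 / 3) ^ m := by
                rw [← mul_pow]
                norm_num
            _ ≤ _ := pow_le_pow_left₀ (by norm_num) (by norm_num) m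
        have h11 : (8 : ℝ) * R + 4 ≤ 12 * (R + m) := by linarith
        have h12 : (1 : ℝ) ≤ R + m := by linarith
        obtain ⟨b, hb⟩ : ∃ b : ℝ, b = R + m := ⟨_, rfl⟩
        have hb1 : 1 ≤ b := by rw [hb]; exact h12
        have hmb : (m : ℝ) ≤ b := by rw [hb]; linarith
        rw [← hb] at h7 h11 ⊢
        calc (1 + 2 ^ 19) * ((8 * (R : ℝ) + 4) * (1 / 8) ^ m) +
            (∑ x : X, if st X R m x then (1 : ℝ) else 0) *
              (s * C + s⁻¹ * ((8 * R + 4) * (1 / 8) ^ m)) ≤
            (1 + 2 ^ 19) * (12 * b * (3 / 4) ^ m) +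
              9 * m * b * (s * C + s⁻¹ * ((8 * R + 4) * (1 / 8) ^ m)) := by
              refine add_le_add ?_ ?_
              · refine mul_le_mul_of_nonneg_left ?_ (by norm_num)
                exact mul_le_mul h11 h8 (by positivity) (by positivity)
              · refine mul_le_mul_of_nonneg_right ?_ h5
                rw [← hb] at h6
                exact h6.trans h7
          _ = (1 + 2 ^ 19) * (12 * b * (3 / 4) ^ m) + 9 * m * b * (C * (3 / 4) ^ m) +
              9 * b * (8 * R + 4) * (m * (1 / 6) ^ m) := by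
              rw [← h9, hs]
              ring
          _ ≤ (1 + 2 ^ 19) * (12 * b ^ 2 * (3 / 4) ^ m) + 9 * b * b * (C * (3 / 4) ^ m) +
              9 * b * (12 * b) * ((3 / 4) ^ m) := by
              have e1 : b ≤ b ^ 2 := by nlinarith
              have e2 : (0 : ℝ) ≤ (3 / 4) ^ m := by positivity
              gcongr
          _ = _ := by ring

end FP

/-- **FIRST PASSAGE CUT-OFF.** -/
theorem cutStatement {q : ℝ} (hq : 0 < q) (hq1 : q < 1 / 2) :
    ∃ C1 C2 : ℝ, 0 < C1 ∧ 0 < C2 ∧ CutStatement q C1 C2 := by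
  obtain ⟨C, hC, hmom⟩ := FP.uni_mom (r := 2 * q) (by linarith) (by linarith)
  refine ⟨2 ^ 19, 12 * (1 + 2 ^ 19) + 9 * C + 108, by norm_num, by positivity, ?_⟩
  intro X R m hm hR
  exact ⟨FP.chi X R m, FP.kk X R m, FP.cutP hm, FP.tail hq hq1 hC hmom hm hR⟩

end P365CU

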