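import Vale.Agent.P365.CU.Ring

set_option linter.all false

/-!
# P365 / CU / CutId: smooth cut-offs: factorization across a ring and insensitivity to what is
beyond the ring (deterministic).
-/

namespace P365CU

open MeasureTheory ProbabilityTheory Complex Matrix Function P365S6
open P365L P365L.Comp P365X
open scoped ENNReal Real

variable {ι : Type*} [Fintype ι] [DecidableEq ι] {A : Matrix ι ι ℝ} {W : ι → ℂ}

/-- commutator with the cut-off `χ`, rows in `R` -/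
noncomputable def Qm (A : Matrix ι ι ℝ) (R : Finset ι) (χ : ι → ℝ) : Matrix ι ι ℝ :=
  fun x y => if x ∈ R then A x y * (χ y - χ x) else 0

/-- the basic identity `χ G = G₁ χ + G₁ Q G` -/
theorem cut_id (hA : A.IsSymm) (hW : ∀ x, (W x).im < 0) (R : Finset ι) {χ : ι → ℝ}
    (hχ : ∀ x, x ∉ R → χ x = 0) (a b : ι) :
    (χ a : ℂ) * Gr A W a b = Gr (cut A R) W a b * χ b +
      ∑ x, Gr (cut A R) W a x * ∑ y, (Qm A R χ x y : ℂ) * Gr A W y b := by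
  have hA1 := cut_symm hA R
  obtain ⟨D, hD⟩ : ∃ D : Matrix ι ι ℂ, D = Matrix.diagonal fun x => (χ x : ℂ) := ⟨_, rfl⟩
  have hQ : Kmat (cut A R) W * D - D * Kmat A W = (Qm A R χ).map ofReal := by
    ext x y
    rw [Matrix.sub_apply, hD, Matrix.mul_diagonal, Matrix.diagonal_mul, Matrix.map_apply]
    unfold Kmat Qm
    rw [Matrix.add_apply, Matrix.add_apply, Matrix.map_apply, Matrix.map_apply]
    unfold cut
    by_cases hxy : x = y
    · subst hxy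
      rw [if_pos Iff.rfl, Matrix.diagonal_apply_eq]
      split_ifs
      · push_cast
        ring
      · push_cast
        ring
    · rw [Matrix.diagonal_apply_ne _ hxy, add_zero, add_zero]
      by_cases hx : x ∈ R
      · by_cases hy : y ∈ R
        · rw [if_pos (iff_of_true hx hy), if_pos hx]
          push_cast
          ring
        · rw [if_neg (by tauto), if_pos hx, hχ y hy]
          push_cast
          ring
      · by_cases hy : y ∈ R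
        · rw [if_neg (by tauto), if_neg hx, hχ x hx]
          push_cast
          ring
        · rw [if_pos (iff_of_false hx hy), if_neg hx, hχ x hx, hχ y hy]
          push_cast
          ring
  have h1 : D * Gr A W = Gr (cut A R) W * D + Gr (cut A R) W * ((Qm A R χ).map ofReal * Gr A W) := by
    rw [← hQ, Matrix.sub_mul, Matrix.mul_sub, ← Matrix.mul_assoc (Gr (cut A R) W),
      ← Matrix.mul_assoc (Gr (cut A R) W) (Kmat (cut A R) W) D, Gr_mul_Kmat hA1 hW,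
      Matrix.one_mul, Matrix.mul_assoc D, Kmat_mul_Gr hA hW, Matrix.mul_one]
    abel
  have h2 := congrFun (congrFun h1 a) b
  rw [Matrix.add_apply, hD, Matrix.diagonal_mul, Matrix.mul_diagonal, Matrix.mul_apply] at h2
  rw [h2]
  congr 1

omit [Fintype ι] [DecidableEq ι] in
/-- Schur test, `|T|` symmetric -/
theorem schur' {T : ι → ι → ℝ} (hT : ∀ x y, |T x y| = |T y x|) {τ : ℝ} (hτ : 0 ≤ τ) (L : Finset ι)
    (h : ∀ x ∈ L, ∑ y ∈ L, |T x y| ≤ τ) (u : ι → ℂ) :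
    ∑ x ∈ L, ‖∑ y ∈ L, (T x y : ℂ) * u y‖ ^ 2 ≤ τ ^ 2 * ∑ y ∈ L, ‖u y‖ ^ 2 := by
  have h1 : ∀ x ∈ L, ‖∑ y ∈ L, (T x y : ℂ) * u y‖ ^ 2 ≤
      τ * ∑ y ∈ L, |T x y| * ‖u y‖ ^ 2 := by
    intro x hx
    have h2 : ‖∑ y ∈ L, (T x y : ℂ) * u y‖ ≤
        ∑ y ∈ L, Real.sqrt |T x y| * (Real.sqrt |T x y| * ‖u y‖) := by
      refine (norm_sum_le _ _).trans (le_of_eq (Finset.sum_congr rfl fun y _ => ?_))
      rw [norm_mul, Complex.norm_real, Real.norm_eq_abs, ← mul_assoc,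
        Real.mul_self_sqrt (abs_nonneg _)]
    have h3 := Finset.sum_mul_sq_le_sq_mul_sq L (fun y => Real.sqrt |T x y|)
      (fun y => Real.sqrt |T x y| * ‖u y‖)
    have h4 : ∑ y ∈ L, Real.sqrt |T x y| ^ 2 = ∑ y ∈ L, |T x y| :=
      Finset.sum_congr rfl fun y _ => Real.sq_sqrt (abs_nonneg _)
    have h5 : ∑ y ∈ L, (Real.sqrt |T x y| * ‖u y‖) ^ 2 = ∑ y ∈ L, |T x y| * ‖u y‖ ^ 2 :=
      Finset.sum_congr rfl fun y _ => by rw [mul_pow, Real.sq_sqrt (abs_nonneg _)]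
    rw [h4, h5] at h3
    calc ‖∑ y ∈ L, (T x y : ℂ) * u y‖ ^ 2
        ≤ (∑ y ∈ L, Real.sqrt |T x y| * (Real.sqrt |T x y| * ‖u y‖)) ^ 2 :=
          pow_le_pow_left₀ (norm_nonneg _) h2 2
      _ ≤ (∑ y ∈ L, |T x y|) * ∑ y ∈ L, |T x y| * ‖u y‖ ^ 2 := h3
      _ ≤ τ * ∑ y ∈ L, |T x y| * ‖u y‖ ^ 2 :=
          mul_le_mul_of_nonneg_right (h x hx)
            (Finset.sum_nonneg fun y _ => mul_nonneg (abs_nonneg _) (sq_nonneg _))
  calc ∑ x ∈ L, ‖∑ y ∈ L, (T x y : ℂ) * u y‖ ^ 2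
      ≤ ∑ x ∈ L, τ * ∑ y ∈ L, |T x y| * ‖u y‖ ^ 2 := Finset.sum_le_sum h1
    _ = τ * ∑ y ∈ L, (∑ x ∈ L, |T y x|) * ‖u y‖ ^ 2 := by
        rw [← Finset.mul_sum, Finset.sum_comm]
        congr 1
        refine Finset.sum_congr rfl fun y _ => ?_
        rw [Finset.sum_mul]
        exact Finset.sum_congr rfl fun x _ => by rw [hT]
    _ ≤ τ * ∑ y ∈ L, τ * ‖u y‖ ^ 2 := by
        refine mul_le_mul_of_nonneg_left (Finset.sum_le_sum fun y hy => ?_) hτ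
        exact mul_le_mul_of_nonneg_right (h y hy) (sq_nonneg _)
    _ = τ ^ 2 * ∑ y ∈ L, ‖u y‖ ^ 2 := by
        rw [← Finset.mul_sum]
        ring

/-- `χ` is a cut-off adapted to `R` with transition in `N`, commutator bounded by `k` -/
structure CO (A : Matrix ι ι ℝ) (R N : Finset ι) (χ : ι → ℝ) (k : ℝ) : Prop where
  sub : N ⊆ R
  zero : ∀ x, x ∉ R → χ x = 0
  nonneg : ∀ x, 0 ≤ χ x
  le_one : ∀ x, χ x ≤ 1
  supp : ∀ x y, A x y ≠ 0 → χ x ≠ χ y → x ∈ N ∧ y ∈ N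
  k0 : 0 ≤ k
  row : ∀ x ∈ N, ∑ y ∈ N, |A x y * (χ y - χ x)| ≤ k

variable {R N : Finset ι} {χ : ι → ℝ} {k : ℝ}

theorem CO.Qm_zero (h : CO A R N χ k) {x y : ι} (hxy : x ∉ N ∨ y ∉ N) : Qm A R χ x y = 0 := by
  unfold Qm
  split_ifs with hx
  · by_contra hne
    have h1 : A x y ≠ 0 := fun h' => hne (by rw [h', zero_mul])
    have h2 : χ x ≠ χ y := fun h' => hne (by rw [h', sub_self, mul_zero])
    have := h.supp x y h1 h2
    tauto
  · rfl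

theorem CO.Qm_in (h : CO A R N χ k) {x : ι} (hx : x ∈ N) (y : ι) :
    Qm A R χ x y = A x y * (χ y - χ x) := by
  unfold Qm
  rw [if_pos (h.sub hx)]

theorem CO.sum_Qm (h : CO A R N χ k) (u : ι → ℂ) (x : ι) :
    ∑ y, (Qm A R χ x y : ℂ) * u y =
      if x ∈ N then ∑ y ∈ N, ((A x y * (χ y - χ x) : ℝ) : ℂ) * u y else 0 := by
  split_ifs with hx
  · rw [← Finset.sum_subset (Finset.subset_univ N)]
    · exact Finset.sum_congr rfl fun y _ => by rw [h.Qm_in hx]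
    · intro y _ hy
      rw [h.Qm_zero (Or.inr hy), ofReal_zero, zero_mul]
  · exact Finset.sum_eq_zero fun y _ => by rw [h.Qm_zero (Or.inl hx), ofReal_zero, zero_mul]

theorem CO.op (h : CO A R N χ k) (hA : A.IsSymm) (u : ι → ℂ) :
    ∑ x ∈ N, ‖∑ y ∈ N, ((A x y * (χ y - χ x) : ℝ) : ℂ) * u y‖ ^ 2 ≤
      k ^ 2 * ∑ y ∈ N, ‖u y‖ ^ 2 := by
  refine schur' (fun x y => ?_) h.k0 N h.row u
  rw [hA.apply, ← abs_neg]
  congr 1
  ring

theorem CO.op' (h : CO A R N χ k) (hA : A.IsSymm) (u : ι → ℂ) :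
    ∑ y ∈ N, ‖∑ x ∈ N, u x * ((A x y * (χ y - χ x) : ℝ) : ℂ)‖ ^ 2 ≤
      k ^ 2 * ∑ y ∈ N, ‖u y‖ ^ 2 := by
  refine le_trans (le_of_eq ?_) (h.op hA u)
  refine Finset.sum_congr rfl fun y _ => ?_
  rw [← norm_neg, ← Finset.sum_neg_distrib]
  congr 2
  refine Finset.sum_congr rfl fun x _ => ?_
  rw [hA.apply x y]
  push_cast
  ring

/-- FACTORIZATION -/
theorem CO.cross (h : CO A R N χ k) (hA : A.IsSymm) (hW : ∀ x, (W x).im < 0) {a b : ι}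
    (ha : χ a = 1) (hb : χ b = 0) :
    ‖Gr A W a b‖ ^ 2 ≤ k ^ 2 * (∑ x ∈ N, ‖Gr (cut A R) W a x‖ ^ 2) * ∑ y ∈ N, ‖Gr A W y b‖ ^ 2 := by
  have h1 := cut_id hA hW R h.zero a b
  rw [ha, hb, ofReal_one, one_mul, ofReal_zero, mul_zero, zero_add] at h1
  obtain ⟨f, hf⟩ : ∃ f : ι → ℂ, f = fun x =>
      ∑ y ∈ N, ((A x y * (χ y - χ x) : ℝ) : ℂ) * Gr A W y b := ⟨_, rfl⟩
  have h2 : Gr A W a b = ∑ x ∈ N, Gr (cut A R) W a x * f x := by
    rw [h1, ← Finset.sum_subset (Finset.subset_univ N)]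
    · refine Finset.sum_congr rfl fun x hx => ?_
      rw [h.sum_Qm (fun y => Gr A W y b), if_pos hx, hf]
    · intro x _ hx
      rw [h.sum_Qm (fun y => Gr A W y b), if_neg hx, mul_zero]
  have h3 : ‖Gr A W a b‖ ≤ ∑ x ∈ N, ‖Gr (cut A R) W a x‖ * ‖f x‖ := by
    rw [h2]
    exact (norm_sum_le _ _).trans (Finset.sum_congr rfl fun _ _ => norm_mul _ _).le
  have h4 : (∑ x ∈ N, ‖Gr (cut A R) W a x‖ * ‖f x‖) ^ 2 ≤
      (∑ x ∈ N, ‖Gr (cut A R) W a x‖ ^ 2) * ∑ x ∈ N, ‖f x‖ ^ 2 :=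
    Finset.sum_mul_sq_le_sq_mul_sq N _ _
  have h5 := h.op hA (fun y => Gr A W y b)
  rw [hf] at h4
  have h6 : 0 ≤ ∑ x ∈ N, ‖Gr (cut A R) W a x‖ ^ 2 := Finset.sum_nonneg fun _ _ => sq_nonneg _
  calc ‖Gr A W a b‖ ^ 2 ≤ (∑ x ∈ N, ‖Gr (cut A R) W a x‖ * ‖f x‖) ^ 2 :=
        pow_le_pow_left₀ (norm_nonneg _) h3 2
    _ ≤ (∑ x ∈ N, ‖Gr (cut A R) W a x‖ ^ 2) * (k ^ 2 * ∑ y ∈ N, ‖Gr A W y b‖ ^ 2) := by
        rw [hf]
        exact h4.trans (mul_le_mul_of_nonneg_left h5 h6)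
    _ = _ := by ring

/-- INSENSITIVITY -/
theorem CO.insens (h : CO A R N χ k) (hA : A.IsSymm) (hW : ∀ x, (W x).im < 0) {L : Finset ι}
    (hNL : N ⊆ L) (hL : ∀ x ∈ L, (W x).im ≤ -1) (hL0 : ∀ x ∈ L, x ∉ N → χ x = 0) {a : ι}
    (ha : χ a = 1) :
    ∑ b ∈ L, ‖Gr A W a b‖ ^ 2 ≤ (1 + k) ^ 2 * ∑ x ∈ N, ‖Gr (cut A R) W a x‖ ^ 2 := by
  obtain ⟨g, hg⟩ : ∃ g : ι → ℂ, g = fun x => Gr (cut A R) W a x := ⟨_, rfl⟩
  obtain ⟨f, hf⟩ : ∃ f : ι → ℂ, f = fun y =>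
      if y ∈ N then ∑ x ∈ N, g x * ((A x y * (χ y - χ x) : ℝ) : ℂ) else 0 := ⟨_, rfl⟩
  obtain ⟨s, hs0, hs⟩ : ∃ s : ℝ, 0 ≤ s ∧ s ^ 2 = ∑ x ∈ N, ‖g x‖ ^ 2 :=
    ⟨Real.sqrt _, Real.sqrt_nonneg _, Real.sq_sqrt (Finset.sum_nonneg fun _ _ => sq_nonneg _)⟩
  have hfL : ∀ x, x ∉ L → f x = 0 := by
    intro x hx
    rw [hf]
    simp only
    rw [if_neg fun h' => hx (hNL h')]
  have h1 : ∀ b, Gr A W a b = g b * χ b + (Gr A W).mulVec f b := by
    intro b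
    have h2 := cut_id hA hW R h.zero a b
    rw [ha, ofReal_one, one_mul] at h2
    rw [h2, hg]
    congr 1
    have h3 : ∑ x, Gr (cut A R) W a x * ∑ y, (Qm A R χ x y : ℂ) * Gr A W y b =
        ∑ x ∈ N, g x * ∑ y ∈ N, ((A x y * (χ y - χ x) : ℝ) : ℂ) * Gr A W y b := by
      rw [← Finset.sum_subset (Finset.subset_univ N)]
      · refine Finset.sum_congr rfl fun x hx => ?_
        rw [h.sum_Qm (fun y => Gr A W y b), if_pos hx, hg]
      · intro x _ hx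
        rw [h.sum_Qm (fun y => Gr A W y b), if_neg hx, mul_zero]
    rw [h3, Matrix.mulVec, dotProduct]
    have h4 : ∑ y, Gr A W b y * f y =
        ∑ y ∈ N, Gr A W b y * ∑ x ∈ N, g x * ((A x y * (χ y - χ x) : ℝ) : ℂ) := by
      rw [← Finset.sum_subset (Finset.subset_univ N)]
      · refine Finset.sum_congr rfl fun y hy => ?_
        rw [hf]
        simp only
        rw [if_pos hy]
      · intro y _ hy
        rw [hf]
        simp only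
        rw [if_neg hy, mul_zero]
    rw [h4]
    simp only [Finset.mul_sum]
    rw [Finset.sum_comm]
    refine Finset.sum_congr rfl fun y _ => Finset.sum_congr rfl fun x _ => ?_
    rw [Gr_symm hA y b]
    ring
  have h2 : ∑ y ∈ L, ‖f y‖ ^ 2 ≤ (k * s) ^ 2 := by
    have h3 : ∑ y ∈ L, ‖f y‖ ^ 2 = ∑ y ∈ N, ‖f y‖ ^ 2 := by
      symm
      refine Finset.sum_subset hNL fun y _ hy => ?_
      rw [hf]
      simp only
      rw [if_neg hy]
      simp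
    rw [h3, mul_pow, hs]
    refine le_trans (le_of_eq ?_) (h.op' hA g)
    refine Finset.sum_congr rfl fun y hy => ?_
    rw [hf]
    simp only
    rw [if_pos hy]
  have h3 : ∑ b ∈ L, ‖(Gr A W).mulVec f b‖ ^ 2 ≤ (k * s) ^ 2 := by
    have := layer_solve hA hW one_pos L hL f hfL
    rw [one_pow, div_one, one_mul] at this
    exact this.trans h2
  have h4 : ∑ b ∈ L, ‖g b * χ b‖ ^ 2 ≤ s ^ 2 := by
    rw [hs, ← Finset.sum_subset hNL]
    · refine Finset.sum_le_sum fun b _ => ?_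
      refine pow_le_pow_left₀ (norm_nonneg _) ?_ 2
      rw [norm_mul, Complex.norm_real, Real.norm_of_nonneg (h.nonneg b)]
      exact mul_le_of_le_one_right (norm_nonneg _) (h.le_one b)
    · intro b hb hbN
      rw [hL0 b hb hbN]
      simp
  have h5 := l2_add_le L (fun b => g b * χ b) ((Gr A W).mulVec f) hs0
    (mul_nonneg h.k0 hs0) h4 h3
  calc ∑ b ∈ L, ‖Gr A W a b‖ ^ 2 = ∑ b ∈ L, ‖g b * χ b + (Gr A W).mulVec f b‖ ^ 2 :=
        Finset.sum_congr rfl fun b _ => by rw [h1]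
    _ ≤ (s + k * s) ^ 2 := h5
    _ = (1 + k) ^ 2 * s ^ 2 := by ring
    _ = _ := by rw [hs, hg]

theorem CO.cross_bl (h : CO A R N χ k) (hA : A.IsSymm) (hW : ∀ x, (W x).im < 0) {S B : Finset ι}
    (hS : ∀ a ∈ S, χ a = 1) (hB : ∀ b ∈ B, χ b = 0) :
    bl S B (Gr A W) ≤ k ^ 2 * bl S N (Gr (cut A R) W) * bl N B (Gr A W) := by
  have h1 : bl N B (Gr A W) = ∑ b ∈ B, ∑ y ∈ N, ‖Gr A W y b‖ ^ 2 := by
    unfold bl
    rw [Finset.sum_comm]
  rw [h1]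
  unfold bl
  rw [mul_assoc, Finset.sum_mul_sum, Finset.mul_sum]
  refine Finset.sum_le_sum fun a ha => ?_
  rw [Finset.mul_sum]
  refine Finset.sum_le_sum fun b hb => ?_
  have := h.cross hA hW (hS a ha) (hB b hb)
  rw [mul_assoc] at this
  exact this

theorem CO.insens_bl (h : CO A R N χ k) (hA : A.IsSymm) (hW : ∀ x, (W x).im < 0) {L S : Finset ι}
    (hNL : N ⊆ L) (hL : ∀ x ∈ L, (W x).im ≤ -1) (hL0 : ∀ x ∈ L, x ∉ N → χ x = 0)
    (hS : ∀ a ∈ S, χ a = 1) :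
    bl S L (Gr A W) ≤ (1 + k) ^ 2 * bl S N (Gr (cut A R) W) := by
  unfold bl
  rw [Finset.mul_sum]
  exact Finset.sum_le_sum fun a ha => h.insens hA hW hNL hL hL0 (hS a ha)

omit [Fintype ι] [DecidableEq ι] in
theorem bl_comm {M : Matrix ι ι ℂ} (hM : ∀ x y, M x y = M y x) (S B : Finset ι) :
    bl S B M = bl B S M := by
  unfold bl
  rw [Finset.sum_comm]
  exact Finset.sum_congr rfl fun a _ => Finset.sum_congr rfl fun b _ => by rw [hM]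

omit [Fintype ι] [DecidableEq ι] in
theorem bl_mono (M : ι → ι → ℂ) {S S' B B' : Finset ι} (hS : S ⊆ S') (hB : B ⊆ B') :
    bl S B M ≤ bl S' B' M := by
  unfold bl
  calc ∑ a ∈ S, ∑ b ∈ B, ‖M a b‖ ^ 2 ≤ ∑ a ∈ S, ∑ b ∈ B', ‖M a b‖ ^ 2 :=
        Finset.sum_le_sum fun a _ =>
          Finset.sum_le_sum_of_subset_of_nonneg hB fun _ _ _ => sq_nonneg _
    _ ≤ ∑ a ∈ S', ∑ b ∈ B', ‖M a b‖ ^ 2 :=
        Finset.sum_le_sum_of_subset_of_nonneg hS fun _ _ _ =>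
          Finset.sum_nonneg fun _ _ => sq_nonneg _

/-- THE DETERMINISTIC RING BOUND: `R` inside, `R'` its complement, ring `L = N ∪ N'` -/
theorem ring_det {R' N' L S B : Finset ι} {χ' : ι → ℝ} {k' : ℝ} (h : CO A R N χ k)
    (h' : CO A R' N' χ' k') (hRR : ∀ x, x ∈ R' ↔ x ∉ R) (hA : A.IsSymm)
    (hW : ∀ x, (W x).im < 0) (hLN : ∀ x, x ∈ L ↔ x ∈ N ∨ x ∈ N') (hL : ∀ x ∈ L, (W x).im ≤ -1)
    (hS : ∀ a ∈ S, χ a = 1) (hB : ∀ b ∈ B, χ' b = 1) (hB0 : ∀ b ∈ B, χ b = 0) :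
    bl S B (Gr A W) ≤ (k * (1 + k')) ^ 2 *
        (bl S N (Gr (cut A R) W) * bl N' B (Gr (cut A R) W)) ∧
    bl S L (Gr A W) ≤ (1 + k) ^ 2 * bl S N (Gr (cut A R) W) ∧
    bl L B (Gr A W) ≤ (1 + k') ^ 2 * bl N' B (Gr (cut A R) W) := by
  have hcut : cut A R' = cut A R := (cut_compl A hRR).symm
  have hNL : N ⊆ L := fun x hx => (hLN x).2 (Or.inl hx)
  have hNL' : N' ⊆ L := fun x hx => (hLN x).2 (Or.inr hx)
  have h2 : bl S L (Gr A W) ≤ (1 + k) ^ 2 * bl S N (Gr (cut A R) W) := by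
    refine h.insens_bl hA hW hNL hL (fun x hx hxN => h.zero x ?_) hS
    have h3 : x ∈ N' := by
      have := (hLN x).1 hx
      tauto
    exact (hRR x).1 (h'.sub h3)
  have h3 : bl L B (Gr A W) ≤ (1 + k') ^ 2 * bl N' B (Gr (cut A R) W) := by
    rw [bl_comm (Gr_symm hA), bl_comm (Gr_symm (cut_symm hA R)), ← hcut]
    refine h'.insens_bl hA hW hNL' hL (fun x hx hxN => h'.zero x ?_) hB
    have h4 : x ∈ N := by
      have := (hLN x).1 hx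
      tauto
    exact fun h5 => (hRR x).1 h5 (h.sub h4)
  refine ⟨?_, h2, h3⟩
  have h4 := h.cross_bl hA hW hS hB0
  have h5 : bl N B (Gr A W) ≤ (1 + k') ^ 2 * bl N' B (Gr (cut A R) W) :=
    (bl_mono _ hNL (Finset.Subset.refl B)).trans h3
  have h6 : 0 ≤ k ^ 2 * bl S N (Gr (cut A R) W) :=
    mul_nonneg (sq_nonneg _) (bl_nonneg _ _ _)
  calc bl S B (Gr A W) ≤ k ^ 2 * bl S N (Gr (cut A R) W) * bl N B (Gr A W) := h4
    _ ≤ k ^ 2 * bl S N (Gr (cut A R) W) * ((1 + k') ^ 2 * bl N' B (Gr (cut A R) W)) :=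
        mul_le_mul_of_nonneg_left h5 h6
    _ = _ := by ring

/-- ... and its consequence for the right side of `ring_circle` -/
theorem ring_det_pow {R' N' L S B : Finset ι} {χ' : ι → ℝ} {k' p : ℝ} (hp : 0 < p) (hp1 : p < 1)
    (h : CO A R N χ k)
    (h' : CO A R' N' χ' k') (hRR : ∀ x, x ∈ R' ↔ x ∉ R) (hA : A.IsSymm)
    (hW : ∀ x, (W x).im < 0) (hLN : ∀ x, x ∈ L ↔ x ∈ N ∨ x ∈ N') (hL : ∀ x ∈ L, (W x).im ≤ -1)
    (hS : ∀ a ∈ S, χ a = 1) (hB : ∀ b ∈ B, χ' b = 1) (hB0 : ∀ b ∈ B, χ b = 0) :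
    bl S B (Gr A W) ^ (p / 2) + CK p * 2 ^ p * bl S L (Gr A W) ^ (p / 2) *
        bl L B (Gr A W) ^ (p / 2) ≤
      (1 + CK p * 2 ^ p) * (((1 + k) ^ p * bl S N (Gr (cut A R) W) ^ (p / 2)) *
        ((1 + k') ^ p * bl N' B (Gr (cut A R) W) ^ (p / 2))) := by
  obtain ⟨h1, h2, h3⟩ := ring_det h h' hRR hA hW hLN hL hS hB hB0
  have hk := h.k0
  have hk' := h'.k0
  have hCK := CK_nonneg hp hp1
  obtain ⟨X, hX⟩ : ∃ X, X = bl S N (Gr (cut A R) W) := ⟨_, rfl⟩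
  obtain ⟨Y, hY⟩ : ∃ Y, Y = bl N' B (Gr (cut A R) W) := ⟨_, rfl⟩
  have hX0 : 0 ≤ X := by rw [hX]; exact bl_nonneg _ _ _
  have hY0 : 0 ≤ Y := by rw [hY]; exact bl_nonneg _ _ _
  rw [← hX, ← hY] at h1
  rw [← hX] at h2
  rw [← hY] at h3
  rw [← hX, ← hY]
  have e1 : bl S B (Gr A W) ^ (p / 2) ≤ ((1 + k) ^ p * X ^ (p / 2)) * ((1 + k') ^ p * Y ^ (p / 2)) := by
    have f1 : bl S B (Gr A W) ≤ ((1 + k) * (1 + k')) ^ 2 * (X * Y) := by
      refine h1.trans (mul_le_mul_of_nonneg_right ?_ (mul_nonneg hX0 hY0))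
      refine pow_le_pow_left₀ (by positivity) ?_ 2
      exact mul_le_mul_of_nonneg_right (by linarith) (by linarith)
    refine (Real.rpow_le_rpow (bl_nonneg _ _ _) f1 (by positivity)).trans (le_of_eq ?_)
    rw [Real.mul_rpow (by positivity) (by positivity), P365S6.sq_rpow_half (by positivity),
      Real.mul_rpow hX0 hY0, Real.mul_rpow (by positivity) (by positivity)]
    ring
  have e2 : bl S L (Gr A W) ^ (p / 2) ≤ (1 + k) ^ p * X ^ (p / 2) := by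
    refine (Real.rpow_le_rpow (bl_nonneg _ _ _) h2 (by positivity)).trans (le_of_eq ?_)
    rw [Real.mul_rpow (by positivity) hX0, P365S6.sq_rpow_half (by positivity)]
  have e3 : bl L B (Gr A W) ^ (p / 2) ≤ (1 + k') ^ p * Y ^ (p / 2) := by
    refine (Real.rpow_le_rpow (bl_nonneg _ _ _) h3 (by positivity)).trans (le_of_eq ?_)
    rw [Real.mul_rpow (by positivity) hY0, P365S6.sq_rpow_half (by positivity)]
  have e4 : bl S L (Gr A W) ^ (p / 2) * bl L B (Gr A W) ^ (p / 2) ≤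
      ((1 + k) ^ p * X ^ (p / 2)) * ((1 + k') ^ p * Y ^ (p / 2)) :=
    mul_le_mul e2 e3 (Real.rpow_nonneg (bl_nonneg _ _ _) _) (by positivity)
  have e5 : 0 ≤ CK p * 2 ^ p := by positivity
  calc bl S B (Gr A W) ^ (p / 2) + CK p * 2 ^ p * bl S L (Gr A W) ^ (p / 2) *
        bl L B (Gr A W) ^ (p / 2)
      = bl S B (Gr A W) ^ (p / 2) + CK p * 2 ^ p * (bl S L (Gr A W) ^ (p / 2) *
        bl L B (Gr A W) ^ (p / 2)) := by ring
    _ ≤ ((1 + k) ^ p * X ^ (p / 2)) * ((1 + k') ^ p * Y ^ (p / 2)) + CK p * 2 ^ p *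
        (((1 + k) ^ p * X ^ (p / 2)) * ((1 + k') ^ p * Y ^ (p / 2))) :=
        add_le_add e1 (mul_le_mul_of_nonneg_left e4 e5)
    _ = _ := by ring

end P365CU
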