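import Vale.Agent.P365.CU.Chain
import Vale.Agent.P365.FVC.Two

set_option linter.all false

/-!
# P365 / CU / Est: a priori estimates for the end factors of the chain.
-/

namespace P365CU

open MeasureTheory ProbabilityTheory Complex Matrix Function P365S6
open P365L P365L.Comp P365X
open scoped ENNReal Real

variable {ι : Type*} [Fintype ι] [DecidableEq ι] {A : Matrix ι ι ℝ} {lam p : ℝ} {ζ : ℂ}
  {κ : ι → ℝ} {v : ι → ℝ}

/-- `uni` is regular -/
theorem uni_reg : P365L.FVC.Reg π (1 / 2) uni := by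
  refine ⟨inferInstance, ?_, le_rfl⟩
  have e : P365L.nu = volume.withDensity (ProbabilityTheory.cauchyPDF 0 1) :=
    ProbabilityTheory.cauchyMeasure_of_scale_ne_zero 0 one_ne_zero
  rw [Measure.le_iff]
  intro s hs
  unfold uni
  rw [Measure.smul_apply, Measure.smul_apply, e, withDensity_apply _ hs,
    Measure.restrict_apply hs, smul_eq_mul, smul_eq_mul]
  calc ENNReal.ofReal (1 / 2) * volume (s ∩ Set.Icc (-1) 1)
      = ∫⁻ _x in s ∩ Set.Icc (-1) 1, ENNReal.ofReal (1 / 2) := by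
        rw [setLIntegral_const]
    _ ≤ ∫⁻ x in s ∩ Set.Icc (-1) 1, ENNReal.ofReal π * ProbabilityTheory.cauchyPDF 0 1 x := by
        refine setLIntegral_mono' (hs.inter measurableSet_Icc) fun x hx => ?_
        simp only [ProbabilityTheory.cauchyPDF]
        rw [← ENNReal.ofReal_mul Real.pi_pos.le]
        refine ENNReal.ofReal_le_ofReal ?_
        rw [ProbabilityTheory.cauchyPDFReal_def]
        simp only [NNReal.coe_one, mul_one, sub_zero, one_pow]
        have h1 : x ^ 2 ≤ 1 := by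
          have := hx.2
          nlinarith [this.1, this.2]
        have h2 : (0 : ℝ) < x ^ 2 + 1 := by positivity
        have h3 : π * (π⁻¹ * (x ^ 2 + 1)⁻¹) = (x ^ 2 + 1)⁻¹ := by
          have := Real.pi_pos.ne'
          field_simp
        rw [h3, one_div]
        exact inv_anti₀ h2 (by linarith)
    _ ≤ ∫⁻ x in s, ENNReal.ofReal π * ProbabilityTheory.cauchyPDF 0 1 x :=
        lintegral_mono_set Set.inter_subset_left
    _ = _ := by
        rw [lintegral_const_mul _ (ProbabilityTheory.measurable_cauchyPDF 0 1)]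

/-- one-site bound -/
theorem site_one {q : ℝ} (hq : 0 < q) (hq1 : q < 1) (hlam : 0 < lam) : ∃ K : ℝ, 0 < K ∧
    ∀ {ι : Type} [Fintype ι] [DecidableEq ι] (A : Matrix ι ι ℝ), A.IsSymm → ∀ W : ι → ℂ,
      (∀ x, (W x).im < 0) → ∀ (a : ι) (w0 : ℂ), w0.im < 0 →
      ∫⁻ u, ENNReal.ofReal (‖Gr A (Function.update W a (((lam * u : ℝ) : ℂ) + w0)) a a‖ ^ q) ∂uni ≤
        ENNReal.ofReal K := by
  obtain ⟨K, hK, H⟩ := P365L.FVC.neg_moment' hq hq1 π
  refine ⟨K * (lam⁻¹) ^ q, by positivity, ?_⟩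
  intro ι _ _ A hA W hW a w0 hw0
  obtain ⟨V, hV⟩ : ∃ V, V = Function.update W a w0 := ⟨_, rfl⟩
  have hVn : ∀ x, (V x).im < 0 := by
    intro x
    by_cases hx : x = a
    · subst hx
      rw [hV, Function.update_self]
      exact hw0
    · rw [hV, Function.update_of_ne hx]
      exact hW x
  have hVa : V a = w0 := by rw [hV, Function.update_self]
  obtain ⟨g, hg⟩ : ∃ g, g = Gr A V a a := ⟨_, rfl⟩
  have h1 : ∀ u : ℝ, Gr A (Function.update W a (((lam * u : ℝ) : ℂ) + w0)) a a =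
      g / (1 + u * (lam * g)) := by
    intro u
    have h2 : Function.update W a (((lam * u : ℝ) : ℂ) + w0) =
        Function.update V a (V a + ((lam * u : ℝ) : ℂ)) := by
      rw [hVa, hV, Function.update_idem, add_comm]
    have h3 : (V a + ((lam * u : ℝ) : ℂ)).im < 0 := by
      rw [Complex.add_im, Complex.ofReal_im, add_zero]
      exact hVn a
    have h4 := Gr_update hA hVn a _ h3
    rw [h2, h4.2 a a, ← hg]
    have h5 : (1 : ℂ) + ((lam * u : ℝ) : ℂ) * g ≠ 0 := by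
      rw [hg]
      exact h4.1
    have h6 : (1 : ℂ) + u * (lam * g) = 1 + ((lam * u : ℝ) : ℂ) * g := by
      push_cast
      ring
    rw [h6, eq_div_iff h5, sub_mul, mul_assoc (g * g), div_mul_cancel₀ _ h5]
    ring
  have h2 : ∀ u : ℝ, ENNReal.ofReal (‖g / (1 + u * (lam * g))‖ ^ q) =
      ‖g‖ₑ ^ q * (‖(1 : ℂ) + u * (lam * g)‖ₑ ^ q)⁻¹ := by
    intro u
    have h5 : (1 : ℂ) + u * (lam * g) ≠ 0 := by
      have h3 : (V a + ((lam * u : ℝ) : ℂ)).im < 0 := by
        rw [Complex.add_im, Complex.ofReal_im, add_zero]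
        exact hVn a
      have h4 := (Gr_update hA hVn a _ h3).1
      rw [← hg] at h4
      convert h4 using 1
      push_cast
      ring
    rw [← ENNReal.ofReal_rpow_of_nonneg (norm_nonneg _) hq.le, ofReal_norm_eq_enorm, div_eq_mul_inv,
      enorm_mul, ENNReal.mul_rpow_of_nonneg _ _ hq.le, enorm_inv h5, ENNReal.inv_rpow]
  simp only [h1, h2]
  have hm : Measurable fun u : ℝ => (‖(1 : ℂ) + u * (lam * g)‖ₑ ^ q)⁻¹ := by
    have : Measurable fun u : ℝ => (1 : ℂ) + u * (lam * g) :=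
      (Complex.measurable_ofReal.mul_const _).const_add _
    exact (this.enorm.pow_const q).inv
  rw [lintegral_const_mul _ hm]
  refine (mul_le_mul_right (H (1 / 2) uni uni_reg 1 (lam * g)) _).trans ?_
  rw [ENNReal.ofReal_mul hK.le]
  rw [mul_left_comm]
  gcongr
  rw [enorm_one, enorm_mul]
  have h7 : ‖(lam : ℂ)‖ₑ = ENNReal.ofReal lam := by
    rw [← ofReal_norm_eq_enorm, Complex.norm_real, Real.norm_of_nonneg hlam.le]
  rw [h7]
  obtain ⟨G, hG⟩ : ∃ G : ℝ≥0∞, G = ‖g‖ₑ := ⟨_, rfl⟩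
  have hGt : G ≠ ∞ := by
    rw [hG]
    exact enorm_ne_top
  rw [← hG]
  have h8 : G ≤ ENNReal.ofReal lam⁻¹ * (1 + ENNReal.ofReal lam * G) := by
    have h9 : ENNReal.ofReal lam⁻¹ * ENNReal.ofReal lam = 1 := by
      rw [← ENNReal.ofReal_mul (by positivity), inv_mul_cancel₀ hlam.ne', ENNReal.ofReal_one]
    rw [mul_add, ← mul_assoc, h9, one_mul]
    exact le_add_self
  have h10 : G ^ q ≤ (ENNReal.ofReal lam⁻¹) ^ q * (1 + ENNReal.ofReal lam * G) ^ q := by
    rw [← ENNReal.mul_rpow_of_nonneg _ _ hq.le]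
    exact ENNReal.rpow_le_rpow h8 hq.le
  have h11 : (1 + ENNReal.ofReal lam * G) ^ q ≠ 0 := by
    intro h
    rw [ENNReal.rpow_eq_zero_iff] at h
    rcases h with ⟨h, _⟩ | ⟨_, h⟩
    · simp at h
    · linarith
  have h12 : (1 + ENNReal.ofReal lam * G) ^ q ≠ ∞ := by
    refine ENNReal.rpow_ne_top_of_nonneg hq.le ?_
    exact ENNReal.add_ne_top.2 ⟨ENNReal.one_ne_top, ENNReal.mul_ne_top ENNReal.ofReal_ne_top hGt⟩
  calc G ^ q * ((1 + ENNReal.ofReal lam * G) ^ q)⁻¹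
      ≤ (ENNReal.ofReal lam⁻¹) ^ q * (1 + ENNReal.ofReal lam * G) ^ q *
        ((1 + ENNReal.ofReal lam * G) ^ q)⁻¹ := by gcongr
    _ = (ENNReal.ofReal lam⁻¹) ^ q := by
        rw [mul_assoc, ENNReal.mul_inv_cancel h11 h12, mul_one]
    _ = ENNReal.ofReal (lam⁻¹ ^ q) := by
        rw [ENNReal.ofReal_rpow_of_nonneg (by positivity) hq.le]

/-- averaging over one real site -/
theorem site_avg {q : ℝ} (hq : 0 < q) (hq1 : q < 1) (hlam : 0 < lam) : ∃ K : ℝ, 0 < K ∧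
    ∀ {ι : Type} [Fintype ι] [DecidableEq ι] (A : Matrix ι ι ℝ), A.IsSymm → ∀ ζ : ℂ, 0 < ζ.im →
      ∀ (κ : ι → ℝ) (a : ι), κ a = 0 → ∀ (R : Finset ι), a ∉ R → ∀ Φ : (ι → ℝ) → ℝ≥0∞,
      Measurable Φ → Dep R Φ →
      ∫⁻ v, Φ v * ENNReal.ofReal (‖Gr A (WP lam ζ κ v) a a‖ ^ q) ∂(Measure.pi fun _ : ι => uni) ≤
        ENNReal.ofReal K * ∫⁻ v, Φ v ∂(Measure.pi fun _ : ι => uni) := by
  obtain ⟨K, hK, H⟩ := site_one (lam := lam) hq hq1 hlam
  refine ⟨K, hK, ?_⟩
  intro ι _ _ A hA ζ hζ κ a hκa R haR Φ hΦ hΦR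
  have hm : Measurable fun v : ι → ℝ => ENNReal.ofReal (‖Gr A (WP lam ζ κ v) a a‖ ^ q) := by
    have := measurable_Gr (A := A) (fun v : ι → ℝ => WP lam ζ κ v) (fun z => measurable_WP z) a a
    exact (this.norm.pow_const q).ennreal_ofReal
  have hm2 : Measurable fun v : ι → ℝ =>
      Φ v * ENNReal.ofReal (‖Gr A (WP lam ζ κ v) a a‖ ^ q) := hΦ.mul hm
  rw [← lintegral_lmarginal uni {a} hm2, ← lintegral_const_mul _ hΦ]
  refine lintegral_mono fun v => ?_
  have h1 := lmarginal_mul_const uni ({a} : Finset ι) hm v (G := Φ) (fun v' hv' =>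
    hΦR _ _ fun x hx => hv' x (by
      rw [Finset.mem_singleton]
      rintro rfl
      exact haR hx))
  refine (le_of_eq h1).trans ?_
  rw [lmarginal_singleton, mul_comm]
  gcongr
  have h3 : ∀ u : ℝ, WP lam ζ κ (Function.update v a u) =
      Function.update (WP lam ζ κ v) a (((lam * u : ℝ) : ℂ) + (-ζ)) := by
    intro u
    funext x
    by_cases hx : x = a
    · subst hx
      rw [Function.update_self]
      unfold WP
      rw [Function.update_self, hκa, aa_zero, EE_zero, mul_zero, ofReal_zero, zero_mul, sub_zero]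
      ring
    · rw [Function.update_of_ne hx]
      unfold WP
      rw [Function.update_of_ne hx]
  simp only [h3]
  exact H A hA _ (WP_neg hlam hζ) a (-ζ) (by simpa using hζ)

/-! ### flux bounds -/

/-- flux from one site -/
theorem flux_le (hA : A.IsSymm) {W : ι → ℂ} (hW : ∀ x, (W x).im < 0) (a : ι) {d : ι → ℝ}
    {N : Finset ι} (hd : ∀ x ∈ N, d x ^ 2 ≤ -(W x).im) :
    ∑ x ∈ N, d x ^ 2 * ‖Gr A W x a‖ ^ 2 ≤ ‖Gr A W a a‖ := by
  have h1 := im_dot_Gr hA hW (Pi.single a (1 : ℂ))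
  have h2 : ∀ x, (Gr A W *ᵥ Pi.single a (1 : ℂ)) x = Gr A W x a := by
    intro x
    rw [Matrix.mulVec_single_one]
    rfl
  simp only [h2] at h1
  have h3 : ∑ x, star ((Pi.single a (1 : ℂ) : ι → ℂ) x) * Gr A W x a = Gr A W a a := by
    rw [Finset.sum_eq_single a]
    · simp
    · intro b _ hb
      rw [Pi.single_eq_of_ne hb]
      simp
    · intro h
      exact absurd (Finset.mem_univ a) h
  rw [h3] at h1
  calc ∑ x ∈ N, d x ^ 2 * ‖Gr A W x a‖ ^ 2 ≤ ∑ x ∈ N, -(W x).im * ‖Gr A W x a‖ ^ 2 :=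
        Finset.sum_le_sum fun x hx => mul_le_mul_of_nonneg_right (hd x hx) (sq_nonneg _)
    _ ≤ ∑ x, -(W x).im * ‖Gr A W x a‖ ^ 2 :=
        Finset.sum_le_sum_of_subset_of_nonneg (Finset.subset_univ _) fun x _ _ =>
          mul_nonneg (by linarith [hW x]) (sq_nonneg _)
    _ = (Gr A W a a).im := h1.symm
    _ ≤ ‖Gr A W a a‖ := (le_abs_self _).trans (Complex.abs_im_le_norm _)

theorem dP_sq_le (hlam : 0 < lam) (hζ : 0 < ζ.im) {x : ι} (hx : κ x ≠ 0) :
    dP lam κ v x ^ 2 ≤ -(WP lam ζ κ v x).im := by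
  rw [dP_sq hlam hx, WP_im]
  linarith

theorem dP_zero {x : ι} (hx : κ x = 0) : dP lam κ v x = 1 := by
  unfold dP
  rw [if_pos hx]

theorem dP_nonneg (x : ι) : 0 ≤ dP lam κ v x := by
  unfold dP
  split_ifs
  · exact zero_le_one
  · exact Real.sqrt_nonneg _

theorem norm_term (a b : ι) : ‖(dP lam κ v a : ℂ) * Gr A (WP lam ζ κ v) a b * dP lam κ v b‖ ^ 2 =
    dP lam κ v a ^ 2 * dP lam κ v b ^ 2 * ‖Gr A (WP lam ζ κ v) a b‖ ^ 2 := by
  rw [norm_mul, norm_mul, Complex.norm_real, Complex.norm_real, Real.norm_of_nonneg (dP_nonneg a),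
    Real.norm_of_nonneg (dP_nonneg b)]
  ring

theorem MM_comm (hA : A.IsSymm) (S B : Finset ι) : MM A lam ζ κ S B v = MM A lam ζ κ B S v := by
  unfold MM bl
  rw [Finset.sum_comm]
  refine Finset.sum_congr rfl fun a _ => Finset.sum_congr rfl fun b _ => ?_
  beta_reduce
  rw [norm_term, norm_term, Gr_symm hA b a]
  ring

/-- from a real set `B` to a contact -/
theorem MM_flux (hA : A.IsSymm) (hlam : 0 < lam) (hζ : 0 < ζ.im) {N B : Finset ι}
    (hN : ∀ x ∈ N, κ x ≠ 0) (hB : ∀ x ∈ B, κ x = 0) :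
    MM A lam ζ κ N B v ≤ ∑ b ∈ B, ‖Gr A (WP lam ζ κ v) b b‖ := by
  unfold MM bl
  rw [Finset.sum_comm]
  refine Finset.sum_le_sum fun b hb => ?_
  have h1 := flux_le hA (WP_neg (κ := κ) (v := v) hlam hζ) b (d := dP lam κ v) (N := N)
    fun x hx => dP_sq_le hlam hζ (hN x hx)
  refine le_trans (le_of_eq (Finset.sum_congr rfl fun x _ => ?_)) h1
  beta_reduce
  rw [norm_term, dP_zero (hB b hb)]
  ring

theorem sum_rpow_le' (S : Finset ι) (f : ι → ℝ) (hf : ∀ i ∈ S, 0 ≤ f i) {q : ℝ} (hq : 0 < q)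
    (hq1 : q ≤ 1) : (∑ i ∈ S, f i) ^ q ≤ ∑ i ∈ S, f i ^ q := by
  classical
  induction S using Finset.induction_on with
  | empty => simp [Real.zero_rpow hq.ne']
  | insert i S hi ih =>
    rw [Finset.sum_insert hi, Finset.sum_insert hi]
    have h1 : 0 ≤ ∑ j ∈ S, f j := Finset.sum_nonneg fun j hj => hf j (Finset.mem_insert_of_mem hj)
    refine (Real.rpow_add_le_add_rpow (hf i (Finset.mem_insert_self _ _)) h1 hq.le hq1).trans ?_
    have := ih fun j hj => hf j (Finset.mem_insert_of_mem hj)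
    linarith

theorem MP_flux (hA : A.IsSymm) (hlam : 0 < lam) (hζ : 0 < ζ.im) (hp : 0 < p) (hp1 : p < 1)
    {N B : Finset ι} (hN : ∀ x ∈ N, κ x ≠ 0) (hB : ∀ x ∈ B, κ x = 0) :
    MP A lam ζ κ p N B v ≤ ∑ b ∈ B, ENNReal.ofReal (‖Gr A (WP lam ζ κ v) b b‖ ^ (p / 2)) := by
  unfold MP
  rw [← ENNReal.ofReal_sum_of_nonneg fun b _ => by positivity]
  refine ENNReal.ofReal_le_ofReal ?_
  refine (Real.rpow_le_rpow (MM_nonneg _ _ _) (MM_flux hA hlam hζ hN hB) (by positivity)).trans ?_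
  exact sum_rpow_le' _ _ (fun _ _ => norm_nonneg _) (by positivity) (by linarith)

/-- contact to contact: the transmitted power is at most the number of sites -/
theorem MM_contact (hA : A.IsSymm) (hlam : 0 < lam) (hζ : 0 < ζ.im) (hκ : ∀ x, 0 ≤ κ x)
    (hv : ∀ x, |v x| < 1) {N B : Finset ι} (hN : ∀ x ∈ N, κ x ≠ 0) (hB : ∀ x ∈ B, κ x ≠ 0) :
    MM A lam ζ κ N B v ≤ N.card := by
  rw [MM_eq hA hlam hζ hκ hv]
  obtain ⟨d, hd⟩ : ∃ d, d = dP lam κ v := ⟨_, rfl⟩
  have hdp : ∀ x, 0 < d x := by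
    rw [hd]
    exact dP_pos hlam hκ hv
  rw [← hd]
  have hsA := scA_symm (d := d) hA
  have hneg := scW_neg (d := d) hdp (WP_neg (κ := κ) (v := v) hlam hζ)
  have h1 : ∀ x, κ x ≠ 0 → (scW d (WP lam ζ κ v) x).im ≤ -1 := by
    intro x hx
    rw [scW_im, div_le_iff₀ (by have := hdp x; positivity)]
    have := dP_sq_le (v := v) hlam hζ hx
    rw [← hd] at this
    linarith
  have h2 : ∀ a ∈ N, ∑ b ∈ B, ‖Gr (scA d A) (scW d (WP lam ζ κ v)) a b‖ ^ 2 ≤ 1 := by
    intro a ha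
    have h3 := layer_solve hsA hneg one_pos (insert a B) (fun x hx => h1 x (by
      rcases Finset.mem_insert.1 hx with rfl | hx
      · exact hN _ ha
      · exact hB x hx)) (Pi.single a (1 : ℂ)) (fun x hx => by
        rw [Pi.single_eq_of_ne]
        rintro rfl
        exact hx (Finset.mem_insert_self _ _))
    have h4 : ∑ x ∈ insert a B, ‖(Pi.single a (1 : ℂ) : ι → ℂ) x‖ ^ 2 = 1 := by
      rw [Finset.sum_eq_single a]
      · simp
      · intro b _ hb
        rw [Pi.single_eq_of_ne hb]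
        simp
      · intro h
        exact absurd (Finset.mem_insert_self a B) h
    rw [h4, one_pow, div_one, one_mul] at h3
    refine le_trans (le_trans (le_of_eq ?_) (Finset.sum_le_sum_of_subset_of_nonneg
      (Finset.subset_insert a B) fun _ _ _ => sq_nonneg _)) h3
    refine Finset.sum_congr rfl fun b _ => ?_
    rw [Matrix.mulVec_single_one, Gr_symm hsA a b]
    rfl
  unfold bl
  calc ∑ a ∈ N, ∑ b ∈ B, ‖Gr (scA d A) (scW d (WP lam ζ κ v)) a b‖ ^ 2 ≤ ∑ a ∈ N, (1 : ℝ) :=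
        Finset.sum_le_sum h2
    _ = N.card := by simp

end P365CU
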