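import Vale.Agent.P365.CU.Asm3

set_option linter.all false

/-!
# P365 / CU / Final: the composition theorem for the exact uniform law on `[-λ, λ]`.
-/

namespace P365CU

open MeasureTheory ProbabilityTheory Complex Matrix Function P365S6 Filter Topology
open P365L P365L.Comp P365X
open scoped ENNReal Real

variable {lam c p : ℝ}

theorem TH_le {C : ℝ≥0∞} (hC : C ≠ ∞) (r : ℕ) :
    TH C r ≤ ENNReal.ofReal (16 * C.toReal * (1 + 4 * C.toReal) * (8 * r + 20) ^ 2) := by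
  have hCr : C = ENNReal.ofReal C.toReal := (ENNReal.ofReal_toReal hC).symm
  obtain ⟨x, hx⟩ : ∃ x, x = C.toReal := ⟨_, rfl⟩
  have hx0 : 0 ≤ x := by
    rw [hx]
    exact ENNReal.toReal_nonneg
  rw [← hx] at hCr ⊢
  unfold TH
  rw [hCr]
  have e1 : ((8 * r + 20 : ℕ) : ℝ≥0∞) = ENNReal.ofReal (8 * r + 20) := by
    rw [← ENNReal.ofReal_natCast]
    push_cast
    rfl
  have e16 : (16 : ℝ≥0∞) = ENNReal.ofReal 16 := by norm_num
  have e4 : (4 : ℝ≥0∞) = ENNReal.ofReal 4 := by norm_num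
  have e0 : (1 : ℝ≥0∞) = ENNReal.ofReal 1 := by norm_num
  rw [e1, e16, e4, e0, ← ENNReal.ofReal_mul (by norm_num), ← ENNReal.ofReal_mul (by norm_num),
    ← ENNReal.ofReal_mul (by positivity), ← ENNReal.ofReal_add (by norm_num) (by positivity),
    ← ENNReal.ofReal_mul (by positivity), ← ENNReal.ofReal_mul (by positivity)]
  refine ENNReal.ofReal_le_ofReal ?_
  have h1 : (1 : ℝ) ≤ 8 * r + 20 := by
    have : (0 : ℝ) ≤ r := Nat.cast_nonneg r
    linarith
  have h2 : 1 + 4 * x * (8 * r + 20) ≤ (1 + 4 * x) * (8 * r + 20) := by nlinarith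
  calc 16 * x * (1 + 4 * x * (8 * r + 20)) * (8 * r + 20)
      ≤ 16 * x * ((1 + 4 * x) * (8 * r + 20)) * (8 * r + 20) := by gcongr
    _ = _ := by ring

/-- **COMPOSITION FOR THE EXACT UNIFORM LAW.** If at finitely many consecutive scales
`4^j m₀`, `j < n`, the mean `p/2`-moment of the power transmitted between weak contacts
(absorption `c/m`) is at most `θ₀`, then the fractional moments of the Green functions decay
exponentially at the energy `E`. -/
theorem comp_fin (hlam : 0 < lam) (hc : 0 < c) (hp : 0 < p) (hp4 : p < 1 / 4) {C1 C2 : ℝ}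
    (hC1 : 0 < C1) (hC2 : 0 < C2) (H : CutStatement p C1 C2) :
    ∃ θ₀ : ℝ, 0 < θ₀ ∧ ∃ M₁ : ℕ, ∀ m₀ ≥ M₁, ∃ n : ℕ, ∀ E : ℝ,
      (∀ j < n, ∃ η₀ : ℝ, 0 < η₀ ∧ ∀ η : ℝ, 0 < η → η ≤ η₀ →
        TT lam c p (E + η * I) (4 ^ j * m₀) ≤ ENNReal.ofReal θ₀) →
      P365L.InfB.FMboxR (scl lam uni) E := by
  have hp1 : p < 1 := by linarith
  obtain ⟨G, hG⟩ : ∃ G, G = Gc lam c p C1 := ⟨_, rfl⟩
  have hG0 : 0 ≤ G := by
    rw [hG]
    unfold Gc
    positivity
  obtain ⟨B0, hB0⟩ : ∃ B0, B0 = CRc p c := ⟨_, rfl⟩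
  have hB0p : 0 < B0 := by
    rw [hB0]
    exact CRc_pos hp hp1
  obtain ⟨K1, hK1, HZ1⟩ := Zin_le hp hp1 hlam
  obtain ⟨K2, hK2, HZ2⟩ := Zout_le hp hp1 hlam
  refine ⟨1 / (1024 * B0 * (G ^ 2 + 1)), by positivity, ?_⟩
  -- the scale from which on everything is small
  have hev : ∀ᶠ m : ℕ in atTop, err G lam c C2 m ≤ 1 / (1024 * B0) ∧ βc lam c C2 m ≤ 1 ∧
      2 * c ≤ m ∧ c < m ∧ 8 ≤ m := by
    have h1 : ∀ᶠ m : ℕ in atTop, err G lam c C2 m < 1 / (1024 * B0) :=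
      (tendsto_err G lam c C2).eventually_lt_const (by positivity)
    have h2 : ∀ᶠ m : ℕ in atTop, βc lam c C2 m < 1 := by
      have := tendsto_βc lam c C2 0
      simp only [pow_zero, one_mul] at this
      exact this.eventually_lt_const one_pos
    have h3 : ∀ᶠ m : ℕ in atTop, 2 * c ≤ m := tendsto_natCast_atTop_atTop.eventually_ge_atTop _
    have h4 : ∀ᶠ m : ℕ in atTop, c < m := tendsto_natCast_atTop_atTop.eventually_gt_atTop _
    filter_upwards [h1, h2, h3, h4, eventually_ge_atTop 8] with m a1 a2 a3 a4 a5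
    exact ⟨a1.le, a2.le, a3, a4, a5⟩
  obtain ⟨M₁, hM₁⟩ := eventually_atTop.1 hev
  refine ⟨M₁, fun m₀ hm₀ => ?_⟩
  -- the number of scales
  obtain ⟨Cr, hCr⟩ : ∃ Cr, Cr = (CL lam p).toReal := ⟨_, rfl⟩
  have hCr0 : 0 ≤ Cr := by
    rw [hCr]
    exact ENNReal.toReal_nonneg
  obtain ⟨K4, hK4⟩ : ∃ K4, K4 = 16 * Cr * (1 + 4 * Cr) * (112 * (m₀ : ℝ)) ^ 4 *
      (B0 * (K1 * (G + 1)) * (K2 * (G + 1))) := ⟨_, rfl⟩
  have hK40 : 0 ≤ K4 := by
    rw [hK4]
    positivity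
  obtain ⟨n, hn⟩ := exists_pow_lt_of_lt_one (show (0 : ℝ) < 1 / (2 * (K4 + 1)) by positivity)
    (show (1 / 2 : ℝ) < 1 by norm_num)
  refine ⟨n, fun E hE => ?_⟩
  obtain ⟨η₀, hη₀, HT⟩ := common_eta n hE
  have hm₀1 := hM₁ m₀ hm₀
  have hm₀0 : 0 < m₀ := by omega
  have hr0 : 0 < 4 ^ n * m₀ := by positivity
  refine FMboxR_of_hyp (CL_ne_top hp4) (hyp_unif hlam hp hp4) hp hp4 E (4 * (4 ^ n * m₀)) hη₀
    fun η hη hη1 => ?_
  have hζ : (0 : ℝ) < ((E : ℂ) + η * I).im := by simpa using hη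
  obtain ⟨ζ, hζd⟩ : ∃ ζ : ℂ, ζ = (E : ℂ) + η * I := ⟨_, rfl⟩
  rw [← hζd] at hζ ⊢
  have HT' : ∀ j < n, TT lam c p ζ (4 ^ j * m₀) ≤
      ENNReal.ofReal (1 / (1024 * B0 * (G ^ 2 + 1))) := by
    rw [hζd]
    exact HT η hη hη1
  obtain ⟨r, hr⟩ : ∃ r, r = 4 * (4 ^ n * m₀) := ⟨_, rfl⟩
  rw [← hr]
  have h0X : (0 : Site) ∈ Bl 0 r := by
    rw [mem_Bl, ds_self]
    exact Nat.zero_le _
  obtain ⟨o, ho⟩ : ∃ o : Bl 0 r, o = ⟨0, h0X⟩ := ⟨_, rfl⟩
  have ho0 : ds (o : Site) 0 = 0 := by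
    rw [ho]
    exact ds_self _
  have hmj : ∀ j, m₀ ≤ 4 ^ j * m₀ := fun j => Nat.le_mul_of_pos_left _ (by positivity)
  have hRB : ∀ j : ℕ, ∃ kI kO bI bO,
      RB (Bl 0 r) (4 ^ j * m₀) lam c p G (βc lam c C2 (4 ^ j * m₀)) kI kO bI bO := by
    intro j
    have h1 := hM₁ (4 ^ j * m₀) (hm₀.trans (hmj j))
    rw [hG]
    refine RB.of_cut hC1 hC2 H hlam hc hp hp1 _ h1.2.2.2.2 ?_
    have h2 : (0 : ℝ) < (4 ^ j * m₀ : ℕ) := by
      have : 0 < 4 ^ j * m₀ := by positivity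
      exact_mod_cast this
    rw [div_le_one h2]
    exact h1.2.2.2.1.le
  choose kI kO bI bO hRB using hRB
  have hCRj : ∀ j, CR p (c / (4 ^ j * m₀ : ℕ))
      (sl (Bl 0 r) (2 * (4 ^ j * m₀)) (4 * (4 ^ j * m₀))).card ≤ B0 := by
    intro j
    rw [hB0]
    exact CR_le hp hp1 hc (by positivity) (hM₁ (4 ^ j * m₀) (hm₀.trans (hmj j))).2.2.1 _
  have hiter := chain_iter (X := Bl 0 r) (ζ := ζ) (β := fun j => βc lam c C2 (4 ^ j * m₀))
    (o := o) hlam hζ hc hp hp1 hm₀0 hm₀1.2.2.2.1 (by rw [ho0]; omega) hRB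
    (q := 1 / 512) (by norm_num) n (fun j hj => by
      intro x hx
      rw [mem_Ann] at hx
      rw [mem_Bl, hr]
      have h1 : 4 ^ (j + 1) ≤ 4 ^ n := Nat.pow_le_pow_right (by norm_num) hj
      have h2 : 4 ^ (j + 1) * m₀ ≤ 4 ^ n * m₀ := Nat.mul_le_mul_right _ h1
      have h3 : 4 ^ (j + 1) * m₀ = 4 * (4 ^ j * m₀) := by ring
      omega)
    (fun j hj => by
      have h1 := hM₁ (4 ^ j * m₀) (hm₀.trans (hmj j))
      have h2 := HT' j hj
      have h3 := hCRj j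
      have e : 4 ^ (j + 1) * m₀ = 4 * (4 ^ j * m₀) := by ring
      have h4 : 81 * ((4 ^ j * m₀ : ℕ) : ℝ) ^ 2 * (G * βc lam c C2 (4 ^ (j + 1) * m₀) +
          G * βc lam c C2 (4 ^ j * m₀) + βc lam c C2 (4 ^ j * m₀) *
            βc lam c C2 (4 ^ (j + 1) * m₀)) = err G lam c C2 (4 ^ j * m₀) := by
        rw [e]
        rfl
      have h5 : 0 ≤ err G lam c C2 (4 ^ j * m₀) := by
        unfold err
        have a1 := βc_nonneg (lam := lam) (c := c) hlam hc hC2 (4 ^ j * m₀)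
        have a2 := βc_nonneg (lam := lam) (c := c) hlam hc hC2 (4 * (4 ^ j * m₀))
        positivity
      beta_reduce
      rw [h4]
      calc ENNReal.ofReal (CR p (c / (4 ^ j * m₀ : ℕ))
            (sl (Bl 0 r) (2 * (4 ^ j * m₀)) (4 * (4 ^ j * m₀))).card) *
            (ENNReal.ofReal (G ^ 2) * TT lam c p ζ (4 ^ j * m₀) +
              ENNReal.ofReal (err G lam c C2 (4 ^ j * m₀)))
          ≤ ENNReal.ofReal B0 * (ENNReal.ofReal (G ^ 2) *
              ENNReal.ofReal (1 / (1024 * B0 * (G ^ 2 + 1))) +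
              ENNReal.ofReal (1 / (1024 * B0))) := by
            gcongr
            exact h1.1
        _ = ENNReal.ofReal (B0 * (G ^ 2 * (1 / (1024 * B0 * (G ^ 2 + 1))) +
              1 / (1024 * B0))) := by
            rw [← ENNReal.ofReal_mul (by positivity), ← ENNReal.ofReal_add (by positivity)
              (by positivity), ← ENNReal.ofReal_mul (by positivity)]
        _ ≤ ENNReal.ofReal (1 / 512) := by
            refine ENNReal.ofReal_le_ofReal ?_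
            have h6 : G ^ 2 / (G ^ 2 + 1) ≤ 1 := by
              rw [div_le_one (by positivity)]
              linarith
            have h7 : B0 * (G ^ 2 * (1 / (1024 * B0 * (G ^ 2 + 1))) + 1 / (1024 * B0)) =
                (G ^ 2 / (G ^ 2 + 1) + 1) / 1024 := by
              field_simp
            rw [h7]
            linarith)
  have hZ0 := HZ1 hζ hc (by positivity) (hRB 0) o (by rw [ho0]; positivity)
  have hβ0 : βc lam c C2 (4 ^ 0 * m₀) ≤ 1 := by
    rw [pow_zero, one_mul]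
    exact hm₀1.2.1
  have hβn : βc lam c C2 (4 ^ n * m₀) ≤ 1 := (hM₁ (4 ^ n * m₀) (hm₀.trans (hmj n))).2.1
  have hcn : c / (4 ^ n * m₀ : ℕ) < 1 := by
    rw [div_lt_one (by exact_mod_cast hr0)]
    exact (hM₁ (4 ^ n * m₀) (hm₀.trans (hmj n))).2.2.2.1
  obtain ⟨B, hB⟩ : ∃ B : Finset (Bl 0 r), B = sub (Bl 0 r) (Sh 0 r) := ⟨_, rfl⟩
  have hBd : ∀ b ∈ B, 4 * (4 ^ n * m₀) ≤ ds (b : Site) 0 := by
    intro b hb
    rw [hB, mem_sub, mem_Sh] at hb
    rw [hb, hr]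
  have hBc : (B.card : ℝ) ≤ 8 * r + 20 := by
    have h1 : B.card ≤ 8 * r + 4 := by
      rw [hB]
      exact (card_sub_le _ _).trans (card_Sh_le _ _)
    have h2 : (B.card : ℝ) ≤ 8 * r + 4 := by exact_mod_cast h1
    linarith
  have hZn := HZ2 hζ hc hr0 (hRB n) B hBd
  have hend := chain_end (X := Bl 0 r) (ζ := ζ) (S := {o}) (B := B) hlam hζ hp hp1 hr0 hc hcn
    (hRB n).rd (fun x hx => by
      rw [Finset.mem_singleton] at hx
      rw [hx, ho0]
      positivity) hBd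
  have htau := tau_le hp lam ζ r h0X
  rw [← hB, ← ho] at htau
  -- numbers
  have hB0' : (0 : ℝ) ≤ B.card := Nat.cast_nonneg _
  have hr1 : (1 : ℝ) ≤ r := by
    have : 1 ≤ r := by omega
    exact_mod_cast this
  have hZin : Zin (Bl 0 r) lam c p ζ {o} (4 ^ n * m₀) (kI n) ≤
      ENNReal.ofReal ((1 / 512) ^ n * (K1 * (G + 1))) := by
    rw [ENNReal.ofReal_mul (by positivity)]
    refine hiter.trans ?_
    gcongr
    refine hZ0.trans (ENNReal.ofReal_le_ofReal ?_)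
    gcongr
  have hZout : Zout (Bl 0 r) lam c p ζ B (4 ^ n * m₀) (kO n) ≤
      ENNReal.ofReal ((8 * r + 20) * (K2 * (G + 1))) := by
    refine hZn.trans (ENNReal.ofReal_le_ofReal ?_)
    have a1 := βc_nonneg (lam := lam) (c := c) hlam hc hC2 (4 ^ n * m₀)
    have a2 : K2 * (G + βc lam c C2 (4 ^ n * m₀)) ≤ K2 * (G + 1) :=
      mul_le_mul_of_nonneg_left (by linarith) hK2.le
    exact mul_le_mul hBc a2 (mul_nonneg hK2.le (by linarith)) (by positivity)
  have hCRn : ENNReal.ofReal (CR p (c / (4 ^ n * m₀ : ℕ))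
      (sl (Bl 0 r) (2 * (4 ^ n * m₀)) (4 * (4 ^ n * m₀))).card) ≤ ENNReal.ofReal B0 :=
    ENNReal.ofReal_le_ofReal (hCRj n)
  have htau2 : tau (scl lam uni) ζ p r ≤ ENNReal.ofReal ((8 * r + 20) ^ 2 * (1 / 512) ^ n *
      (B0 * (K1 * (G + 1)) * (K2 * (G + 1)))) := by
    calc tau (scl lam uni) ζ p r ≤ B.card * ∫⁻ v, MP (AF (Bl 0 r)) lam ζ 0 p {o} B v
          ∂(Measure.pi fun _ : Bl 0 r => uni) := htau
      _ ≤ ENNReal.ofReal (8 * r + 20) * (ENNReal.ofReal B0 *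
          (ENNReal.ofReal ((1 / 512) ^ n * (K1 * (G + 1))) *
            ENNReal.ofReal ((8 * r + 20) * (K2 * (G + 1))))) := by
          gcongr
          · rw [← ENNReal.ofReal_natCast]
            exact ENNReal.ofReal_le_ofReal hBc
          · refine hend.trans ?_
            gcongr
      _ = _ := by
          rw [← ENNReal.ofReal_mul (by positivity), ← ENNReal.ofReal_mul (by positivity),
            ← ENNReal.ofReal_mul (by positivity)]
          congr 1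
          ring
  have hTH := TH_le (CL_ne_top (lam := lam) hp4) r
  rw [← hCr] at hTH
  calc TH (CL lam p) r * tau (scl lam uni) ζ p r
      ≤ ENNReal.ofReal (16 * Cr * (1 + 4 * Cr) * (8 * r + 20) ^ 2) *
        ENNReal.ofReal ((8 * r + 20) ^ 2 * (1 / 512) ^ n *
          (B0 * (K1 * (G + 1)) * (K2 * (G + 1)))) := by gcongr
    _ = ENNReal.ofReal (16 * Cr * (1 + 4 * Cr) * (8 * r + 20) ^ 4 * (1 / 512) ^ n *
          (B0 * (K1 * (G + 1)) * (K2 * (G + 1)))) := by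
        rw [← ENNReal.ofReal_mul (by positivity)]
        congr 1
        ring
    _ ≤ ENNReal.ofReal (1 / 2) := by
        refine ENNReal.ofReal_le_ofReal ?_
        have h1 : (8 * (r : ℝ) + 20) ≤ 28 * r := by linarith
        have h2 : (28 * (r : ℝ)) = 112 * m₀ * 4 ^ n := by
          rw [hr]
          push_cast
          ring
        have h3 : (8 * (r : ℝ) + 20) ^ 4 ≤ (112 * m₀ * 4 ^ n) ^ 4 := by
          rw [← h2]
          gcongr
        have h4 : ((4 : ℝ) ^ n) ^ 4 * (1 / 512) ^ n = (1 / 2) ^ n := by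
          rw [← pow_mul, mul_comm n 4, pow_mul, ← mul_pow]
          norm_num
        calc 16 * Cr * (1 + 4 * Cr) * (8 * (r : ℝ) + 20) ^ 4 * (1 / 512) ^ n *
              (B0 * (K1 * (G + 1)) * (K2 * (G + 1)))
            ≤ 16 * Cr * (1 + 4 * Cr) * (112 * m₀ * 4 ^ n) ^ 4 * (1 / 512) ^ n *
              (B0 * (K1 * (G + 1)) * (K2 * (G + 1))) := by gcongr
          _ = K4 * (((4 : ℝ) ^ n) ^ 4 * (1 / 512) ^ n) := by
              rw [hK4]
              ring
          _ = K4 * (1 / 2) ^ n := by rw [h4]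
          _ ≤ (K4 + 1) * (1 / 2) ^ n := by
              have : (0 : ℝ) < (1 / 2) ^ n := by positivity
              linarith
          _ ≤ (K4 + 1) * (1 / (2 * (K4 + 1))) := by
              gcongr
          _ = 1 / 2 := by field_simp
    _ = 1 / 2 := by
        rw [ENNReal.ofReal_div_of_pos (by norm_num)]
        norm_num

end P365CU
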