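import Vale.Agent.P365.CU.Step

set_option linter.all false

/-!
# P365 / CU / Indep: independence of the two sides of a cut, localisation of the block norms.
-/

namespace P365CU

open MeasureTheory ProbabilityTheory Complex Matrix Function P365S6
open P365L P365L.Comp P365X
open scoped ENNReal Real

variable {ι : Type*} [Fintype ι] [DecidableEq ι] {A A' : Matrix ι ι ℝ} {lam p : ℝ} {ζ : ℂ}
  {κ κ' : ι → ℝ} {v v' : ι → ℝ}

/-- a function of the variables in `R` -/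
def Dep (R : Finset ι) (f : (ι → ℝ) → ℝ≥0∞) : Prop :=
  ∀ v v' : ι → ℝ, (∀ x ∈ R, v x = v' x) → f v = f v'

omit [Fintype ι] [DecidableEq ι] in
theorem Dep.mono {R R' : Finset ι} {f : (ι → ℝ) → ℝ≥0∞} (h : Dep R f) (hR : R ⊆ R') : Dep R' f :=
  fun v v' hv => h v v' fun x hx => hv x (hR hx)

omit [Fintype ι] [DecidableEq ι] in
theorem Dep.mul {R : Finset ι} {f g : (ι → ℝ) → ℝ≥0∞} (hf : Dep R f) (hg : Dep R g) :
    Dep R (fun v => f v * g v) := fun v v' hv => by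
  simp only
  rw [hf v v' hv, hg v v' hv]

/-- independence -/
theorem lintegral_indep {μ : Measure ℝ} [IsProbabilityMeasure μ] {R R' : Finset ι}
    (hR : ∀ x, x ∈ R' → x ∉ R) {f g : (ι → ℝ) → ℝ≥0∞} (hf : Measurable f) (hg : Measurable g)
    (hfR : Dep R f) (hgR : Dep R' g) :
    ∫⁻ v, f v * g v ∂(Measure.pi fun _ : ι => μ) =
      (∫⁻ v, f v ∂(Measure.pi fun _ : ι => μ)) * ∫⁻ v, g v ∂(Measure.pi fun _ : ι => μ) := by
  have hfg : Measurable fun v => g v * f v := hg.mul hf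
  have h0 : ∫⁻ v, f v * g v ∂(Measure.pi fun _ : ι => μ) =
      ∫⁻ v, g v * f v ∂(Measure.pi fun _ : ι => μ) := lintegral_congr fun v => mul_comm _ _
  rw [h0, ← lintegral_lmarginal μ R hfg]
  have h1 : ∀ v, (∫⋯∫⁻_R, (fun v => g v * f v) ∂fun _ => μ) v =
      g v * (∫⋯∫⁻_R, f ∂fun _ => μ) v := fun v => lmarginal_mul_const μ R hf v fun v' hv' =>
        hgR _ _ fun x hx => hv' x (hR x hx)
  have h2 : ∀ v v' : ι → ℝ, (∫⋯∫⁻_R, f ∂fun _ => μ) v = (∫⋯∫⁻_R, f ∂fun _ => μ) v' := by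
    intro v v'
    unfold lmarginal
    refine lintegral_congr fun y => hfR _ _ fun x hx => ?_
    rw [updateFinset, updateFinset, dif_pos hx, dif_pos hx]
  have h3 : ∀ v, (∫⋯∫⁻_R, f ∂fun _ => μ) v = ∫⁻ v, f v ∂(Measure.pi fun _ : ι => μ) := by
    intro v
    rw [← lintegral_lmarginal μ R hf]
    have : ∀ v', (∫⋯∫⁻_R, f ∂fun _ => μ) v' = (∫⋯∫⁻_R, f ∂fun _ => μ) v := fun v' => h2 v' v
    simp only [this]
    simp
  simp only [h1, h3]
  rw [lintegral_mul_const _ hg, mul_comm]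

/-- the Green matrix inside a decoupled block depends only on the block -/
theorem Gr_blk {W W' : ι → ℂ} (hA : A.IsSymm) (hA' : A'.IsSymm) (hW : ∀ x, (W x).im < 0)
    (hW' : ∀ x, (W' x).im < 0) {R : Finset ι} (hD : Dec A fun x => x ∈ R)
    (hD' : Dec A' fun x => x ∈ R) (hAA : ∀ x ∈ R, ∀ y ∈ R, A x y = A' x y)
    (hWW : ∀ x ∈ R, W x = W' x) {a b : ι} (ha : a ∈ R) (hb : b ∈ R) :
    Gr A W a b = Gr A' W' a b := by
  have hr : ∀ x : ι, x ∈ Set.range (Subtype.val : {x // x ∈ R} → ι) ↔ x ∈ R := by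
    intro x
    simp
  have e1 : Dec A (fun x => x ∈ Set.range (Subtype.val : {x // x ∈ R} → ι)) := by
    intro x y h
    simp only [hr] at h
    exact hD x y h
  have e2 : Dec A' (fun x => x ∈ Set.range (Subtype.val : {x // x ∈ R} → ι)) := by
    intro x y h
    simp only [hr] at h
    exact hD' x y h
  have h1 := Gr_block hA hW (Subtype.val : {x // x ∈ R} → ι) Subtype.val_injective e1 ⟨a, ha⟩
    ⟨b, hb⟩
  have h2 := Gr_block hA' hW' (Subtype.val : {x // x ∈ R} → ι) Subtype.val_injective e2 ⟨a, ha⟩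
    ⟨b, hb⟩
  have h3 : (fun k : {x // x ∈ R} => W k.1) = fun k => W' k.1 := funext fun k => hWW _ k.2
  have h4 : A.submatrix (Subtype.val : {x // x ∈ R} → ι) (Subtype.val : {x // x ∈ R} → ι) =
      A'.submatrix (Subtype.val : {x // x ∈ R} → ι) (Subtype.val : {x // x ∈ R} → ι) := by
    ext x y
    exact hAA _ x.2 _ y.2
  rw [h3, h4] at h1
  exact h1.trans h2.symm

theorem MM_blk (hA : A.IsSymm) (hA' : A'.IsSymm) (hlam : 0 < lam) (hζ : 0 < ζ.im) {R : Finset ι}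
    (hD : Dec A fun x => x ∈ R) (hD' : Dec A' fun x => x ∈ R)
    (hAA : ∀ x ∈ R, ∀ y ∈ R, A x y = A' x y) (hκκ : ∀ x ∈ R, κ x = κ' x)
    (hvv : ∀ x ∈ R, v x = v' x) {S B : Finset ι} (hS : S ⊆ R) (hB : B ⊆ R) :
    MM A lam ζ κ S B v = MM A' lam ζ κ' S B v' := by
  have hW : ∀ x ∈ R, WP lam ζ κ v x = WP lam ζ κ' v' x := by
    intro x hx
    unfold WP
    rw [hκκ x hx, hvv x hx]
  have hd : ∀ x ∈ R, dP lam κ v x = dP lam κ' v' x := by
    intro x hx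
    unfold dP
    rw [hκκ x hx, hvv x hx]
  unfold MM bl
  refine Finset.sum_congr rfl fun a ha => Finset.sum_congr rfl fun b hb => ?_
  beta_reduce
  rw [hd a (hS ha), hd b (hB hb), Gr_blk hA hA' (WP_neg hlam hζ) (WP_neg hlam hζ) hD hD' hAA hW
    (hS ha) (hB hb)]

theorem MP_blk (hA : A.IsSymm) (hA' : A'.IsSymm) (hlam : 0 < lam) (hζ : 0 < ζ.im) {R : Finset ι}
    (hD : Dec A fun x => x ∈ R) (hD' : Dec A' fun x => x ∈ R)
    (hAA : ∀ x ∈ R, ∀ y ∈ R, A x y = A' x y) (hκκ : ∀ x ∈ R, κ x = κ' x)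
    (hvv : ∀ x ∈ R, v x = v' x) {S B : Finset ι} (hS : S ⊆ R) (hB : B ⊆ R) :
    MP A lam ζ κ p S B v = MP A' lam ζ κ' p S B v' := by
  unfold MP
  rw [MM_blk hA hA' hlam hζ hD hD' hAA hκκ hvv hS hB]

theorem MP_dep (hA : A.IsSymm) (hlam : 0 < lam) (hζ : 0 < ζ.im) {R : Finset ι}
    (hD : Dec A fun x => x ∈ R) {S B : Finset ι} (hS : S ⊆ R) (hB : B ⊆ R) :
    Dep R (MP A lam ζ κ p S B) := fun v v' hv =>
  MP_blk hA hA hlam hζ hD hD (fun _ _ _ _ => rfl) (fun _ _ => rfl) hv hS hB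

theorem dec_compl {R R' : Finset ι} (h : ∀ x, x ∈ R' ↔ x ∉ R) (hD : Dec A fun x => x ∈ R) :
    Dec A fun x => x ∈ R' := by
  intro x y hxy
  refine hD x y ?_
  simp only [h] at hxy
  tauto


end P365CU
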