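import Vale.Agent.P365.CU.Asm2
import Vale.Agent.P365.X3.Crit

set_option linter.all false

/-!
# P365 / CU / Law: the uniform law on `[-λ, λ]` and the finite volume criterion for it.
-/

namespace P365CU

open MeasureTheory ProbabilityTheory Complex Matrix Function P365S6 Filter
open P365L P365L.Comp P365X
open scoped ENNReal Real

/-- scaled law -/
noncomputable def scl (lam : ℝ) (ν : Measure ℝ) : Measure ℝ := ν.map fun u => lam * u

instance {lam : ℝ} {ν : Measure ℝ} [IsProbabilityMeasure ν] : IsProbabilityMeasure (scl lam ν) := by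
  unfold scl
  exact Measure.isProbabilityMeasure_map (by fun_prop)

section
variable {ι : Type} [Fintype ι] [DecidableEq ι] {A : Matrix ι ι ℝ} {ζ : ℂ} {s lam : ℝ}
  {ν : Measure ℝ}

theorem pi_scl [IsProbabilityMeasure ν] (lam : ℝ) : (Measure.pi fun _ : ι => scl lam ν) =
    (Measure.pi fun _ : ι => ν).map fun v x => lam * v x := by
  unfold scl
  have : ∀ _ : ι, SigmaFinite (ν.map fun u => lam * u) := fun _ => by
    have : IsProbabilityMeasure (ν.map fun u => lam * u) :=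
      Measure.isProbabilityMeasure_map (by fun_prop)
    infer_instance
  exact (Measure.pi_map_pi (μ := fun _ : ι => ν) (f := fun _ u => lam * u)
    fun _ => by fun_prop).symm

theorem lintegral_pi_scl [IsProbabilityMeasure ν] (lam : ℝ) {F : (ι → ℝ) → ℝ≥0∞}
    (hF : Measurable F) : ∫⁻ v, F v ∂(Measure.pi fun _ : ι => scl lam ν) =
      ∫⁻ v, F (fun x => lam * v x) ∂(Measure.pi fun _ : ι => ν) := by
  rw [pi_scl, lintegral_map hF]
  exact measurable_pi_iff.2 fun x => (measurable_pi_apply x).const_mul _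

theorem lmarginal_scl [IsProbabilityMeasure ν] (hlam : 0 < lam) {F : (ι → ℝ) → ℝ≥0∞}
    (hF : Measurable F) (L : Finset ι) (v : ι → ℝ) :
    (∫⋯∫⁻_L, F ∂fun _ => scl lam ν) v =
      (∫⋯∫⁻_L, (fun v => F (fun x => lam * v x)) ∂fun _ => ν) (fun x => lam⁻¹ * v x) := by
  have hm : Measurable fun v : ι → ℝ => F (fun x => lam * v x) :=
    hF.comp (measurable_pi_iff.2 fun x => (measurable_pi_apply x).const_mul _)
  rw [lmarginal_eq_mix _ L hF, lmarginal_eq_mix _ L hm]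
  have hm2 : Measurable fun v' : ι → ℝ => F (mix L v' v) := by
    refine hF.comp (measurable_pi_iff.2 fun x => ?_)
    unfold mix
    by_cases hx : x ∈ L
    · simp only [hx, if_true]
      exact measurable_pi_apply x
    · simp only [hx, if_false]
      exact measurable_const
  rw [lintegral_pi_scl lam hm2]
  refine lintegral_congr fun v' => ?_
  congr 1
  funext x
  unfold mix
  by_cases hx : x ∈ L
  · simp [hx]
  · simp only [hx, if_false]
    rw [← mul_assoc, mul_inv_cancel₀ hlam.ne', one_mul]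

theorem gg_scl (hA : A.IsSymm) (hlam : 0 < lam) (hζ : 0 < ζ.im) (hs : 0 ≤ s) (a b : ι)
    (v : ι → ℝ) : gg A ζ s a b (fun x => lam * v x) = ENNReal.ofReal (lam⁻¹ ^ s) *
      gg (scA (fun _ => Real.sqrt lam) A) (ζ / lam) s a b v := by
  have hd : ∀ _ : ι, 0 < Real.sqrt lam := fun _ => Real.sqrt_pos.2 hlam
  have hW : ∀ x, (Wv ζ (fun x => lam * v x) x).im < 0 := Wv_neg hζ _
  have h1 := Gr_sc hA hW hd a b
  have h2 : scW (fun _ : ι => Real.sqrt lam) (Wv ζ fun x => lam * v x) = Wv (ζ / lam) v := by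
    funext x
    unfold scW Wv
    rw [Real.sq_sqrt hlam.le]
    have : (lam : ℂ) ≠ 0 := ofReal_ne_zero.2 hlam.ne'
    push_cast
    field_simp
  rw [h2] at h1
  unfold gg
  rw [h1, enorm_mul, enorm_mul, ENNReal.mul_rpow_of_nonneg _ _ hs,
    ENNReal.mul_rpow_of_nonneg _ _ hs]
  have h3 : ‖(Real.sqrt lam : ℂ)‖ₑ ^ s * ‖(Real.sqrt lam : ℂ)‖ₑ ^ s = ENNReal.ofReal (lam ^ s) := by
    rw [← ENNReal.mul_rpow_of_nonneg _ _ hs, ← enorm_mul, ← ofReal_mul, Real.mul_self_sqrt hlam.le,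
      ← ofReal_norm_eq_enorm, Complex.norm_real, Real.norm_of_nonneg hlam.le,
      ENNReal.ofReal_rpow_of_nonneg hlam.le hs]
  have h4 : ENNReal.ofReal (lam⁻¹ ^ s) * ENNReal.ofReal (lam ^ s) = 1 := by
    rw [← ENNReal.ofReal_mul (by positivity), ← Real.mul_rpow (by positivity) hlam.le,
      inv_mul_cancel₀ hlam.ne', Real.one_rpow, ENNReal.ofReal_one]
  calc ‖Gr A (Wv ζ fun x => lam * v x) a b‖ₑ ^ s
      = (ENNReal.ofReal (lam⁻¹ ^ s) * ENNReal.ofReal (lam ^ s)) *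
        ‖Gr A (Wv ζ fun x => lam * v x) a b‖ₑ ^ s := by rw [h4, one_mul]
    _ = ENNReal.ofReal (lam⁻¹ ^ s) * (‖(Real.sqrt lam : ℂ)‖ₑ ^ s *
        ‖Gr A (Wv ζ fun x => lam * v x) a b‖ₑ ^ s * ‖(Real.sqrt lam : ℂ)‖ₑ ^ s) := by
        rw [← h3]
        ring

end

/-- the single-site hypotheses of the finite volume criterion are invariant under scaling -/
theorem Hyp.scl {ν : Measure ℝ} [IsProbabilityMeasure ν] {s lam : ℝ} {C : ℝ≥0∞}
    (H : Hyp ν s C) (hs : 0 < s) (hlam : 0 < lam) :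
    Hyp (P365CU.scl lam ν) s
      (C * (1 + ENNReal.ofReal (lam⁻¹ ^ s) + ENNReal.ofReal (lam⁻¹ ^ (2 * s)))) := by
  have hζ' : ∀ {ζ : ℂ}, 0 < ζ.im → 0 < (ζ / (lam : ℂ)).im := by
    intro ζ hζ
    rw [Complex.div_ofReal_im]
    positivity
  have key : ∀ {ι : Type} [Fintype ι] [DecidableEq ι] (A : Matrix ι ι ℝ), A.IsSymm → ∀ ζ : ℂ,
      0 < ζ.im → ∀ (t : ℝ), 0 ≤ t → ∀ (L : Finset ι) (x y : ι) (v : ι → ℝ),
      (∫⋯∫⁻_L, gg A ζ t x y ∂fun _ => P365CU.scl lam ν) v = ENNReal.ofReal (lam⁻¹ ^ t) *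
        (∫⋯∫⁻_L, gg (scA (fun _ => Real.sqrt lam) A) (ζ / lam) t x y ∂fun _ => ν)
          (fun x => lam⁻¹ * v x) := by
    intro ι _ _ A hA ζ hζ t ht L x y v
    rw [lmarginal_scl hlam (measurable_gg t x y)]
    have h1 : (fun v : ι → ℝ => gg A ζ t x y (fun x => lam * v x)) = fun v =>
        ENNReal.ofReal (lam⁻¹ ^ t) * gg (scA (fun _ => Real.sqrt lam) A) (ζ / lam) t x y v :=
      funext fun v => gg_scl hA hlam hζ ht x y v
    rw [h1]
    unfold lmarginal
    exact lintegral_const_mul' _ _ ENNReal.ofReal_ne_top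
  refine ⟨?_, ?_, ?_⟩
  · intro ι _ _ A hA ζ hζ a b v
    rw [key A hA ζ hζ s hs.le]
    have h1 := H.ap1 (scA (fun _ => Real.sqrt lam) A) (scA_symm hA) (ζ / lam) (hζ' hζ) a b
      (fun x => lam⁻¹ * v x)
    calc _ ≤ ENNReal.ofReal (lam⁻¹ ^ s) * C := by gcongr
      _ = C * ENNReal.ofReal (lam⁻¹ ^ s) := mul_comm _ _
      _ ≤ _ := by
          gcongr
          exact le_add_self.trans le_self_add
  · intro ι _ _ A hA ζ hζ a b v
    rw [key A hA ζ hζ (2 * s) (by linarith)]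
    have h1 := H.ap2 (scA (fun _ => Real.sqrt lam) A) (scA_symm hA) (ζ / lam) (hζ' hζ) a b
      (fun x => lam⁻¹ * v x)
    calc _ ≤ ENNReal.ofReal (lam⁻¹ ^ (2 * s)) * C := by gcongr
      _ = C * ENNReal.ofReal (lam⁻¹ ^ (2 * s)) := mul_comm _ _
      _ ≤ _ := by
          gcongr
          exact le_add_self
  · intro ι _ _ A hA ζ hζ a b x y v
    rw [key A hA ζ hζ (2 * s) (by linarith), key A hA ζ hζ s hs.le]
    have h1 := H.rh (scA (fun _ => Real.sqrt lam) A) (scA_symm hA) (ζ / lam) (hζ' hζ) a b x y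
      (fun x => lam⁻¹ * v x)
    have h2 : ENNReal.ofReal (lam⁻¹ ^ (2 * s)) = ENNReal.ofReal (lam⁻¹ ^ s) ^ (2 : ℝ) := by
      rw [ENNReal.ofReal_rpow_of_nonneg (by positivity) (by norm_num), ← Real.rpow_mul
        (by positivity), mul_comm s 2]
    calc _ ≤ ENNReal.ofReal (lam⁻¹ ^ (2 * s)) * (C * ((∫⋯∫⁻_{a, b},
          gg (scA (fun _ => Real.sqrt lam) A) (ζ / lam) s x y ∂fun _ => ν)
            (fun x => lam⁻¹ * v x)) ^ (2 : ℝ)) := by gcongr
      _ = C * (ENNReal.ofReal (lam⁻¹ ^ s) * (∫⋯∫⁻_{a, b},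
          gg (scA (fun _ => Real.sqrt lam) A) (ζ / lam) s x y ∂fun _ => ν)
            (fun x => lam⁻¹ * v x)) ^ (2 : ℝ) := by
          rw [h2, ENNReal.mul_rpow_of_nonneg _ _ (by norm_num)]
          ring
      _ ≤ _ := by
          gcongr
          calc C = C * 1 := (mul_one C).symm
            _ ≤ _ := by
              gcongr
              exact le_self_add.trans le_self_add

/-- `uni` is in the class `X.Reg` -/
theorem uni_regX : P365L.X.Reg π (1 / 2) uni :=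
  P365L.X.Reg.of_cauchy Real.pi_pos (by norm_num) uni_reg.upper uni_reg.lower

/-- the constant of the criterion for the uniform law on `[-λ, λ]` -/
noncomputable def CL (lam s : ℝ) : ℝ≥0∞ :=
  CX π (1 / 2) s * (1 + ENNReal.ofReal (lam⁻¹ ^ s) + ENNReal.ofReal (lam⁻¹ ^ (2 * s)))

theorem CL_ne_top {lam s : ℝ} (hs : s < 1 / 4) : CL lam s ≠ ∞ := by
  have h := CX_ne_top (C0 := π) (c0 := 1 / 2) (by norm_num) hs
  unfold CL
  finiteness

theorem hyp_unif {lam s : ℝ} (hlam : 0 < lam) (hs : 0 < s) (hs1 : s < 1 / 4) :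
    Hyp (scl lam uni) s (CL lam s) :=
  Hyp.scl (Hyp.of_reg uni_regX hs hs1) hs hlam

/-- the finite volume criterion for a law satisfying `Hyp` -/
theorem FMboxR_of_hyp {ν : Measure ℝ} [IsProbabilityMeasure ν] {s : ℝ} {C : ℝ≥0∞} (hC : C ≠ ∞)
    (H : Hyp ν s C) (hs : 0 < s) (hs1 : s < 1 / 4) (E : ℝ) (r : ℕ) {η₀ : ℝ} (hη₀ : 0 < η₀)
    (hF : ∀ η : ℝ, 0 < η → η ≤ η₀ → TH C r * tau ν (E + η * I) s r ≤ 1 / 2) :
    P365L.InfB.FMboxR ν E := by
  refine ⟨s, 2 * C.toReal, Real.log 2 / (2 * (r + 2)), η₀, hs, by linarith,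
    by positivity, hη₀, fun η hη hη1 y => ?_⟩
  filter_upwards [eventually_ge_atTop (2 * ds 0 y)] with M hM hy
  have hζ : (0 : ℝ) < ((E : ℂ) + η * I).im := by simpa using hη
  have h1 := crit hC H hζ hs (by linarith) (hF η hη hη1) y M hM
  rw [ER_Lam _ M hy] at h1
  exact h1

end P365CU
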