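import Vale.Agent.P365.X3.Marg

set_option linter.all false

/-!
# P365 / CU / Moeb: the Möbius motion of the uniform law.

`mo t v = (v + t) / (1 + t v)` maps `[-1,1]` onto itself for `|t| < 1`; moving all the potentials
of a set `Y` by the same parameter costs only a factor `(1 - κ²)^(-|Y|)` after averaging over
`|t| ≤ κ`.
-/

namespace P365CU

open MeasureTheory ProbabilityTheory Function
open P365L P365L.Comp P365X
open scoped ENNReal

/-- uniform law on `[-1,1]` -/
noncomputable def uni : Measure ℝ :=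
  ENNReal.ofReal (1 / 2) • (volume : Measure ℝ).restrict (Set.Icc (-1) 1)

instance : IsProbabilityMeasure uni := by
  refine ⟨?_⟩
  unfold uni
  rw [Measure.smul_apply, Measure.restrict_apply_univ, Real.volume_Icc, smul_eq_mul,
    ← ENNReal.ofReal_mul (by norm_num)]
  norm_num

/-- the motion -/
noncomputable def mo (t v : ℝ) : ℝ := (v + t) / (1 + t * v)

/-- density of the moved law -/
noncomputable def Jd (t w : ℝ) : ℝ := (1 - t ^ 2) / (1 - t * w) ^ 2

theorem den_pos {t v : ℝ} (ht : |t| < 1) (hv : |v| ≤ 1) : 0 < 1 + t * v := by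
  have h1 : |t * v| < 1 := by
    rw [abs_mul]
    nlinarith [abs_nonneg t, abs_nonneg v]
  linarith [(abs_lt.1 h1).1]

theorem mo_neg_mo {t v : ℝ} (ht : |t| < 1) (hv : |v| ≤ 1) : mo t (mo (-t) v) = v := by
  have h1 : 0 < 1 + -t * v := den_pos (by rwa [abs_neg]) hv
  have h2 : t ^ 2 < 1 := (sq_lt_one_iff_abs_lt_one t).2 ht
  unfold mo
  obtain ⟨d, hd⟩ : ∃ d, d = 1 + -t * v := ⟨_, rfl⟩
  rw [← hd] at h1 ⊢
  have h3 : d ≠ 0 := h1.ne'
  have h4 : 1 + t * ((v + -t) / d) = (1 - t ^ 2) / d := by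
    field_simp
    rw [hd]
    ring
  have h6 : (v + -t) / d + t = v * (1 - t ^ 2) / d := by
    field_simp
    rw [hd]
    ring
  rw [h4, h6]
  have h5 : (1 - t ^ 2 : ℝ) ≠ 0 := by linarith
  field_simp

theorem mo_mem {t v : ℝ} (ht : |t| < 1) (hv : |v| ≤ 1) : |mo t v| ≤ 1 := by
  have h1 := den_pos ht hv
  have h2 := abs_le.1 hv
  have h3 := abs_lt.1 ht
  unfold mo
  rw [abs_div, abs_of_pos h1, div_le_one h1, abs_le]
  constructor
  · nlinarith
  · nlinarith

theorem mo_lt {t v : ℝ} (ht : |t| < 1) (hv : |v| < 1) : |mo t v| < 1 := by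
  have h1 := den_pos ht hv.le
  have h2 := abs_lt.1 hv
  have h3 := abs_lt.1 ht
  unfold mo
  rw [abs_div, abs_of_pos h1, div_lt_one h1, abs_lt]
  constructor
  · nlinarith [mul_pos (sub_pos.2 h2.2) (sub_pos.2 h3.2), mul_pos (neg_lt_iff_pos_add.1 h2.1)
      (neg_lt_iff_pos_add.1 h3.1)]
  · nlinarith [mul_pos (sub_pos.2 h2.2) (sub_pos.2 h3.2), mul_pos (neg_lt_iff_pos_add.1 h2.1)
      (neg_lt_iff_pos_add.1 h3.1)]

theorem measurable_mo2 : Measurable fun p : ℝ × ℝ => mo p.1 p.2 := by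
  unfold mo
  fun_prop

theorem measurable_mo (t : ℝ) : Measurable (mo t) := by
  unfold mo
  fun_prop

theorem measurable_Jd (t : ℝ) : Measurable fun w => ENNReal.ofReal (Jd t w) := by
  unfold Jd
  fun_prop

theorem Jd_nonneg {t : ℝ} (ht : |t| < 1) (w : ℝ) : 0 ≤ Jd t w := by
  have h2 : t ^ 2 < 1 := (sq_lt_one_iff_abs_lt_one t).2 ht
  unfold Jd
  have : 0 ≤ 1 - t ^ 2 := by linarith
  positivity

theorem hasDerivAt_mo {t w : ℝ} (ht : |t| < 1) (hw : |w| ≤ 1) :
    HasDerivAt (mo (-t)) (Jd t w) w := by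
  have h1 : 0 < 1 + -t * w := den_pos (by rwa [abs_neg]) hw
  have h2 : HasDerivAt (fun v : ℝ => v + -t) 1 w := (hasDerivAt_id w).add_const _
  have h3 : HasDerivAt (fun v : ℝ => 1 + -t * v) (-t) w := by
    have := ((hasDerivAt_id w).const_mul (-t)).const_add 1
    simpa using this
  have h4 := h2.div h3 h1.ne'
  refine h4.congr_deriv ?_
  unfold Jd
  rw [show 1 - t * w = 1 + -t * w by ring]
  congr 1
  ring

/-- one-dimensional change of variables -/
theorem lintegral_mo {t : ℝ} (ht : |t| < 1) (f : ℝ → ℝ≥0∞) (hf : Measurable f) :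
    ∫⁻ v, f (mo t v) ∂uni = ∫⁻ w, ENNReal.ofReal (Jd t w) * f w ∂uni := by
  have ht' : |(-t)| < 1 := by rwa [abs_neg]
  unfold uni
  rw [lintegral_smul_measure, lintegral_smul_measure]
  congr 1
  have hinj : Set.InjOn (mo (-t)) (Set.Icc (-1) 1) := by
    intro a ha b hb hab
    have h1 := mo_neg_mo ht (abs_le.2 ha)
    have h2 := mo_neg_mo ht (abs_le.2 hb)
    rw [← h1, ← h2, hab]
  have himg : mo (-t) '' Set.Icc (-1) 1 = Set.Icc (-1) 1 := by
    ext x
    constructor
    · rintro ⟨y, hy, rfl⟩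
      exact abs_le.1 (mo_mem ht' (abs_le.2 hy))
    · intro hx
      refine ⟨mo t x, abs_le.1 (mo_mem ht (abs_le.2 hx)), ?_⟩
      have := mo_neg_mo ht' (abs_le.2 hx)
      rwa [neg_neg] at this
  have h := lintegral_image_eq_lintegral_abs_deriv_mul (s := Set.Icc (-1 : ℝ) 1)
    measurableSet_Icc (f := mo (-t)) (f' := Jd t)
    (fun x hx => (hasDerivAt_mo ht (abs_le.2 hx)).hasDerivWithinAt) hinj (fun v => f (mo t v))
  rw [himg] at h
  rw [h]
  refine setLIntegral_congr_fun measurableSet_Icc fun x hx => ?_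
  rw [abs_of_nonneg (Jd_nonneg ht x), mo_neg_mo ht (abs_le.2 hx)]

variable {ι : Type*} [Fintype ι] [DecidableEq ι]

/-- move the potentials in `Y` -/
noncomputable def mov (Y : Finset ι) (t : ℝ) (v : ι → ℝ) : ι → ℝ :=
  fun x => if x ∈ Y then mo t (v x) else v x

omit [Fintype ι] in
theorem measurable_mov2 (Y : Finset ι) : Measurable fun p : ℝ × (ι → ℝ) => mov Y p.1 p.2 := by
  refine measurable_pi_iff.2 fun x => ?_
  unfold mov
  by_cases hx : x ∈ Y
  · simp only [if_pos hx]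
    exact Measurable.comp (g := fun p : ℝ × ℝ => mo p.1 p.2)
      (f := fun p : ℝ × (ι → ℝ) => (p.1, p.2 x)) measurable_mo2
        (measurable_fst.prodMk ((measurable_pi_apply x).comp measurable_snd))
  · simp only [if_neg hx]
    exact (measurable_pi_apply x).comp measurable_snd

omit [Fintype ι] in
theorem measurable_mov (Y : Finset ι) (t : ℝ) : Measurable (mov Y t) :=
  (measurable_mov2 Y).comp (measurable_const.prodMk measurable_id)

/-- the product density -/
noncomputable def Jp (Y : Finset ι) (t : ℝ) (v : ι → ℝ) : ℝ≥0∞ :=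
  ∏ x ∈ Y, ENNReal.ofReal (Jd t (v x))

omit [Fintype ι] [DecidableEq ι] in
theorem measurable_Jp (Y : Finset ι) (t : ℝ) : Measurable (Jp Y t) := by
  unfold Jp
  exact Finset.measurable_prod _ fun x _ => (measurable_Jd t).comp (measurable_pi_apply x)

theorem lintegral_mov_one {t : ℝ} (ht : |t| < 1) (x : ι) {F : (ι → ℝ) → ℝ≥0∞}
    (hF : Measurable F) :
    ∫⁻ v, F (update v x (mo t (v x))) ∂(Measure.pi fun _ : ι => uni) =
      ∫⁻ v, ENNReal.ofReal (Jd t (v x)) * F v ∂(Measure.pi fun _ : ι => uni) := by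
  have hm1 : Measurable fun v : ι → ℝ => F (update v x (mo t (v x))) := by
    refine hF.comp ?_
    refine measurable_pi_iff.2 fun y => ?_
    by_cases hy : y = x
    · subst hy
      simp only [update_self]
      exact (measurable_mo t).comp (measurable_pi_apply y)
    · simp only [update_of_ne hy]
      exact measurable_pi_apply y
  have hm2 : Measurable fun v : ι → ℝ => ENNReal.ofReal (Jd t (v x)) * F v :=
    ((measurable_Jd t).comp (measurable_pi_apply x)).mul hF
  rw [← lintegral_lmarginal uni {x} hm1, ← lintegral_lmarginal uni {x} hm2]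
  refine lintegral_congr fun v => ?_
  rw [lmarginal_singleton, lmarginal_singleton]
  simp only [update_self, update_idem]
  exact lintegral_mo ht (fun u => F (update v x u)) (hF.comp (measurable_update v))

theorem lintegral_mov {t : ℝ} (ht : |t| < 1) (Y : Finset ι) {F : (ι → ℝ) → ℝ≥0∞}
    (hF : Measurable F) :
    ∫⁻ v, F (mov Y t v) ∂(Measure.pi fun _ : ι => uni) =
      ∫⁻ v, Jp Y t v * F v ∂(Measure.pi fun _ : ι => uni) := by
  induction Y using Finset.induction_on generalizing F with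
  | empty =>
    refine lintegral_congr fun v => ?_
    have h1 : mov (∅ : Finset ι) t v = v := by
      funext x
      simp [mov]
    rw [h1, Jp, Finset.prod_empty, one_mul]
  | insert x Y hx ih =>
    have h1 : ∀ v : ι → ℝ, mov (insert x Y) t v = update (mov Y t v) x (mo t (mov Y t v x)) := by
      intro v
      funext y
      by_cases hy : y = x
      · subst hy
        simp [mov, hx]
      · simp [mov, hy, update_of_ne hy]
    have hm1 : Measurable fun v : ι → ℝ => F (update v x (mo t (v x))) := by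
      refine hF.comp ?_
      refine measurable_pi_iff.2 fun y => ?_
      by_cases hy : y = x
      · subst hy
        simp only [update_self]
        exact (measurable_mo t).comp (measurable_pi_apply y)
      · simp only [update_of_ne hy]
        exact measurable_pi_apply y
    simp only [h1]
    rw [ih (F := fun v => F (update v x (mo t (v x)))) hm1]
    have h2 : ∀ v : ι → ℝ, Jp Y t v = Jp Y t (update v x (mo t (v x))) := by
      intro v
      unfold Jp
      refine Finset.prod_congr rfl fun y hy => ?_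
      rw [update_of_ne]
      rintro rfl
      exact hx hy
    have h3 : ∀ v : ι → ℝ, Jp Y t v * F (update v x (mo t (v x))) =
        (fun w => Jp Y t w * F w) (update v x (mo t (v x))) := by
      intro v
      simp only
      rw [← h2]
    have hm2 : Measurable fun v : ι → ℝ => Jp Y t v * F v := (measurable_Jp Y t).mul hF
    refine (lintegral_congr h3).trans ?_
    refine (lintegral_mov_one ht x hm2).trans ?_
    refine lintegral_congr fun v => ?_
    unfold Jp
    rw [Finset.prod_insert hx, mul_assoc]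

theorem Jd_mul {t w : ℝ} (ht : |t| < 1) (hw : |w| ≤ 1) :
    (1 - t ^ 2) ^ 2 ≤ Jd t w * Jd (-t) w := by
  have h1 : 0 < 1 + t * w := den_pos ht hw
  have h2 : 0 < 1 + -t * w := den_pos (by rwa [abs_neg]) hw
  have h3 : t ^ 2 < 1 := (sq_lt_one_iff_abs_lt_one t).2 ht
  have h4 : w ^ 2 ≤ 1 := (sq_le_one_iff_abs_le_one w).2 hw
  unfold Jd
  rw [div_mul_div_comm, neg_sq, ← mul_pow, ← sq]
  rw [le_div_iff₀ (by
    have : 0 < (1 - t * w) * (1 - -t * w) := by
      have e1 : 1 - t * w = 1 + -t * w := by ring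
      have e2 : 1 - -t * w = 1 + t * w := by ring
      rw [e1, e2]
      positivity
    positivity)]
  have h5 : (1 - t * w) * (1 - -t * w) = 1 - t ^ 2 * w ^ 2 := by ring
  rw [h5]
  have h6 : (1 - t ^ 2 * w ^ 2) ^ 2 ≤ 1 := by
    have h7 : 0 ≤ t ^ 2 * w ^ 2 := by positivity
    have h8 : t ^ 2 * w ^ 2 ≤ 1 := by nlinarith [sq_nonneg t, sq_nonneg w]
    nlinarith
  nlinarith [sq_nonneg (1 - t ^ 2)]

/-- AM–GM for the two densities -/
theorem Jp_add {t : ℝ} (ht : |t| < 1) (Y : Finset ι) {v : ι → ℝ} (hv : ∀ x, |v x| ≤ 1) :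
    ENNReal.ofReal (2 * (1 - t ^ 2) ^ Y.card) ≤ Jp Y t v + Jp Y (-t) v := by
  have ht' : |(-t)| < 1 := by rwa [abs_neg]
  have h3 : t ^ 2 < 1 := (sq_lt_one_iff_abs_lt_one t).2 ht
  have h0 : 0 < 1 - t ^ 2 := by linarith
  unfold Jp
  rw [← ENNReal.ofReal_prod_of_nonneg (fun x _ => Jd_nonneg ht _),
    ← ENNReal.ofReal_prod_of_nonneg (fun x _ => Jd_nonneg ht' _),
    ← ENNReal.ofReal_add (Finset.prod_nonneg fun x _ => Jd_nonneg ht _)
      (Finset.prod_nonneg fun x _ => Jd_nonneg ht' _)]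
  refine ENNReal.ofReal_le_ofReal ?_
  set a := ∏ x ∈ Y, Jd t (v x) with ha
  set b := ∏ x ∈ Y, Jd (-t) (v x) with hb
  have ha0 : 0 ≤ a := Finset.prod_nonneg fun x _ => Jd_nonneg ht _
  have hb0 : 0 ≤ b := Finset.prod_nonneg fun x _ => Jd_nonneg ht' _
  have hab : ((1 - t ^ 2) ^ Y.card) ^ 2 ≤ a * b := by
    rw [ha, hb, ← Finset.prod_mul_distrib, ← pow_mul, mul_comm Y.card, pow_mul,
      ← Finset.prod_const]
    exact Finset.prod_le_prod (fun _ _ => by positivity) fun x _ => Jd_mul ht (hv x)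
  have hc : 0 ≤ (1 - t ^ 2) ^ Y.card := by positivity
  nlinarith [sq_nonneg (a - b), sq_nonneg (a + b)]

theorem ae_uni : ∀ᵐ v ∂uni, |v| < 1 := by
  unfold uni
  refine Measure.ae_smul_measure ?_ _
  have h1 : ∀ᵐ v ∂((volume : Measure ℝ).restrict (Set.Icc (-1) 1)), v ∈ Set.Icc (-1 : ℝ) 1 :=
    ae_restrict_mem measurableSet_Icc
  have h2 : ∀ᵐ v ∂((volume : Measure ℝ).restrict (Set.Icc (-1) 1)), v ≠ 1 :=
    Measure.ae_ne _ _
  have h3 : ∀ᵐ v ∂((volume : Measure ℝ).restrict (Set.Icc (-1) 1)), v ≠ -1 :=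
    Measure.ae_ne _ _
  filter_upwards [h1, h2, h3] with v hv hv1 hv2
  rw [abs_lt]
  exact ⟨lt_of_le_of_ne hv.1 (Ne.symm hv2), lt_of_le_of_ne hv.2 hv1⟩

omit [DecidableEq ι] in
theorem ae_pi_uni : ∀ᵐ v ∂(Measure.pi fun _ : ι => uni), ∀ x, |v x| < 1 := by
  rw [ae_all_iff]
  intro x
  exact (Measure.quasiMeasurePreserving_eval (μ := fun _ : ι => uni) x).ae ae_uni

/-- the law change at one parameter -/
theorem dom_one {t : ℝ} (ht : |t| < 1) (Y : Finset ι) {F : (ι → ℝ) → ℝ≥0∞}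
    (hF : Measurable F) :
    ENNReal.ofReal (2 * (1 - t ^ 2) ^ Y.card) * ∫⁻ v, F v ∂(Measure.pi fun _ : ι => uni) ≤
      ∫⁻ v, F (mov Y t v) ∂(Measure.pi fun _ : ι => uni) +
        ∫⁻ v, F (mov Y (-t) v) ∂(Measure.pi fun _ : ι => uni) := by
  have ht' : |(-t)| < 1 := by rwa [abs_neg]
  have hm2 : Measurable fun v : ι → ℝ => Jp Y t v * F v := (measurable_Jp Y t).mul hF
  rw [lintegral_mov ht Y hF, lintegral_mov ht' Y hF,
    ← lintegral_add_left hm2, ← lintegral_const_mul _ hF]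
  refine lintegral_mono_ae ?_
  filter_upwards [ae_pi_uni (ι := ι)] with v hv
  rw [← add_mul]
  gcongr
  exact Jp_add ht Y fun x => (hv x).le

/-- **THE LAW CHANGE**, averaged over the parameter -/
theorem dom {κ : ℝ} (hκ : 0 < κ) (hκ1 : κ < 1) (Y : Finset ι) {F : (ι → ℝ) → ℝ≥0∞}
    (hF : Measurable F) :
    ENNReal.ofReal (2 * κ * (1 - κ ^ 2) ^ Y.card) * ∫⁻ v, F v ∂(Measure.pi fun _ : ι => uni) ≤
      ∫⁻ t in Set.Ioo (-κ) κ, ∫⁻ v, F (mov Y t v) ∂(Measure.pi fun _ : ι => uni) := by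
  set g : ℝ → ℝ≥0∞ := fun t => ∫⁻ v, F (mov Y t v) ∂(Measure.pi fun _ : ι => uni) with hg
  have hgm : Measurable g :=
    Measurable.lintegral_prod_right' (f := fun p : ℝ × (ι → ℝ) => F (mov Y p.1 p.2))
      (hF.comp (measurable_mov2 Y))
  set c := ∫⁻ v, F v ∂(Measure.pi fun _ : ι => uni) with hc
  have h1 : ∀ t ∈ Set.Ioo (-κ) κ, ENNReal.ofReal (2 * (1 - κ ^ 2) ^ Y.card) * c ≤
      g t + g (-t) := by
    intro t ht
    have ht1 : |t| < κ := abs_lt.2 ht
    have ht2 : |t| < 1 := ht1.trans hκ1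
    refine le_trans ?_ (dom_one ht2 Y hF)
    have e1 : κ ^ 2 < 1 := by nlinarith
    have e2 : t ^ 2 ≤ κ ^ 2 := by nlinarith [ht.1, ht.2]
    have e3 : (1 - κ ^ 2) ^ Y.card ≤ (1 - t ^ 2) ^ Y.card :=
      pow_le_pow_left₀ (by linarith) (by linarith) _
    gcongr
  have h2 : ENNReal.ofReal (2 * (1 - κ ^ 2) ^ Y.card) * c * ENNReal.ofReal (2 * κ) ≤
      ∫⁻ t in Set.Ioo (-κ) κ, (g t + g (-t)) := by
    calc ENNReal.ofReal (2 * (1 - κ ^ 2) ^ Y.card) * c * ENNReal.ofReal (2 * κ)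
        = ∫⁻ _t in Set.Ioo (-κ) κ, ENNReal.ofReal (2 * (1 - κ ^ 2) ^ Y.card) * c := by
          rw [setLIntegral_const, Real.volume_Ioo]
          congr 2
          ring
      _ ≤ _ := setLIntegral_mono' measurableSet_Ioo h1
  have h3 : ∫⁻ t in Set.Ioo (-κ) κ, g (-t) = ∫⁻ t in Set.Ioo (-κ) κ, g t := by
    rw [← lintegral_indicator measurableSet_Ioo, ← lintegral_indicator measurableSet_Ioo,
      ← lintegral_neg_eq_self]
    refine lintegral_congr fun t => ?_
    by_cases ht : t ∈ Set.Ioo (-κ) κ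
    · have ht' : -t ∈ Set.Ioo (-κ) κ := ⟨by linarith [ht.2], by linarith [ht.1]⟩
      rw [Set.indicator_of_mem ht, Set.indicator_of_mem ht', neg_neg]
    · have ht' : -t ∉ Set.Ioo (-κ) κ := fun h => ht ⟨by linarith [h.2], by linarith [h.1]⟩
      rw [Set.indicator_of_notMem ht, Set.indicator_of_notMem ht']
  rw [lintegral_add_left hgm, h3, ← two_mul] at h2
  have h4 : ENNReal.ofReal (2 * (1 - κ ^ 2) ^ Y.card) * c * ENNReal.ofReal (2 * κ) =
      2 * (ENNReal.ofReal (2 * κ * (1 - κ ^ 2) ^ Y.card) * c) := by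
    have h5 : (0 : ℝ) ≤ (1 - κ ^ 2) ^ Y.card := by
      have : κ ^ 2 < 1 := by nlinarith
      have : 0 ≤ 1 - κ ^ 2 := by linarith
      positivity
    have h6 : (0 : ℝ) ≤ 2 * (1 - κ ^ 2) ^ Y.card := by positivity
    have h7 : ENNReal.ofReal (2 * (1 - κ ^ 2) ^ Y.card) * ENNReal.ofReal (2 * κ) =
        2 * ENNReal.ofReal (2 * κ * (1 - κ ^ 2) ^ Y.card) := by
      rw [← ENNReal.ofReal_mul h6]
      conv_rhs => rw [show (2 : ℝ≥0∞) = ENNReal.ofReal 2 by norm_num,
        ← ENNReal.ofReal_mul (by norm_num)]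
      congr 1
      ring
    rw [mul_right_comm, h7, mul_assoc]
  rw [h4] at h2
  exact (ENNReal.mul_le_mul_iff_right (by norm_num) (by norm_num)).1 h2

end P365CU
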