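import Vale.Agent.P365.CU.Cut
import Vale.Agent.P365.InfB.Box

set_option linter.all false

/-!
# P365 / CU / Pure: the composition for the exact uniform law, without side hypothesis on the
cut-off.
-/

namespace P365CU

open MeasureTheory ProbabilityTheory Complex Matrix Function P365S6
open P365L P365L.Comp P365X
open scoped ENNReal Real

variable {lam c p : ℝ}

/-- the crossing quantity at scale `m` and energy `E` is at most `θ` near the real axis -/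
def SmallT (lam c p θ E : ℝ) (m : ℕ) : Prop :=
  ∃ η₀ : ℝ, 0 < η₀ ∧ ∀ η : ℝ, 0 < η → η ≤ η₀ → TT lam c p (E + η * I) m ≤ ENNReal.ofReal θ

/-- **COMPOSITION.** -/
theorem comp_main (hlam : 0 < lam) (hc : 0 < c) (hp : 0 < p) (hp4 : p < 1 / 4) :
    ∃ θ₀ : ℝ, 0 < θ₀ ∧ ∃ M₁ : ℕ, ∀ m₀ ≥ M₁, ∃ n : ℕ, ∀ E : ℝ,
      (∀ j < n, SmallT lam c p θ₀ E (4 ^ j * m₀)) → P365L.InfB.FMboxR (scl lam uni) E := by
  obtain ⟨C1, C2, h1, h2, h3⟩ := cutStatement hp (by linarith)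
  exact comp_fin hlam hc hp hp4 h1 h2 h3

theorem scl_le (hlam : 0 < lam) :
    scl lam uni ≤ ENNReal.ofReal (1 / 2 * |lam⁻¹|) • (volume : Measure ℝ) := by
  refine Measure.le_iff.2 fun s hs => ?_
  unfold scl
  rw [Measure.map_apply (by fun_prop) hs, Measure.smul_apply, smul_eq_mul]
  unfold uni
  rw [Measure.smul_apply, smul_eq_mul]
  refine (mul_le_mul_right (Measure.restrict_apply_le _ _) _).trans ?_
  have h3 := (Real.volume_preimage_mul_left hlam.ne' s).le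
  refine (mul_le_mul_right h3 _).trans ?_
  rw [← mul_assoc, ← ENNReal.ofReal_mul (by norm_num)]

/-- **PURE POINT SPECTRUM FOR THE EXACT UNIFORM LAW, from smallness of the crossing quantity at
finitely many scales.** -/
theorem pure_main (hlam : 0 < lam) (hc : 0 < c) (hp : 0 < p) (hp4 : p < 1 / 4) :
    ∃ θ₀ : ℝ, 0 < θ₀ ∧ ∃ M₁ : ℕ, ∀ m₀ ≥ M₁, ∃ n : ℕ,
      (∀ E : ℝ, ∀ j < n, SmallT lam c p θ₀ E (4 ^ j * m₀)) →
      ∀ {Ω : Type*} [MeasurableSpace Ω] (P : Measure Ω) [IsProbabilityMeasure P]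
        (V : Site → Ω → ℝ), (∀ x, Measurable (V x)) → iIndepFun V P →
        (∀ x, P.map (V x) = scl lam uni) → ∀ᵐ ω ∂P, Inf.EE (fun x => V x ω) = ⊤ := by
  obtain ⟨θ₀, h0, M₁, H⟩ := comp_main hlam hc hp hp4
  refine ⟨θ₀, h0, M₁, fun m₀ hm₀ => ?_⟩
  obtain ⟨n, hn⟩ := H m₀ hm₀
  refine ⟨n, fun hs Ω _ P _ V hV hi hl => ?_⟩
  have h1 : 0 < 1 / 2 * |lam⁻¹| := by
    have := hlam.ne'
    positivity
  exact P365L.InfB.pure_point_iid h1 (scl_le hlam) hV hi hl fun E => hn E (hs E)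

end P365CU

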