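import Vale.Agent.P365.CU.Pure

set_option linter.all false

/-!
# P365 / CU / PureAE: pure point spectrum from smallness of the crossing quantity at almost every
energy of the spectrum (scales depending on the energy); energies outside the spectrum are free.
-/

namespace P365L.InfB

open MeasureTheory ProbabilityTheory Complex Filter Topology P365L.Inf
open scoped ENNReal InnerProductSpace

variable {Ω : Type*} [MeasurableSpace Ω] {P : Measure Ω} [IsProbabilityMeasure P]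
variable {V : Site → Ω → ℝ} {γ : ℝ}

/-- small far absorption at the energy `E` -/
def TS (P : Measure Ω) (V : Site → Ω → ℝ) (x : Site) (E : ℝ) : Prop :=
  ∀ ε : ℝ, 0 < ε → ∃ (R₀ : ℕ) (η₀ : ℝ), 0 < η₀ ∧ ∀ R, R₀ ≤ R → ∀ η : ℝ, 0 < η → η ≤ η₀ →
    ∫⁻ ω, ENNReal.ofReal (η * tail (ball x R) (Res (pot V ω) (E + η * I) (dl x))) ∂P ≤
      ENNReal.ofReal ε

/-- the almost sure smallness on a window, along the sequence `1/(k+1)` -/
theorem ae_window_ae (hγ : 0 < γ) (hs : BSetup P V γ) (x : Site)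
    (hTS : ∀ᵐ E : ℝ, TS P V x E) (N : ℕ)
    (η : ℕ → ℝ) (hη : ∀ k, 0 < η k) (hη0 : Tendsto η atTop (𝓝 0)) :
    ∀ᵐ ω ∂P, ∀ ε : ℝ, 0 < ε → ∃ R : ℕ, ∃ᶠ k in atTop,
      ∫⁻ E in {E : ℝ | |E| ≤ (N : ℝ)},
        ENNReal.ofReal (η k * tail (ball x R) (Res (pot V ω) (E + η k * I) (dl x))) ≤
          ENNReal.ofReal ε := by
  set W : Measure ℝ := volume.restrict {E : ℝ | |E| ≤ (N : ℝ)} with hW
  have hWfin : IsFiniteMeasure W := by
    refine ⟨?_⟩
    rw [hW, Measure.restrict_apply_univ]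
    have : {E : ℝ | |E| ≤ (N : ℝ)} = Set.Icc (-(N : ℝ)) N := by
      ext E
      exact abs_le (G := ℝ)
    rw [this]
    simp
  set X : ℕ → ℕ → Ω × ℝ → ℝ≥0∞ := fun R k p =>
    ENNReal.ofReal (η k * tail (ball x R) (Res (pot V p.1) (p.2 + η k * I) (dl x))) with hX
  have hXm : ∀ R k, Measurable (X R k) := by
    intro R k
    have h1 := measurable_tail (fun p : Ω × ℝ => pot V p.1) (fun p => (p.2 : ℂ) + η k * I)
      (fun y => (measurable_pot hs y).comp measurable_fst)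
      ((Complex.measurable_ofReal.comp measurable_snd).add_const _)
      (fun p => hz_im p.2 (hη k)) x R
    have h2 : ∀ p : Ω × ℝ, ((p.2 : ℂ) + η k * I).im = η k := fun p => by simp
    simp only [h2] at h1
    exact h1.ennreal_ofReal
  set J : ℕ → ℕ → ℝ → ℝ≥0∞ := fun R k E => ∫⁻ ω, X R k (ω, E) ∂P with hJ
  have hJm : ∀ R k, Measurable (J R k) := fun R k => (hXm R k).lintegral_prod_left'
  have hJle : ∀ R k E, J R k E ≤ ENNReal.ofReal (1 / γ) := by
    intro R k E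
    have h1 := mean_le hγ hs x (hz_im E (hη k)) R
    have h2 : ((E : ℂ) + η k * I).im = η k := by simp
    rw [h2] at h1
    exact h1
  set L : ℕ → ℝ → ℝ≥0∞ := fun R E => limsup (fun k => J R k E) atTop with hL
  have hLm : ∀ R, Measurable (L R) := fun R => Measurable.limsup (hJm R)
  have hLle : ∀ R E, L R E ≤ ENNReal.ofReal (1 / γ) := fun R E =>
    limsup_le_of_le (by isBoundedDefault) (Eventually.of_forall fun k => hJle R k E)
  have hL0 : ∀ᵐ E ∂W, Tendsto (fun R => L R E) atTop (𝓝 0) := by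
    have hTS' : ∀ᵐ E ∂W, TS P V x E := ae_restrict_of_ae hTS
    filter_upwards [hTS'] with E hTSE
    rw [ENNReal.tendsto_nhds_zero]
    intro ε hε
    by_cases hεt : ε = ∞
    · exact Eventually.of_forall fun R => by rw [hεt]; exact le_top
    have hε' : 0 < ε.toReal := ENNReal.toReal_pos hε.ne' hεt
    obtain ⟨R₀, η₀, hη₀, H⟩ := hTSE _ hε'
    filter_upwards [eventually_ge_atTop R₀] with R hR
    refine limsup_le_of_le (by isBoundedDefault) ?_
    filter_upwards [hη0.eventually (gt_mem_nhds hη₀)] with k hk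
    have := H R hR (η k) (hη k) hk.le
    rwa [ENNReal.ofReal_toReal hεt] at this
  have hb : Tendsto (fun R => ∫⁻ E, L R E ∂W) atTop (𝓝 0) := by
    have h0 : ∫⁻ E, (0 : ℝ≥0∞) ∂W = 0 := lintegral_zero
    rw [← h0]
    refine tendsto_lintegral_of_dominated_convergence (fun _ => ENNReal.ofReal (1 / γ)) hLm
      (fun R => ae_of_all _ fun E => hLle R E) ?_ hL0
    rw [lintegral_const]
    exact ENNReal.mul_ne_top ENNReal.ofReal_ne_top (measure_ne_top _ _)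
  set Y : ℕ → Ω → ℝ≥0∞ := fun R ω => liminf (fun k => ∫⁻ E, X R k (ω, E) ∂W) atTop with hY
  have hIm : ∀ R k, Measurable fun ω => ∫⁻ E, X R k (ω, E) ∂W := fun R k =>
    (hXm R k).lintegral_prod_right'
  have hYm : ∀ R, Measurable (Y R) := fun R => Measurable.liminf (hIm R)
  have hYle : ∀ R, ∫⁻ ω, Y R ω ∂P ≤ ∫⁻ E, L R E ∂W := by
    intro R
    have h1 : ∫⁻ ω, Y R ω ∂P ≤ liminf (fun k => ∫⁻ ω, ∫⁻ E, X R k (ω, E) ∂W ∂P) atTop :=
      lintegral_liminf_le (hIm R)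
    have h2 : ∀ k, ∫⁻ ω, ∫⁻ E, X R k (ω, E) ∂W ∂P = ∫⁻ E, J R k E ∂W := by
      intro k
      rw [lintegral_lintegral_swap (hXm R k).aemeasurable]
    simp only [h2] at h1
    refine h1.trans ?_
    refine (liminf_le_limsup (by isBoundedDefault) (by isBoundedDefault)).trans ?_
    refine limsup_lintegral_le (fun _ => ENNReal.ofReal (1 / γ)) (hJm R)
      (fun k => ae_of_all _ fun E => hJle R k E) ?_
    rw [lintegral_const]
    exact ENNReal.mul_ne_top ENNReal.ofReal_ne_top (measure_ne_top _ _)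
  have hZ : ∫⁻ ω, ⨅ R, Y R ω ∂P = 0 := by
    refine le_antisymm ?_ bot_le
    refine ge_of_tendsto' hb fun R => ?_
    exact (lintegral_mono fun ω => iInf_le _ R).trans (hYle R)
  have hZ0 : ∀ᵐ ω ∂P, ⨅ R, Y R ω = 0 := (lintegral_eq_zero_iff (Measurable.iInf hYm)).1 hZ
  filter_upwards [hZ0] with ω hω ε hε
  have h1 : ⨅ R, Y R ω < ENNReal.ofReal ε := by
    rw [hω]
    simpa using hε
  obtain ⟨R, hR⟩ := iInf_lt_iff.1 h1
  refine ⟨R, ?_⟩
  have h2 : ∃ᶠ k in atTop, ∫⁻ E, X R k (ω, E) ∂W < ENNReal.ofReal ε :=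
    frequently_lt_of_liminf_lt (by isBoundedDefault) hR
  exact h2.mono fun k hk => hk.le

theorem pure_point_ae (hγ : 0 < γ) (hs : BSetup P V γ)
    (hTS : ∀ x : Site, ∀ᵐ E : ℝ, TS P V x E) :
    ∀ᵐ ω ∂P, EE (pot V ω) = ⊤ := by
  set η : ℕ → ℝ := fun k => 1 / ((k : ℝ) + 1) with hηdef
  have hη : ∀ k, 0 < η k := fun k => by simp only [hηdef]; positivity
  have hη1 : ∀ k, η k ≤ 1 := by
    intro k
    simp only [hηdef]
    rw [div_le_one (by positivity)]
    have : (0 : ℝ) ≤ k := Nat.cast_nonneg k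
    linarith
  have hη0 : Tendsto η atTop (𝓝 0) := tendsto_one_div_add_atTop_nhds_zero_nat
  have h1 : ∀ᵐ ω ∂P, ∀ x : Site, ∀ N : ℕ, ∀ ε : ℝ, 0 < ε → ∃ R : ℕ, ∃ᶠ k in atTop,
      ∫⁻ E in {E : ℝ | |E| ≤ (N : ℝ)},
        ENNReal.ofReal (η k * tail (ball x R) (Res (pot V ω) (E + η k * I) (dl x))) ≤
          ENNReal.ofReal ε := by
    rw [ae_all_iff]
    intro x
    rw [ae_all_iff]
    intro N
    exact ae_window_ae hγ hs x (hTS x) N η hη hη0
  filter_upwards [h1] with ω hω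
  exact EE_eq_top' _ η hη hη1 hη0 hω


/-- the resolvent away from the spectrum -/
theorem res_out {V : Site → ℝ} {lam : ℝ} (hlam : 0 ≤ lam) (hV : ∀ y, |V y| ≤ lam) {E η : ℝ}
    (hη : 0 < η) (hE : 4 + lam < |E|) (x : Site) :
    ‖Res V (E + η * I) (dl x)‖ ^ 2 ≤
      2 * (1 + 32 / ((|E| - lam) ^ 2 - 16)) / ((|E| - lam) ^ 2 - 16) := by
  set a : ℝ := |E| - lam with ha
  have ha4 : 4 < a := by linarith
  have ha16 : 0 < a ^ 2 - 16 := by nlinarith
  set u : L2 := Res V (E + η * I) (dl x) with hu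
  have hz : 0 < ((E : ℂ) + η * I).im := hz_im E hη
  have hsp := res_spec V hz (dl x)
  rw [← hu] at hsp
  set ε : ℝ := (a ^ 2 - 16) / 32 with hε
  have hε0 : 0 < ε := by positivity
  have hpt : ∀ y, a ^ 2 * ‖u y‖ ^ 2 ≤ (1 + ε) * ‖hop (fun y => u y) y‖ ^ 2 +
      (1 + 1 / ε) * ‖(dl x : L2) y‖ ^ 2 := by
    intro y
    have h1 := hsp y
    have h2 : ((E : ℂ) + η * I - (V y : ℂ)) * u y = hop (fun y => u y) y - (dl x : L2) y := by
      rw [← h1]
      ring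
    have h3 : a ≤ ‖(E : ℂ) + η * I - (V y : ℂ)‖ := by
      have h4 : |((E : ℂ) + η * I - (V y : ℂ)).re| ≤ ‖(E : ℂ) + η * I - (V y : ℂ)‖ :=
        Complex.abs_re_le_norm _
      have h5 : ((E : ℂ) + η * I - (V y : ℂ)).re = E - V y := by simp
      rw [h5] at h4
      have h6 : |E| - |V y| ≤ |E - V y| := abs_sub_abs_le_abs_sub _ _
      have := hV y
      linarith
    have h4 : a * ‖u y‖ ≤ ‖hop (fun y => u y) y‖ + ‖(dl x : L2) y‖ := by
      calc a * ‖u y‖ ≤ ‖(E : ℂ) + η * I - (V y : ℂ)‖ * ‖u y‖ :=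
            mul_le_mul_of_nonneg_right h3 (norm_nonneg _)
        _ = ‖hop (fun y => u y) y - (dl x : L2) y‖ := by rw [← norm_mul, h2]
        _ ≤ _ := norm_sub_le _ _
    obtain ⟨p, hp⟩ : ∃ p, p = ‖hop (fun y => u y) y‖ := ⟨_, rfl⟩
    obtain ⟨q, hq⟩ : ∃ q, q = ‖(dl x : L2) y‖ := ⟨_, rfl⟩
    obtain ⟨r, hr⟩ : ∃ r, r = ‖u y‖ := ⟨_, rfl⟩
    rw [← hp, ← hq, ← hr] at h4 ⊢
    have hp0 : 0 ≤ p := hp ▸ norm_nonneg _
    have hq0 : 0 ≤ q := hq ▸ norm_nonneg _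
    have hr0 : 0 ≤ r := hr ▸ norm_nonneg _
    have h5 : (a * r) ^ 2 ≤ (p + q) ^ 2 := by
      have : 0 ≤ a * r := by positivity
      gcongr
    have h6 : 2 * p * q ≤ ε * p ^ 2 + 1 / ε * q ^ 2 := by
      have h7 : 0 ≤ (ε * p - q) ^ 2 / ε := by positivity
      have h8 : (ε * p - q) ^ 2 / ε = ε * p ^ 2 + 1 / ε * q ^ 2 - 2 * p * q := by
        field_simp
        ring
      linarith
    nlinarith
  have hF : ∀ F : Finset Site, a ^ 2 * ∑ y ∈ F, ‖u y‖ ^ 2 ≤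
      (1 + ε) * (16 * ‖u‖ ^ 2) + (1 + 1 / ε) := by
    intro F
    rw [Finset.mul_sum]
    refine (Finset.sum_le_sum fun y _ => hpt y).trans ?_
    rw [Finset.sum_add_distrib, ← Finset.mul_sum, ← Finset.mul_sum]
    have h1 := sum_hop_sq (w := fun y => u y) (T := ‖u‖ ^ 2) (fun F => sum_sq_le u F) F
    have h2 : ∑ y ∈ F, ‖(dl x : L2) y‖ ^ 2 ≤ 1 := by
      refine (sum_sq_le (dl x) F).trans (le_of_eq ?_)
      unfold dl
      rw [lp.norm_single (by norm_num)]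
      simp
    have h3 : (1 + ε) * ∑ y ∈ F, ‖hop (fun y => u y) y‖ ^ 2 ≤ (1 + ε) * (16 * ‖u‖ ^ 2) :=
      mul_le_mul_of_nonneg_left h1 (by positivity)
    have h4 : (1 + 1 / ε) * ∑ y ∈ F, ‖(dl x : L2) y‖ ^ 2 ≤ (1 + 1 / ε) * 1 :=
      mul_le_mul_of_nonneg_left h2 (by positivity)
    linarith
  have hlim : a ^ 2 * ‖u‖ ^ 2 ≤ (1 + ε) * (16 * ‖u‖ ^ 2) + (1 + 1 / ε) := by
    have h1 : Tendsto (fun F : Finset Site => a ^ 2 * ∑ y ∈ F, ‖u y‖ ^ 2) atTop
        (𝓝 (a ^ 2 * ‖u‖ ^ 2)) := (L2_hasSum_sq u).const_mul _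
    exact le_of_tendsto' h1 hF
  have h5 : (a ^ 2 - 16) / 2 * ‖u‖ ^ 2 ≤ 1 + 32 / (a ^ 2 - 16) := by
    have h6 : 1 + 1 / ε = 1 + 32 / (a ^ 2 - 16) := by
      rw [hε]
      field_simp
    rw [h6] at hlim
    have h7 : (1 + ε) * (16 * ‖u‖ ^ 2) = (a ^ 2 + 16) / 2 * ‖u‖ ^ 2 := by
      rw [hε]
      ring
    rw [h7] at hlim
    linarith
  rw [le_div_iff₀ ha16]
  linarith

/-- energies away from the spectrum -/
theorem TS_out {lam : ℝ} (hlam : 0 ≤ lam) (hV : ∀ᵐ ω ∂P, ∀ y, |pot V ω y| ≤ lam) {E : ℝ}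
    (hE : 4 + lam < |E|) (x : Site) : TS P V x E := by
  intro ε hε
  set K : ℝ := 2 * (1 + 32 / ((|E| - lam) ^ 2 - 16)) / ((|E| - lam) ^ 2 - 16) with hK
  have ha16 : 0 < (|E| - lam) ^ 2 - 16 := by nlinarith
  have hK0 : 0 < K := by positivity
  refine ⟨0, ε / K, by positivity, fun R _ η hη hη1 => ?_⟩
  have h1 : ∀ᵐ ω ∂P, ENNReal.ofReal (η * tail (ball x R) (Res (pot V ω) (E + η * I) (dl x))) ≤
      ENNReal.ofReal ε := by
    filter_upwards [hV] with ω hω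
    refine ENNReal.ofReal_le_ofReal ?_
    have h2 := res_out hlam hω hη hE x
    rw [← hK] at h2
    have h3 : tail (ball x R) (Res (pot V ω) (E + η * I) (dl x)) ≤
        ‖Res (pot V ω) (E + η * I) (dl x)‖ ^ 2 :=
      sub_le_self _ (Finset.sum_nonneg fun _ _ => sq_nonneg _)
    calc η * tail (ball x R) (Res (pot V ω) (E + η * I) (dl x)) ≤ (ε / K) * K :=
          mul_le_mul hη1 (h3.trans h2) (tail_nonneg _ _) (by positivity)
      _ = ε := by field_simp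
  refine (lintegral_mono_ae h1).trans ?_
  rw [lintegral_const, measure_univ, mul_one]

end P365L.InfB

namespace P365CU

open MeasureTheory ProbabilityTheory Complex Matrix Function P365S6
open P365L P365L.Comp P365X
open scoped ENNReal Real

/-- the number of scales needed at the starting scale `m₀` -/
theorem exists_scales {lam c p : ℝ} (hlam : 0 < lam) (hc : 0 < c) (hp : 0 < p) (hp4 : p < 1 / 4) :
    ∃ θ₀ : ℝ, 0 < θ₀ ∧ ∃ M₁ : ℕ, ∃ n : ℕ → ℕ, ∀ m₀ ≥ M₁, ∀ E : ℝ,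
      (∀ j < n m₀, SmallT lam c p θ₀ E (4 ^ j * m₀)) → P365L.InfB.FMboxR (scl lam uni) E := by
  obtain ⟨θ₀, h0, M₁, H⟩ := comp_main hlam hc hp hp4
  refine ⟨θ₀, h0, M₁, fun m => if h : M₁ ≤ m then (H m h).choose else 0, fun m₀ hm₀ E hs => ?_⟩
  have hm₀' : M₁ ≤ m₀ := hm₀
  simp only [dif_pos hm₀'] at hs
  exact (H m₀ hm₀).choose_spec E hs

/-- **PURE POINT SPECTRUM FOR THE EXACT UNIFORM LAW, from smallness of the crossing quantity at all
large scales, at almost every energy of `(-4-λ, 4+λ)`.** -/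
theorem pure_main_ae {lam c p : ℝ} (hlam : 0 < lam) (hc : 0 < c) (hp : 0 < p) (hp4 : p < 1 / 4)
    (hS : ∀ θ : ℝ, 0 < θ → ∀ᵐ E : ℝ, |E| < 4 + lam →
      ∃ M : ℕ, ∀ m ≥ M, SmallT lam c p θ E m)
    {Ω : Type*} [MeasurableSpace Ω] (P : Measure Ω) [IsProbabilityMeasure P]
    (V : Site → Ω → ℝ) (hV : ∀ x, Measurable (V x)) (hi : iIndepFun V P)
    (hl : ∀ x, P.map (V x) = scl lam uni) : ∀ᵐ ω ∂P, Inf.EE (fun x => V x ω) = ⊤ := by
  obtain ⟨θ₀, h0, M₁, n, H⟩ := exists_scales hlam hc hp hp4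
  have hK : 0 < 1 / 2 * |lam⁻¹| := by
    have := hlam.ne'
    positivity
  have hγ : 0 < 1 / (Real.pi * (1 / 2 * |lam⁻¹|)) := by
    have := Real.pi_pos
    positivity
  have hs : P365L.InfB.BSetup P V (1 / (Real.pi * (1 / 2 * |lam⁻¹|))) := by
    refine ⟨hV, hi, fun x => ?_⟩
    rw [hl x]
    have h1 : 1 / (Real.pi * (1 / (Real.pi * (1 / 2 * |lam⁻¹|)))) = 1 / 2 * |lam⁻¹| := by
      have := Real.pi_pos.ne'
      have := hK.ne'
      field_simp
    rw [h1]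
    exact scl_le hlam
  haveI : IsProbabilityMeasure (scl lam uni) := by
    rw [← hl (0, 0)]
    exact Measure.isProbabilityMeasure_map (hV _).aemeasurable
  have hbd : ∀ᵐ ω ∂P, ∀ y, |P365L.InfB.pot V ω y| ≤ lam := by
    rw [ae_all_iff]
    intro y
    have h1 : ∀ᵐ v ∂(P.map (V y)), |v| ≤ lam := by
      rw [hl y]
      unfold scl
      rw [ae_map_iff (f := fun u : ℝ => lam * u) (by fun_prop)
        (measurableSet_le (f := fun v : ℝ => |v|) (by fun_prop) measurable_const)]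
      have h2 : ∀ᵐ v ∂uni, v ∈ Set.Icc (-1 : ℝ) 1 := by
        unfold uni
        exact Measure.ae_smul_measure (ae_restrict_mem measurableSet_Icc) _
      filter_upwards [h2] with v hv
      rw [abs_mul, abs_of_pos hlam]
      have := abs_le.2 ⟨hv.1, hv.2⟩
      nlinarith
    exact ae_of_ae_map (hV y).aemeasurable h1
  refine P365L.InfB.pure_point_ae hγ hs fun x => ?_
  have hb : ∀ᵐ E : ℝ, E ≠ 4 + lam := by
    rw [ae_iff]
    simp
  have hb' : ∀ᵐ E : ℝ, E ≠ -(4 + lam) := by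
    rw [ae_iff]
    simp
  filter_upwards [hS θ₀ h0, hb, hb'] with E hE h1 h2
  rcases lt_trichotomy |E| (4 + lam) with h | h | h
  · obtain ⟨M, hM⟩ := hE h
    have hF : P365L.InfB.FMboxR (scl lam uni) E :=
      H (max M M₁) (le_max_right _ _) E fun j _ => hM _ (by
        refine (le_max_left M M₁).trans ?_
        exact Nat.le_mul_of_pos_left _ (by positivity))
    intro ε hε
    exact P365L.InfB.tail_small hγ hs x E (P365L.InfB.FM_of_box hV hi hl hF x) hε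
  · rcases eq_or_eq_neg_of_abs_eq h with h3 | h3
    · exact absurd h3 h1
    · exact absurd h3 h2
  · exact P365L.InfB.TS_out hlam.le hbd h x

end P365CU
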