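import Vale.Agent.P365.CU.Moeb
import Vale.Agent.P365.S6.Main

set_option linter.all false

/-!
# P365 / CU / Ring: scaling, and the one-phase bound for the Möbius motion of a ring.
-/

namespace P365CU

open MeasureTheory ProbabilityTheory Complex Matrix Function P365S6
open P365L P365L.Comp P365X
open scoped ENNReal Real

variable {ι : Type*} [Fintype ι] [DecidableEq ι] {A : Matrix ι ι ℝ} {W : ι → ℂ} {d : ι → ℝ}

/-! ### scaling -/

/-- scaled hopping -/
noncomputable def scA {ι : Type*} (d : ι → ℝ) (A : Matrix ι ι ℝ) : Matrix ι ι ℝ :=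
  fun x y => A x y / (d x * d y)

/-- scaled potential -/
noncomputable def scW {ι : Type*} (d : ι → ℝ) (W : ι → ℂ) : ι → ℂ := fun x => W x / ((d x ^ 2 : ℝ) : ℂ)

omit [Fintype ι] [DecidableEq ι] in
theorem scA_symm (hA : A.IsSymm) : (scA d A).IsSymm := by
  ext x y
  rw [Matrix.transpose_apply]
  unfold scA
  rw [hA.apply, mul_comm (d y)]

omit [Fintype ι] [DecidableEq ι] in
theorem scW_im (x : ι) : (scW d W x).im = (W x).im / d x ^ 2 := by
  unfold scW
  rw [Complex.div_ofReal_im]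

omit [Fintype ι] [DecidableEq ι] in
theorem scW_neg (hd : ∀ x, 0 < d x) (hW : ∀ x, (W x).im < 0) (x : ι) : (scW d W x).im < 0 := by
  rw [scW_im]
  exact div_neg_of_neg_of_pos (hW x) (by have := hd x; positivity)

theorem Gr_sc (hA : A.IsSymm) (hW : ∀ x, (W x).im < 0) (hd : ∀ x, 0 < d x) (a b : ι) :
    Gr (scA d A) (scW d W) a b = d a * Gr A W a b * d b := by
  have hd' : ∀ x, (d x : ℂ) ≠ 0 := fun x => ofReal_ne_zero.2 (hd x).ne'
  have h1 : Kmat (scA d A) (scW d W) *
      (Matrix.of fun a b => (d a : ℂ) * Gr A W a b * d b : Matrix ι ι ℂ) = 1 := by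
    ext x b
    rw [Matrix.mul_apply]
    have h2 := congrFun (congrFun (Kmat_mul_Gr hA hW) x) b
    rw [Matrix.mul_apply] at h2
    have h3 : ∀ y, Kmat (scA d A) (scW d W) x y * ((d y : ℂ) * Gr A W y b * d b) =
        (d b / d x : ℂ) * (Kmat A W x y * Gr A W y b) := by
      intro y
      have h4 : Kmat (scA d A) (scW d W) x y = Kmat A W x y / (d x * d y) := by
        unfold Kmat
        rw [Matrix.add_apply, Matrix.add_apply, Matrix.map_apply, Matrix.map_apply]
        unfold scA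
        by_cases hxy : x = y
        · subst hxy
          rw [Matrix.diagonal_apply_eq, Matrix.diagonal_apply_eq]
          unfold scW
          push_cast
          rw [add_div, sq]
        · rw [Matrix.diagonal_apply_ne _ hxy, Matrix.diagonal_apply_ne _ hxy]
          push_cast
          rw [add_zero, add_zero]
      rw [h4]
      have := hd' x
      have := hd' y
      field_simp
    simp only [Matrix.of_apply]
    rw [Finset.sum_congr rfl fun y _ => h3 y, ← Finset.mul_sum, h2]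
    by_cases hxb : x = b
    · subst hxb
      rw [Matrix.one_apply_eq, mul_one, div_self (hd' x)]
    · rw [Matrix.one_apply_ne hxb, mul_zero]
  have h5 := Matrix.inv_eq_right_inv h1
  unfold Gr at h5 ⊢
  rw [h5]
  rfl

/-! ### the base point -/

/-- real part of the base point `mo (-iκ) v` -/
noncomputable def aa (κ v : ℝ) : ℝ := v * (1 + κ ^ 2) / (1 + κ ^ 2 * v ^ 2)

/-- minus the imaginary part of the base point (positive part, to be harmless for `|v| > 1`) -/
noncomputable def EE (κ v : ℝ) : ℝ := max 0 (κ * (1 - v ^ 2) / (1 + κ ^ 2 * v ^ 2))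

theorem EE_nonneg (κ v : ℝ) : 0 ≤ EE κ v := le_max_left _ _

theorem EE_eq {κ v : ℝ} (hκ : 0 ≤ κ) (hv : |v| ≤ 1) :
    EE κ v = κ * (1 - v ^ 2) / (1 + κ ^ 2 * v ^ 2) := by
  have h1 : v ^ 2 ≤ 1 := (sq_le_one_iff_abs_le_one v).2 hv
  unfold EE
  refine max_eq_right ?_
  have : 0 ≤ 1 - v ^ 2 := by linarith
  positivity

theorem EE_pos {κ v : ℝ} (hκ : 0 < κ) (hv : |v| < 1) : 0 < EE κ v := by
  have h1 : v ^ 2 < 1 := (sq_lt_one_iff_abs_lt_one v).2 hv
  rw [EE_eq hκ.le hv.le]
  have : 0 < 1 - v ^ 2 := by linarith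
  positivity

theorem measurable_aa (κ : ℝ) : Measurable (aa κ) := by
  unfold aa
  fun_prop

theorem measurable_EE (κ : ℝ) : Measurable (EE κ) := by
  unfold EE
  fun_prop

theorem arctan_lt_quarter {x : ℝ} (hx : |x| < 1) : |Real.arctan x| < π / 4 := by
  rw [abs_lt] at hx ⊢
  constructor
  · rw [← Real.arctan_one, ← Real.arctan_neg]
    exact Real.arctan_strictMono hx.1
  · rw [← Real.arctan_one]
    exact Real.arctan_strictMono hx.2

/-- the motion in terms of the rotation of the Cayley phase -/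
theorem mo_eq {κ t v : ℝ} (hκ : 0 < κ) (hκ1 : κ < 1) (ht : |t| < κ) (hv : |v| < 1) :
    mo t v = aa κ v + EE κ v * rot (-2 * Real.arctan (t / κ)) (-(κ * v)) := by
  have h1 : |(-(κ * v))| < 1 := by
    rw [abs_neg, abs_mul, abs_of_pos hκ]
    nlinarith [abs_nonneg v]
  have h2 : |t / κ| < 1 := by
    rw [abs_div, abs_of_pos hκ, div_lt_one hκ]
    exact ht
  have h3 := arctan_lt_quarter h1
  have h4 := arctan_lt_quarter h2
  rw [abs_lt] at h3 h4
  have h5 : rot (-2 * Real.arctan (t / κ)) (-(κ * v)) =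
      (-(κ * v) + t / κ) / (1 - -(κ * v) * (t / κ)) := by
    unfold rot
    rw [show Real.arctan (-(κ * v)) - -2 * Real.arctan (t / κ) / 2 =
      Real.arctan (-(κ * v)) + Real.arctan (t / κ) by ring]
    rw [Real.tan_add', Real.tan_arctan, Real.tan_arctan]
    constructor
    · intro k hk
      have := (Real.cos_eq_zero_iff.2 ⟨k, hk⟩)
      exact (Real.cos_arctan_pos _).ne' this
    · intro k hk
      have := (Real.cos_eq_zero_iff.2 ⟨k, hk⟩)
      exact (Real.cos_arctan_pos _).ne' this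
  rw [h5]
  have ht1 : |t| < 1 := ht.trans hκ1
  have h6 : 0 < 1 + t * v := den_pos ht1 hv.le
  have h7 : 1 - -(κ * v) * (t / κ) = 1 + t * v := by
    field_simp
    ring
  rw [h7]
  obtain ⟨q, hq⟩ : ∃ q, q = 1 + t * v := ⟨_, rfl⟩
  rw [EE_eq hκ.le hv.le]
  unfold mo aa
  rw [← hq] at h6 ⊢
  have h8 : q ≠ 0 := h6.ne'
  have h9 : (1 + κ ^ 2 * v ^ 2 : ℝ) ≠ 0 := by positivity
  have h10 : -(κ * v) + t / κ = (t - κ ^ 2 * v) / κ := by
    field_simp
    ring
  rw [h10]
  have e : v * (1 + κ ^ 2) / (1 + κ ^ 2 * v ^ 2) +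
      κ * (1 - v ^ 2) / (1 + κ ^ 2 * v ^ 2) * ((t - κ ^ 2 * v) / κ / q) =
      (v * (1 + κ ^ 2) * q + (1 - v ^ 2) * (t - κ ^ 2 * v)) / ((1 + κ ^ 2 * v ^ 2) * q) := by
    field_simp
  rw [e, div_eq_div_iff h8 (by positivity), hq]
  ring

/-! ### averaging over the parameter -/

theorem int_le_circle {κ : ℝ} (hκ : 0 < κ) {h : ℝ → ℝ} {H : ℂ → ℝ}
    (hH : ContinuousOn H (Metric.sphere 0 1)) (h0 : ∀ z, 0 ≤ H z)
    (e : ∀ t ∈ Set.Ioo (-κ) κ, h t = H (circleMap 0 1 (-2 * Real.arctan (t / κ)))) :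
    ∫⁻ t in Set.Ioo (-κ) κ, ENNReal.ofReal (h t) ≤
      ENNReal.ofReal (2 * π * κ * Real.circleAverage H 0 1) := by
  have hπ := Real.pi_pos
  obtain ⟨g, hg⟩ : ∃ g : ℝ → ℝ, g = fun θ => H (circleMap 0 1 θ) := ⟨_, rfl⟩
  have hgc : Continuous g := by
    rw [hg]
    refine hH.comp_continuous (continuous_circleMap 0 1) fun θ => ?_
    exact circleMap_mem_sphere 0 zero_le_one θ
  have hg0 : ∀ θ, 0 ≤ g θ := fun θ => by
    rw [hg]
    exact h0 _
  have hgp : Function.Periodic g (2 * π) := by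
    intro θ
    rw [hg]
    simp only
    rw [periodic_circleMap 0 1 θ]
  have e' : ∀ t ∈ Set.Ioo (-κ) κ, ENNReal.ofReal (h t) =
      ENNReal.ofReal (g (-2 * Real.arctan (t / κ))) := by
    intro t ht
    rw [e t ht, hg]
  rw [setLIntegral_congr_fun measurableSet_Ioo e']
  have hfc : Continuous fun t => g (-2 * Real.arctan (t / κ)) := by
    refine hgc.comp ?_
    fun_prop
  rw [← ofReal_integral_eq_lintegral_ofReal]
  rotate_left
  · exact (hfc.integrableOn_Icc).mono_set Set.Ioo_subset_Icc_self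
  · exact Filter.Eventually.of_forall fun t => hg0 _
  refine ENNReal.ofReal_le_ofReal ?_
  rw [← integral_Ioc_eq_integral_Ioo, ← intervalIntegral.integral_of_le (by linarith)]
  have h1 : ∫ t in (-κ)..κ, g (-2 * Real.arctan (t / κ)) =
      ∫ ψ in (-(π / 4))..(π / 4), g (-2 * ψ) * (κ * (1 / Real.cos ψ ^ 2)) := by
    have h2 := intervalIntegral.integral_comp_mul_deriv (a := -(π / 4)) (b := π / 4)
      (f := fun ψ => κ * Real.tan ψ) (f' := fun ψ => κ * (1 / Real.cos ψ ^ 2))
      (g := fun t => g (-2 * Real.arctan (t / κ))) (fun x hx => by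
        rw [Set.uIcc_of_le (by linarith)] at hx
        refine (Real.hasDerivAt_tan ?_).const_mul κ
        refine (Real.cos_pos_of_mem_Ioo ⟨by linarith [hx.1], by linarith [hx.2]⟩).ne') (by
        refine ContinuousOn.mul continuousOn_const (ContinuousOn.div continuousOn_const
          (Real.continuous_cos.continuousOn.pow 2) fun x hx => ?_)
        rw [Set.uIcc_of_le (by linarith)] at hx
        exact pow_ne_zero 2
          (Real.cos_pos_of_mem_Ioo ⟨by linarith [hx.1], by linarith [hx.2]⟩).ne') hfc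
    simp only [Real.tan_neg, Real.tan_pi_div_four, mul_neg, mul_one, Function.comp] at h2
    rw [← h2]
    refine intervalIntegral.integral_congr fun ψ hψ => ?_
    rw [Set.uIcc_of_le (by linarith)] at hψ
    show g (-2 * Real.arctan (κ * Real.tan ψ / κ)) * _ = g (-2 * ψ) * _
    rw [mul_div_cancel_left₀ _ hκ.ne', Real.arctan_tan (by linarith [hψ.1]) (by linarith [hψ.2])]
  rw [h1]
  have hint2 : IntervalIntegrable (fun ψ => g (-2 * ψ) * (2 * κ)) volume (-(π / 4)) (π / 4) := by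
    refine Continuous.intervalIntegrable ?_ _ _
    exact (hgc.comp (by fun_prop)).mul_const _
  have hcont1 : ContinuousOn (fun ψ => g (-2 * ψ) * (κ * (1 / Real.cos ψ ^ 2)))
      (Set.uIcc (-(π / 4)) (π / 4)) := by
    refine ContinuousOn.mul (hgc.comp (by fun_prop)).continuousOn ?_
    refine ContinuousOn.mul continuousOn_const (ContinuousOn.div continuousOn_const
      (Real.continuous_cos.continuousOn.pow 2) fun x hx => ?_)
    rw [Set.uIcc_of_le (by linarith)] at hx
    exact pow_ne_zero 2 (Real.cos_pos_of_mem_Ioo ⟨by linarith [hx.1], by linarith [hx.2]⟩).ne'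
  have h3 : ∫ ψ in (-(π / 4))..(π / 4), g (-2 * ψ) * (κ * (1 / Real.cos ψ ^ 2)) ≤
      ∫ ψ in (-(π / 4))..(π / 4), g (-2 * ψ) * (2 * κ) := by
    refine intervalIntegral.integral_mono_on (by linarith) hcont1.intervalIntegrable hint2
      fun ψ hψ => ?_
    refine mul_le_mul_of_nonneg_left ?_ (hg0 _)
    have h4 : 1 / 2 ≤ Real.cos ψ ^ 2 := by
      rw [Real.cos_sq]
      have h5 : 0 ≤ Real.cos (2 * ψ) := Real.cos_nonneg_of_mem_Icc
        ⟨by linarith [hψ.1], by linarith [hψ.2]⟩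
      linarith
    have h6 : 1 / Real.cos ψ ^ 2 ≤ 2 := by
      rw [div_le_iff₀ (by linarith)]
      linarith
    nlinarith
  refine h3.trans ?_
  rw [intervalIntegral.integral_mul_const,
    intervalIntegral.integral_comp_mul_left (fun θ => g θ) (by norm_num : (-2 : ℝ) ≠ 0)]
  have h7 : -2 * (π / 4) = -(π / 2) := by ring
  have h8 : -2 * -(π / 4) = π / 2 := by ring
  rw [h7, h8, smul_eq_mul, intervalIntegral.integral_symm (-(π / 2)) (π / 2)]
  have h9 : ∫ θ in (-(π / 2))..(π / 2), g θ ≤ ∫ θ in (-π)..π, g θ := by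
    refine intervalIntegral.integral_mono_interval (by linarith) (by linarith) (by linarith)
      (Filter.Eventually.of_forall fun θ => hg0 θ) (hgc.intervalIntegrable _ _)
  have h10 : ∫ θ in (-π)..π, g θ = ∫ θ in (0 : ℝ)..(2 * π), g θ := by
    have := hgp.intervalIntegral_add_eq (-π) 0
    rw [show -π + 2 * π = π by ring, zero_add] at this
    exact this
  have h11 : 2 * π * κ * Real.circleAverage H 0 1 = κ * ∫ θ in (0 : ℝ)..(2 * π), g θ := by
    rw [Real.circleAverage_def, smul_eq_mul, hg]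
    field_simp
  rw [h11, ← h10]
  nlinarith

/-! ### the one-phase bound -/

/-- potential at the real parameter `t` on `Y`, background `W0` off `Y` -/
noncomputable def Wt (Y : Finset ι) (lam : ℝ) (ζ : ℂ) (W0 : ι → ℂ) (v : ι → ℝ) (t : ℝ) : ι → ℂ :=
  fun x => if x ∈ Y then (lam * mo t (v x) : ℝ) - ζ else W0 x

/-- potential at the base point on `Y` -/
noncomputable def Wz (Y : Finset ι) (lam : ℝ) (ζ : ℂ) (W0 : ι → ℂ) (v : ι → ℝ) (κ : ℝ) : ι → ℂ :=
  fun x => if x ∈ Y then (lam * aa κ (v x) : ℝ) - ((lam * EE κ (v x) : ℝ) : ℂ) * I - ζ else W0 x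

theorem exists_eta {W : ι → ℂ} (hW : ∀ x, (W x).im < 0) : ∃ η : ℝ, 0 < η ∧ ∀ x, (W x).im ≤ -η := by
  rcases isEmpty_or_nonempty ι with h | h
  · exact ⟨1, one_pos, fun x => (h.false x).elim⟩
  · obtain ⟨x0, hx0⟩ := Finite.exists_max fun x => (W x).im
    exact ⟨-(W x0).im, by linarith [hW x0], fun x => by linarith [hx0 x]⟩

/-- `bl` of the Green matrix, closing the ring `Y` by the common Möbius parameter -/
theorem ring_circle (hA : A.IsSymm) {lam κ p : ℝ} (hlam : 0 < lam) (hκ : 0 < κ) (hκ1 : κ < 1)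
    {ζ : ℂ} (hζ : 0 < ζ.im) (hp : 0 < p) (hp1 : p < 1) (Y S B : Finset ι) {W0 : ι → ℂ}
    (hW0 : ∀ x, (W0 x).im < 0) {v : ι → ℝ} (hv : ∀ x, |v x| < 1) (hd : ∀ x, 0 < d x)
    (hdY : ∀ x ∈ Y, d x ^ 2 = lam * EE κ (v x)) :
    ∫⁻ t in Set.Ioo (-κ) κ, ENNReal.ofReal
        (bl S B (Gr (scA d A) (scW d (Wt Y lam ζ W0 v t))) ^ (p / 2)) ≤
      ENNReal.ofReal (2 * π * κ *
        (bl S B (Gr (scA d A) (scW d (Wz Y lam ζ W0 v κ))) ^ (p / 2) + CK p * 2 ^ p *
          bl S Y (Gr (scA d A) (scW d (Wz Y lam ζ W0 v κ))) ^ (p / 2) *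
          bl Y B (Gr (scA d A) (scW d (Wz Y lam ζ W0 v κ))) ^ (p / 2))) := by
  obtain ⟨W', hW'⟩ : ∃ W' : ι → ℂ, W' = scW d fun x =>
      if x ∈ Y then ((lam * aa κ (v x) : ℝ) : ℂ) - ζ else W0 x := ⟨_, rfl⟩
  have hW'n : ∀ x, (W' x).im < 0 := by
    intro x
    rw [hW']
    refine scW_neg hd (fun x => ?_) x
    by_cases hx : x ∈ Y
    · simp only [if_pos hx]
      rw [Complex.sub_im, Complex.ofReal_im]
      linarith
    · simp only [if_neg hx]
      exact hW0 x
  obtain ⟨η, hη, hηW⟩ := exists_eta hW'n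
  have hsA := scA_symm (d := d) hA
  have hdc : ∀ x, ((d x ^ 2 : ℝ) : ℂ) ≠ 0 := fun x =>
    ofReal_ne_zero.2 (pow_ne_zero 2 (hd x).ne')
  have hb : P365S6.Wb 1 W' Y = scW d (Wz Y lam ζ W0 v κ) := by
    funext x
    rw [hW']
    unfold P365S6.Wb scW Wz
    by_cases hx : x ∈ Y
    · simp only [if_pos hx]
      have h1 := hdc x
      rw [hdY x hx] at h1 ⊢
      rw [div_add' _ _ _ h1]
      congr 1
      push_cast
      ring
    · simp only [if_neg hx, add_zero]
  obtain ⟨c, hc⟩ : ∃ c : ι → ℝ, c = fun x => -(κ * v x) := ⟨_, rfl⟩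
  have hr : ∀ t ∈ Set.Ioo (-κ) κ, Wr 1 W' Y (rotv (-2 * Real.arctan (t / κ)) c) =
      scW d (Wt Y lam ζ W0 v t) := by
    intro t ht
    funext x
    rw [hW']
    unfold Wr scW Wt rotv
    by_cases hx : x ∈ Y
    · simp only [if_pos hx]
      have h1 := hdc x
      rw [hdY x hx] at h1 ⊢
      rw [div_add' _ _ _ h1]
      congr 1
      have h2 := mo_eq hκ hκ1 (abs_lt.2 ht) (hv x)
      rw [h2, hc]
      push_cast
      ring
    · simp only [if_neg hx, add_zero]
  have hθ : ∀ t ∈ Set.Ioo (-κ) κ, ∀ x,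
      Real.cos (Real.arctan (c x) - -2 * Real.arctan (t / κ) / 2) ≠ 0 := by
    intro t ht x
    have h1 : |c x| < 1 := by
      rw [hc, abs_neg, abs_mul, abs_of_pos hκ]
      nlinarith [abs_nonneg (v x), hv x]
    have h2 : |t / κ| < 1 := by
      rw [abs_div, abs_of_pos hκ, div_lt_one hκ]
      exact abs_lt.2 ht
    have h3 := abs_lt.1 (arctan_lt_quarter h1)
    have h4 := abs_lt.1 (arctan_lt_quarter h2)
    exact (Real.cos_pos_of_mem_Ioo ⟨by linarith, by linarith⟩).ne'
  have h := int_le_circle hκ (h := fun t =>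
      bl S B (Gr (scA d A) (scW d (Wt Y lam ζ W0 v t))) ^ (p / 2))
    (H := fun z => bl S B (FF (scA d A) 1 W' Y c z) ^ (p / 2)) (by
      refine ContinuousOn.rpow_const ?_ fun z _ => Or.inr (by positivity)
      unfold bl
      refine continuousOn_finsetSum _ fun a _ => continuousOn_finsetSum _ fun b _ => ?_
      refine ContinuousOn.pow (ContinuousOn.norm ?_) 2
      exact fun z hz => (FF_analytic hsA one_pos hη hηW c a b z
        (Metric.sphere_subset_closedBall hz)).continuousAt.continuousWithinAt)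
    (fun z => by
      have := bl_nonneg S B (FF (scA d A) 1 W' Y c z)
      positivity)
    (fun t ht => by
      have := rot_identity (L := Y) hsA one_pos hη hηW S B p c _ (hθ t ht)
      rw [hr t ht] at this
      exact this)
  refine h.trans (ENNReal.ofReal_le_ofReal ?_)
  have h2 := circleAverage_FF_le (L := Y) hsA one_pos hη hηW S B hp hp1 c
  rw [hb, mul_one] at h2
  have h3 : 0 ≤ 2 * π * κ := by
    have := Real.pi_pos
    positivity
  exact mul_le_mul_of_nonneg_left h2 h3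

end P365CU
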