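import Vale.Agent.P365.CU.Est

set_option linter.all false

/-!
# P365 / CU / Ring2: ring data from cut-off functions.
-/

namespace P365CU

open MeasureTheory ProbabilityTheory Complex Matrix Function P365S6
open P365L P365L.Comp P365X
open scoped ENNReal Real

variable {X : Finset Site} {lam c p : ℝ} {ζ : ℂ}

/-- a cut-off in the strip `R ≤ |x| < R + m`, with Lipschitz constant `k v` with respect to the
weights `√((1 - v_x²)(1 - v_y²))` -/
structure CutP (X : Finset Site) (R m : ℕ) (χ : (X → ℝ) → X → ℝ) (k : (X → ℝ) → ℝ) : Prop where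
  meas : Measurable k
  k0 : ∀ v, 0 ≤ k v
  dep : ∀ v v' : X → ℝ, (∀ x : X, R ≤ ds (x : Site) 0 → ds (x : Site) 0 < R + m → v x = v' x) →
    k v = k v'
  one : ∀ v (x : X), ds (x : Site) 0 ≤ R → χ v x = 1
  zero : ∀ v (x : X), R + m ≤ ds (x : Site) 0 + 1 → χ v x = 0
  nonneg : ∀ v x, 0 ≤ χ v x
  le_one : ∀ v x, χ v x ≤ 1
  lip : ∀ v : X → ℝ, (∀ x, |v x| < 1) → ∀ x y : X, adj x y ≠ 0 → χ v x ≠ χ v y →
    (R ≤ ds (x : Site) 0 ∧ ds (x : Site) 0 < R + m) ∧
    (R ≤ ds (y : Site) 0 ∧ ds (y : Site) 0 < R + m) ∧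
    |χ v x - χ v y| ≤ k v * Real.sqrt ((1 - v x ^ 2) * (1 - v y ^ 2))

theorem EE_ge {κ0 v : ℝ} (hκ : 0 ≤ κ0) (hκ1 : κ0 ≤ 1) (hv : |v| ≤ 1) :
    κ0 / 2 * (1 - v ^ 2) ≤ EE κ0 v := by
  rw [EE_eq hκ hv]
  have h1 : v ^ 2 ≤ 1 := (sq_le_one_iff_abs_le_one v).2 hv
  have h2 : κ0 ^ 2 ≤ 1 := by nlinarith
  rw [le_div_iff₀ (by positivity)]
  have h3 : κ0 ^ 2 * v ^ 2 ≤ 1 := by nlinarith [sq_nonneg κ0, sq_nonneg v]
  have h4 : 0 ≤ κ0 * (1 - v ^ 2) := mul_nonneg hκ (by linarith)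
  nlinarith

/-- the commutator in the scaled system, entrywise -/
theorem entry_le {A : Matrix X X ℝ} (hA : ∀ x y, |A x y| ≤ adj x y) (hlam : 0 < lam) {κ0 k : ℝ}
    (hκ0 : 0 < κ0) (hκ1 : κ0 ≤ 1) (hk : 0 ≤ k) {κ : X → ℝ} {v : X → ℝ} (hv : ∀ x, |v x| < 1)
    {x y : X} (hx : κ x = κ0) (hy : κ y = κ0) {δ : ℝ}
    (hδ : A x y ≠ 0 → δ ≠ 0 → |δ| ≤ k * Real.sqrt ((1 - v x ^ 2) * (1 - v y ^ 2))) :
    |scA (dP lam κ v) A x y * δ| ≤ |AF X x y| * (2 / (lam * κ0) * k) := by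
  have hAF : |AF X x y| = adj x y := by
    unfold AF
    rw [abs_of_nonneg (adj_nonneg _ _)]
  have hR : 0 ≤ |AF X x y| * (2 / (lam * κ0) * k) := by positivity
  by_cases h1 : A x y = 0
  · unfold scA
    rw [h1, zero_div, zero_mul, abs_zero]
    exact hR
  by_cases h2 : δ = 0
  · rw [h2, mul_zero, abs_zero]
    exact hR
  have h3 := hδ h1 h2
  have hdx : 0 < dP lam κ v x := by
    unfold dP
    rw [if_neg (by rw [hx]; exact hκ0.ne'), hx]
    exact Real.sqrt_pos.2 (mul_pos hlam (EE_pos hκ0 (hv x)))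
  have hdy : 0 < dP lam κ v y := by
    unfold dP
    rw [if_neg (by rw [hy]; exact hκ0.ne'), hy]
    exact Real.sqrt_pos.2 (mul_pos hlam (EE_pos hκ0 (hv y)))
  have h4 : lam * κ0 / 2 * Real.sqrt ((1 - v x ^ 2) * (1 - v y ^ 2)) ≤
      dP lam κ v x * dP lam κ v y := by
    have e1 : dP lam κ v x = Real.sqrt (lam * EE κ0 (v x)) := by
      unfold dP
      rw [if_neg (by rw [hx]; exact hκ0.ne'), hx]
    have e2 : dP lam κ v y = Real.sqrt (lam * EE κ0 (v y)) := by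
      unfold dP
      rw [if_neg (by rw [hy]; exact hκ0.ne'), hy]
    have n1 : 0 ≤ 1 - v x ^ 2 := by
      have := (sq_lt_one_iff_abs_lt_one (v x)).2 (hv x)
      linarith
    have n2 : 0 ≤ 1 - v y ^ 2 := by
      have := (sq_lt_one_iff_abs_lt_one (v y)).2 (hv y)
      linarith
    have e3 : lam * κ0 / 2 * Real.sqrt ((1 - v x ^ 2) * (1 - v y ^ 2)) =
        Real.sqrt (lam * (κ0 / 2 * (1 - v x ^ 2))) * Real.sqrt (lam * (κ0 / 2 * (1 - v y ^ 2))) := by
      rw [← Real.sqrt_mul (by positivity)]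
      rw [show lam * (κ0 / 2 * (1 - v x ^ 2)) * (lam * (κ0 / 2 * (1 - v y ^ 2))) =
        (lam * κ0 / 2) ^ 2 * ((1 - v x ^ 2) * (1 - v y ^ 2)) by ring]
      have hq : (0 : ℝ) ≤ lam * κ0 / 2 := by positivity
      rw [Real.sqrt_mul (sq_nonneg (lam * κ0 / 2)) ((1 - v x ^ 2) * (1 - v y ^ 2)), Real.sqrt_sq hq]
    rw [e3, e1, e2]
    refine mul_le_mul (Real.sqrt_le_sqrt ?_) (Real.sqrt_le_sqrt ?_) (Real.sqrt_nonneg _)
      (Real.sqrt_nonneg _)
    · exact mul_le_mul_of_nonneg_left (EE_ge hκ0.le hκ1 (hv x).le) hlam.le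
    · exact mul_le_mul_of_nonneg_left (EE_ge hκ0.le hκ1 (hv y).le) hlam.le
  have h5 : 0 < dP lam κ v x * dP lam κ v y := mul_pos hdx hdy
  have h6 : |δ| ≤ (2 / (lam * κ0) * k) * (dP lam κ v x * dP lam κ v y) := by
    have h7 : (2 / (lam * κ0) * k) * (lam * κ0 / 2 * Real.sqrt ((1 - v x ^ 2) * (1 - v y ^ 2))) =
        k * Real.sqrt ((1 - v x ^ 2) * (1 - v y ^ 2)) := by
      field_simp
    refine h3.trans ?_
    rw [← h7]
    exact mul_le_mul_of_nonneg_left h4 (by positivity)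
  unfold scA
  rw [abs_mul, abs_div, abs_of_pos h5, div_mul_eq_mul_div, div_le_iff₀ h5, hAF]
  calc |A x y| * |δ| ≤ adj x y * ((2 / (lam * κ0) * k) * (dP lam κ v x * dP lam κ v y)) :=
        mul_le_mul (hA x y) h6 (abs_nonneg _) (adj_nonneg _ _)
    _ = _ := by ring

theorem row_le {A : Matrix X X ℝ} (hA : ∀ x y, |A x y| ≤ adj x y) (hlam : 0 < lam) {κ0 k : ℝ}
    (hκ0 : 0 < κ0) (hκ1 : κ0 ≤ 1) (hk : 0 ≤ k) {κ : X → ℝ} {v : X → ℝ} (hv : ∀ x, |v x| < 1)
    {N : Finset X} (hN : ∀ x ∈ N, κ x = κ0) {χ : X → ℝ}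
    (hχ : ∀ x y : X, adj x y ≠ 0 → χ x ≠ χ y →
      |χ x - χ y| ≤ k * Real.sqrt ((1 - v x ^ 2) * (1 - v y ^ 2))) {x : X} (hx : x ∈ N) :
    ∑ y ∈ N, |scA (dP lam κ v) A x y * (χ y - χ x)| ≤ 8 / (lam * κ0) * k := by
  calc ∑ y ∈ N, |scA (dP lam κ v) A x y * (χ y - χ x)|
      ≤ ∑ y ∈ N, |AF X x y| * (2 / (lam * κ0) * k) := by
        refine Finset.sum_le_sum fun y hy => ?_
        refine entry_le hA hlam hκ0 hκ1 hk hv (hN x hx) (hN y hy) fun h1 h2 => ?_
        have h3 : adj x y ≠ 0 := by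
          intro h
          have := hA x y
          rw [h] at this
          exact h1 (abs_eq_zero.1 (le_antisymm this (abs_nonneg _)))
        have h4 := hχ x y h3 (fun h => h2 (by rw [h, sub_self]))
        rw [abs_sub_comm]
        exact h4
    _ = (∑ y ∈ N, |AF X x y|) * (2 / (lam * κ0) * k) := by rw [Finset.sum_mul]
    _ ≤ (∑ y, |AF X x y|) * (2 / (lam * κ0) * k) := by
        refine mul_le_mul_of_nonneg_right ?_ (by positivity)
        exact Finset.sum_le_sum_of_subset_of_nonneg (Finset.subset_univ _) fun _ _ _ =>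
          abs_nonneg _
    _ ≤ 4 * (2 / (lam * κ0) * k) := mul_le_mul_of_nonneg_right (AF_row X x) (by positivity)
    _ = _ := by ring

/-- RING DATA from two cut-offs -/
theorem RD.of_cut {m : ℕ} (hm : 0 < m) (hlam : 0 < lam) (hc : 0 < c) (hcm : c / m ≤ 1)
    {χI χO : (X → ℝ) → X → ℝ} {kI kO : (X → ℝ) → ℝ} (hI : CutP X (2 * m) m χI kI)
    (hO : CutP X (3 * m) m χO kO) :
    RD X m lam c (fun v => 8 / (lam * (c / m)) * kI v) (fun v => 8 / (lam * (c / m)) * kO v) := by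
  have hm' : (0 : ℝ) < m := by exact_mod_cast hm
  have hκ0 : 0 < c / m := by positivity
  refine ⟨hI.meas.const_mul _, hO.meas.const_mul _, ?_, ?_, ?_⟩
  · intro v v' h
    beta_reduce
    rw [hI.dep v v' fun x h1 h2 => h x (by rw [mem_sl]; omega)]
  · intro v v' h
    beta_reduce
    rw [hO.dep v v' fun x h1 h2 => h x (by rw [mem_sl]; omega)]
  · intro v hv A hA hAadj κ hκ
    have hadj : ∀ x y : X, scA (dP lam κ v) A x y ≠ 0 → adj x y ≠ 0 := by
      intro x y h h'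
      have h1 := hAadj x y
      rw [h'] at h1
      have h2 : A x y = 0 := abs_eq_zero.1 (le_antisymm h1 (abs_nonneg _))
      apply h
      unfold scA
      rw [h2, zero_div]
    refine ⟨χI v, fun x => 1 - χO v x, ⟨?_, ?_, hI.nonneg v, hI.le_one v, ?_, ?_, ?_⟩,
      ⟨?_, ?_, ?_, ?_, ?_, ?_, ?_⟩, ?_, ?_⟩
    · intro x hx
      rw [mem_sl] at hx
      rw [mem_inn]
      omega
    · intro x hx
      rw [mem_inn] at hx
      exact hI.zero v x (by omega)
    · intro x y h1 h2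
      obtain ⟨h3, h4, _⟩ := hI.lip v hv x y (hadj x y h1) h2
      rw [mem_sl, mem_sl]
      omega
    · have := hI.k0 v
      positivity
    · intro x hx
      refine row_le hAadj hlam hκ0 hcm (hI.k0 v) hv (fun y hy => hκ y ?_)
        (fun x y h1 h2 => (hI.lip v hv x y h1 h2).2.2) hx
      rw [mem_sl] at hy ⊢
      omega
    · intro x hx
      rw [mem_sl] at hx
      rw [mem_out]
      omega
    · intro x hx
      rw [mem_out] at hx
      rw [hO.one v x (by omega), sub_self]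
    · intro x
      have := hO.le_one v x
      linarith
    · intro x
      have := hO.nonneg v x
      linarith
    · intro x y h1 h2
      obtain ⟨h3, h4, _⟩ := hO.lip v hv x y (hadj x y h1) (fun h => h2 (by rw [h]))
      rw [mem_sl, mem_sl]
      omega
    · have := hO.k0 v
      positivity
    · intro x hx
      refine row_le hAadj hlam hκ0 hcm (hO.k0 v) hv (fun y hy => hκ y ?_)
        (fun x y h1 h2 => ?_) hx
      · rw [mem_sl] at hy ⊢
        omega
      · have h3 := (hO.lip v hv x y h1 (fun h => h2 (by rw [h]))).2.2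
        rw [show 1 - χO v x - (1 - χO v y) = -(χO v x - χO v y) by ring, abs_neg]
        exact h3
    · intro x hx
      exact hI.one v x hx
    · intro x hx
      simp only
      rw [hO.zero v x (by omega), sub_zero]

end P365CU
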