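import Vale.Agent.P365.CU.CutId

set_option linter.all false

/-!
# P365 / CU / Step: the ring step in expectation, exact uniform law.
-/

namespace P365CU

open MeasureTheory ProbabilityTheory Complex Matrix Function P365S6
open P365L P365L.Comp P365X
open scoped ENNReal Real

variable {ι : Type*} [Fintype ι] [DecidableEq ι] {A : Matrix ι ι ℝ} {lam p : ℝ} {ζ : ℂ}
  {κ κ' : ι → ℝ} {v v' : ι → ℝ}

/-- dressed potential: on the sites with `κ x > 0` the potential sits at the base point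
`mo (-iκ) v`, on the sites with `κ x = 0` it is real -/
noncomputable def WP {ι : Type*} (lam : ℝ) (ζ : ℂ) (κ : ι → ℝ) (v : ι → ℝ) : ι → ℂ := fun x =>
  (lam * aa (κ x) (v x) : ℝ) - ((lam * EE (κ x) (v x) : ℝ) : ℂ) * I - ζ

/-- weights -/
noncomputable def dP {ι : Type*} (lam : ℝ) (κ : ι → ℝ) (v : ι → ℝ) : ι → ℝ := fun x =>
  if κ x = 0 then 1 else Real.sqrt (lam * EE (κ x) (v x))

theorem EE_zero (v : ℝ) : EE 0 v = 0 := by
  unfold EE
  simp

theorem aa_zero (v : ℝ) : aa 0 v = v := by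
  unfold aa
  simp

omit [Fintype ι] [DecidableEq ι] in
theorem WP_im (x : ι) : (WP lam ζ κ v x).im = -(lam * EE (κ x) (v x)) - ζ.im := by
  unfold WP
  rw [Complex.sub_im, Complex.sub_im, Complex.ofReal_im, Complex.mul_im, Complex.ofReal_re,
    Complex.ofReal_im, Complex.I_im, Complex.I_re]
  ring

omit [Fintype ι] [DecidableEq ι] in
theorem WP_neg (hlam : 0 < lam) (hζ : 0 < ζ.im) (x : ι) : (WP lam ζ κ v x).im < 0 := by
  rw [WP_im]
  have := mul_nonneg hlam.le (EE_nonneg (κ x) (v x))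
  linarith

omit [Fintype ι] [DecidableEq ι] in
theorem dP_pos (hlam : 0 < lam) (hκ : ∀ x, 0 ≤ κ x) (hv : ∀ x, |v x| < 1) (x : ι) :
    0 < dP lam κ v x := by
  unfold dP
  split_ifs with h
  · exact one_pos
  · have h1 : 0 < κ x := lt_of_le_of_ne (hκ x) (Ne.symm h)
    exact Real.sqrt_pos.2 (mul_pos hlam (EE_pos h1 (hv x)))

omit [Fintype ι] [DecidableEq ι] in
theorem dP_sq (hlam : 0 < lam) {x : ι} (hx : κ x ≠ 0) : dP lam κ v x ^ 2 = lam * EE (κ x) (v x) := by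
  unfold dP
  rw [if_neg hx, Real.sq_sqrt (mul_nonneg hlam.le (EE_nonneg _ _))]

/-- weighted squared Hilbert–Schmidt norm of a block -/
noncomputable def MM (A : Matrix ι ι ℝ) (lam : ℝ) (ζ : ℂ) (κ : ι → ℝ) (S B : Finset ι)
    (v : ι → ℝ) : ℝ :=
  bl S B (fun a b => (dP lam κ v a : ℂ) * Gr A (WP lam ζ κ v) a b * dP lam κ v b)

theorem MM_nonneg (S B : Finset ι) (v : ι → ℝ) : 0 ≤ MM A lam ζ κ S B v := bl_nonneg _ _ _

theorem MM_eq (hA : A.IsSymm) (hlam : 0 < lam) (hζ : 0 < ζ.im) (hκ : ∀ x, 0 ≤ κ x)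
    (hv : ∀ x, |v x| < 1) (S B : Finset ι) : MM A lam ζ κ S B v =
      bl S B (Gr (scA (dP lam κ v) A) (scW (dP lam κ v) (WP lam ζ κ v))) := by
  unfold MM bl
  refine Finset.sum_congr rfl fun a _ => Finset.sum_congr rfl fun b _ => ?_
  rw [Gr_sc hA (WP_neg hlam hζ) (dP_pos hlam hκ hv)]

/-! ### measurability -/

omit [Fintype ι] [DecidableEq ι] in
theorem measurable_WP (x : ι) : Measurable fun v : ι → ℝ => WP lam ζ κ v x := by
  unfold WP
  have h1 : Measurable fun v : ι → ℝ => aa (κ x) (v x) :=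
    (measurable_aa _).comp (measurable_pi_apply x)
  have h2 : Measurable fun v : ι → ℝ => EE (κ x) (v x) :=
    (measurable_EE _).comp (measurable_pi_apply x)
  fun_prop

omit [Fintype ι] [DecidableEq ι] in
theorem measurable_dP (x : ι) : Measurable fun v : ι → ℝ => dP lam κ v x := by
  unfold dP
  have h2 : Measurable fun v : ι → ℝ => EE (κ x) (v x) :=
    (measurable_EE _).comp (measurable_pi_apply x)
  by_cases h : κ x = 0
  · simp only [if_pos h]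
    exact measurable_const
  · simp only [if_neg h]
    fun_prop

theorem measurable_MM (S B : Finset ι) : Measurable (MM A lam ζ κ S B) := by
  unfold MM bl
  refine Finset.measurable_sum _ fun a _ => Finset.measurable_sum _ fun b _ => ?_
  refine (Measurable.norm ?_).pow_const 2
  refine Measurable.mul (Measurable.mul ?_ ?_) ?_
  · exact Complex.measurable_ofReal.comp (measurable_dP a)
  · exact measurable_Gr (fun v : ι → ℝ => WP lam ζ κ v) (fun z => measurable_WP z) a b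
  · exact Complex.measurable_ofReal.comp (measurable_dP b)

/-- power of the weighted norm -/
noncomputable def MP (A : Matrix ι ι ℝ) (lam : ℝ) (ζ : ℂ) (κ : ι → ℝ) (p : ℝ) (S B : Finset ι)
    (v : ι → ℝ) : ℝ≥0∞ := ENNReal.ofReal (MM A lam ζ κ S B v ^ (p / 2))

theorem measurable_MP (S B : Finset ι) : Measurable (MP A lam ζ κ p S B) := by
  unfold MP
  exact ((measurable_MM S B).pow_const _).ennreal_ofReal

/-! ### the ring step -/

/-- the profile with the ring switched on -/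
noncomputable def swOn (κ : ι → ℝ) (L : Finset ι) (κ0 : ℝ) : ι → ℝ :=
  fun x => if x ∈ L then κ0 else κ x

theorem MM_mov (hA : A.IsSymm) (hlam : 0 < lam) (hζ : 0 < ζ.im) (hκ : ∀ x, 0 ≤ κ x) {κ0 t : ℝ}
    (hκ0 : 0 < κ0) (hv : ∀ x, |v x| < 1) {L S B : Finset ι} (hκL : ∀ x ∈ L, κ x = 0)
    (hS : ∀ x ∈ S, x ∉ L) (hB : ∀ x ∈ B, x ∉ L) :
    MM A lam ζ κ S B (mov L t v) =
      bl S B (Gr (scA (dP lam (swOn κ L κ0) v) A) (scW (dP lam (swOn κ L κ0) v)
        (Wt L lam ζ (WP lam ζ κ v) v t))) := by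
  have hκ' : ∀ x, 0 ≤ swOn κ L κ0 x := by
    intro x
    unfold swOn
    split_ifs
    · exact hκ0.le
    · exact hκ x
  have hW : WP lam ζ κ (mov L t v) = Wt L lam ζ (WP lam ζ κ v) v t := by
    funext x
    unfold Wt
    by_cases hx : x ∈ L
    · rw [if_pos hx]
      unfold WP mov
      rw [hκL x hx, if_pos hx, EE_zero, aa_zero, mul_zero, ofReal_zero, zero_mul, sub_zero]
    · rw [if_neg hx]
      unfold WP mov
      rw [if_neg hx]
  have hneg : ∀ x, (Wt L lam ζ (WP lam ζ κ v) v t x).im < 0 := by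
    intro x
    unfold Wt
    split_ifs
    · rw [Complex.sub_im, Complex.ofReal_im]
      linarith
    · exact WP_neg hlam hζ x
  have e : ∀ x, x ∉ L → dP lam κ (mov L t v) x = dP lam (swOn κ L κ0) v x := by
    intro x hx
    unfold dP swOn mov
    rw [if_neg hx, if_neg hx]
  unfold MM bl
  rw [hW]
  refine Finset.sum_congr rfl fun a ha => Finset.sum_congr rfl fun b hb => ?_
  beta_reduce
  rw [Gr_sc hA hneg (dP_pos hlam hκ' hv), e a (hS a ha), e b (hB b hb)]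

/-- constant of the ring step -/
noncomputable def CR (p κ0 : ℝ) (n : ℕ) : ℝ := π * (1 + CK p * 2 ^ p) / (1 - κ0 ^ 2) ^ n

theorem CR_nonneg {p κ0 : ℝ} (hp : 0 < p) (hp1 : p < 1) (hκ0 : 0 < κ0) (hκ1 : κ0 < 1) (n : ℕ) :
    0 ≤ CR p κ0 n := by
  unfold CR
  have h1 := CK_nonneg hp hp1
  have h2 : κ0 ^ 2 < 1 := by nlinarith
  have h3 : 0 < 1 - κ0 ^ 2 := by linarith
  positivity

theorem cut_scA (d : ι → ℝ) (A : Matrix ι ι ℝ) (R : Finset ι) :
    cut (scA d A) R = scA d (cut A R) := by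
  funext x y
  unfold cut scA
  beta_reduce
  split_ifs
  · rfl
  · simp

/-- THE RING STEP, deterministic in `v` -/
theorem ring_point (hA : A.IsSymm) (hlam : 0 < lam) (hζ : 0 < ζ.im) (hp : 0 < p) (hp1 : p < 1)
    (hκ : ∀ x, 0 ≤ κ x) {κ0 : ℝ} (hκ0 : 0 < κ0) (hκ1 : κ0 < 1) {R N R' N' L S B : Finset ι}
    (hκL : ∀ x ∈ L, κ x = 0) (hS : ∀ x ∈ S, x ∉ L) (hB : ∀ x ∈ B, x ∉ L)
    (hRR : ∀ x, x ∈ R' ↔ x ∉ R) (hLN : ∀ x, x ∈ L ↔ x ∈ N ∨ x ∈ N')
    (hv : ∀ x, |v x| < 1) {χ χ' : ι → ℝ} {k k' : ℝ}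
    (h : CO (scA (dP lam (swOn κ L κ0) v) A) R N χ k)
    (h' : CO (scA (dP lam (swOn κ L κ0) v) A) R' N' χ' k')
    (hSχ : ∀ a ∈ S, χ a = 1) (hBχ : ∀ b ∈ B, χ' b = 1) (hB0 : ∀ b ∈ B, χ b = 0) :
    ∫⁻ t in Set.Ioo (-κ0) κ0, MP A lam ζ κ p S B (mov L t v) ≤
      ENNReal.ofReal (2 * κ0 * (π * (1 + CK p * 2 ^ p))) *
        ((ENNReal.ofReal ((1 + k) ^ p) * MP (cut A R) lam ζ (swOn κ L κ0) p S N v) *
          (ENNReal.ofReal ((1 + k') ^ p) * MP (cut A R) lam ζ (swOn κ L κ0) p N' B v)) := by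
  have hκ' : ∀ x, 0 ≤ swOn κ L κ0 x := by
    intro x
    unfold swOn
    split_ifs
    · exact hκ0.le
    · exact hκ x
  obtain ⟨d, hd⟩ : ∃ d, d = dP lam (swOn κ L κ0) v := ⟨_, rfl⟩
  have hdp : ∀ x, 0 < d x := by
    rw [hd]
    exact dP_pos hlam hκ' hv
  have hdL : ∀ x ∈ L, d x ^ 2 = lam * EE κ0 (v x) := by
    intro x hx
    have h1 : swOn κ L κ0 x = κ0 := by
      unfold swOn
      rw [if_pos hx]
    rw [hd, dP_sq hlam (by rw [h1]; exact hκ0.ne'), h1]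
  have h1 := ring_circle (d := d) hA hlam hκ0 hκ1 hζ hp hp1 L S B (W0 := WP lam ζ κ v)
    (WP_neg hlam hζ) hv hdp hdL
  have hWz : Wz L lam ζ (WP lam ζ κ v) v κ0 = WP lam ζ (swOn κ L κ0) v := by
    funext x
    unfold Wz
    by_cases hx : x ∈ L
    · rw [if_pos hx]
      unfold WP swOn
      rw [if_pos hx]
    · rw [if_neg hx]
      unfold WP swOn
      rw [if_neg hx]
  rw [hWz] at h1
  have h2 : ∀ t ∈ Set.Ioo (-κ0) κ0, MP A lam ζ κ p S B (mov L t v) = ENNReal.ofReal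
      (bl S B (Gr (scA d A) (scW d (Wt L lam ζ (WP lam ζ κ v) v t))) ^ (p / 2)) := by
    intro t ht
    unfold MP
    rw [MM_mov (κ0 := κ0) hA hlam hζ hκ hκ0 hv hκL hS hB, hd]
  rw [setLIntegral_congr_fun measurableSet_Ioo h2]
  refine h1.trans ?_
  have hsA := scA_symm (d := d) hA
  have hWneg := scW_neg (d := d) hdp (WP_neg (κ := swOn κ L κ0) (v := v) hlam hζ)
  have hL1 : ∀ x ∈ L, (scW d (WP lam ζ (swOn κ L κ0) v) x).im ≤ -1 := by
    intro x hx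
    have h4 : swOn κ L κ0 x = κ0 := by
      unfold swOn
      rw [if_pos hx]
    rw [scW_im, WP_im, h4, hdL x hx]
    have h5 : 0 < lam * EE κ0 (v x) := mul_pos hlam (EE_pos hκ0 (hv x))
    rw [div_le_iff₀ h5]
    linarith
  rw [← hd] at h h'
  have h6 := ring_det_pow hp hp1 h h' hRR hsA hWneg hLN hL1 hSχ hBχ hB0
  rw [cut_scA] at h6
  have e1 := MM_eq (κ := swOn κ L κ0) (v := v) (cut_symm hA R) hlam hζ hκ' hv S N
  have e2 := MM_eq (κ := swOn κ L κ0) (v := v) (cut_symm hA R) hlam hζ hκ' hv N' B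
  rw [← hd] at e1 e2
  rw [← e1, ← e2] at h6
  have hCK := CK_nonneg hp hp1
  have hk := h.k0
  have hk' := h'.k0
  have hM1 := MM_nonneg (A := cut A R) (lam := lam) (ζ := ζ) (κ := swOn κ L κ0) S N v
  have hM2 := MM_nonneg (A := cut A R) (lam := lam) (ζ := ζ) (κ := swOn κ L κ0) N' B v
  have hπ := Real.pi_pos
  unfold MP
  rw [← ENNReal.ofReal_mul (by positivity), ← ENNReal.ofReal_mul (by positivity),
    ← ENNReal.ofReal_mul (by positivity), ← ENNReal.ofReal_mul (by positivity)]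
  refine ENNReal.ofReal_le_ofReal ?_
  calc _ ≤ 2 * π * κ0 * ((1 + CK p * 2 ^ p) *
        (((1 + k) ^ p * MM (cut A R) lam ζ (swOn κ L κ0) S N v ^ (p / 2)) *
        ((1 + k') ^ p * MM (cut A R) lam ζ (swOn κ L κ0) N' B v ^ (p / 2)))) :=
        mul_le_mul_of_nonneg_left h6 (by positivity)
    _ = _ := by ring

/-- THE RING STEP in expectation -/
theorem ring_exp (hA : A.IsSymm) (hlam : 0 < lam) (hζ : 0 < ζ.im) (hp : 0 < p) (hp1 : p < 1)
    (hκ : ∀ x, 0 ≤ κ x) {κ0 : ℝ} (hκ0 : 0 < κ0) (hκ1 : κ0 < 1) {R N R' N' L S B : Finset ι}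
    (hκL : ∀ x ∈ L, κ x = 0) (hS : ∀ x ∈ S, x ∉ L) (hB : ∀ x ∈ B, x ∉ L)
    (hRR : ∀ x, x ∈ R' ↔ x ∉ R) (hLN : ∀ x, x ∈ L ↔ x ∈ N ∨ x ∈ N')
    {k k' : (ι → ℝ) → ℝ}
    (hco : ∀ v, (∀ x, |v x| < 1) → ∃ χ χ' : ι → ℝ,
      CO (scA (dP lam (swOn κ L κ0) v) A) R N χ (k v) ∧
      CO (scA (dP lam (swOn κ L κ0) v) A) R' N' χ' (k' v) ∧
      (∀ a ∈ S, χ a = 1) ∧ (∀ b ∈ B, χ' b = 1) ∧ (∀ b ∈ B, χ b = 0))
    {Φ : (ι → ℝ) → ℝ≥0∞} (hΦ : Measurable Φ)
    (hΦL : ∀ v v' : ι → ℝ, (∀ x, x ∉ L → v x = v' x) → Φ v = Φ v') :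
    ∫⁻ v, MP A lam ζ κ p S B v * Φ v ∂(Measure.pi fun _ : ι => uni) ≤
      ENNReal.ofReal (CR p κ0 L.card) * ∫⁻ v,
        ((ENNReal.ofReal ((1 + k v) ^ p) * MP (cut A R) lam ζ (swOn κ L κ0) p S N v) *
          (ENNReal.ofReal ((1 + k' v) ^ p) * MP (cut A R) lam ζ (swOn κ L κ0) p N' B v)) * Φ v
          ∂(Measure.pi fun _ : ι => uni) := by
  obtain ⟨F, hF⟩ : ∃ F : (ι → ℝ) → ℝ≥0∞, F = fun v => MP A lam ζ κ p S B v * Φ v := ⟨_, rfl⟩
  have hFm : Measurable F := by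
    rw [hF]
    exact (measurable_MP S B).mul hΦ
  have h1 := dom hκ0 hκ1 L hFm
  obtain ⟨G, hG⟩ : ∃ G : (ι → ℝ) → ℝ≥0∞, G = fun v =>
      ((ENNReal.ofReal ((1 + k v) ^ p) * MP (cut A R) lam ζ (swOn κ L κ0) p S N v) *
          (ENNReal.ofReal ((1 + k' v) ^ p) * MP (cut A R) lam ζ (swOn κ L κ0) p N' B v)) * Φ v :=
    ⟨_, rfl⟩
  have hCK := CK_nonneg hp hp1
  have hπ := Real.pi_pos
  have h2 : ∫⁻ t in Set.Ioo (-κ0) κ0, ∫⁻ v, F (mov L t v) ∂(Measure.pi fun _ : ι => uni) ≤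
      ENNReal.ofReal (2 * κ0 * (π * (1 + CK p * 2 ^ p))) *
        ∫⁻ v, G v ∂(Measure.pi fun _ : ι => uni) := by
    rw [lintegral_lintegral_swap]
    · rw [← lintegral_const_mul' _ _ ENNReal.ofReal_ne_top]
      refine lintegral_mono_ae ?_
      filter_upwards [ae_pi_uni (ι := ι)] with v hv
      have h3 : ∀ t, F (mov L t v) = MP A lam ζ κ p S B (mov L t v) * Φ v := by
        intro t
        rw [hF]
        simp only
        congr 1
        refine hΦL _ _ fun x hx => ?_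
        unfold mov
        rw [if_neg hx]
      simp only [h3]
      obtain ⟨χ, χ', hc1, hc2, hc3, hc4, hc5⟩ := hco v hv
      have h4 := ring_point hA hlam hζ hp hp1 hκ hκ0 hκ1 hκL hS hB hRR hLN hv hc1 hc2 hc3 hc4 hc5
      have h5 : Measurable fun t : ℝ => MP A lam ζ κ p S B (mov L t v) :=
        (measurable_MP S B).comp ((measurable_mov2 L).comp (measurable_id.prodMk measurable_const))
      rw [lintegral_mul_const _ h5, hG]
      simp only
      rw [← mul_assoc]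
      gcongr
    · exact (hFm.comp (measurable_mov2 L)).aemeasurable
  have h3 := h1.trans h2
  have h4 : κ0 ^ 2 < 1 := by nlinarith
  have h5 : 0 < (1 - κ0 ^ 2) ^ L.card := pow_pos (by linarith) _
  have h6 : 0 < 2 * κ0 * (1 - κ0 ^ 2) ^ L.card := by positivity
  rw [hF, hG] at h3
  have h7 : ENNReal.ofReal (CR p κ0 L.card) =
      (ENNReal.ofReal (2 * κ0 * (1 - κ0 ^ 2) ^ L.card))⁻¹ *
        ENNReal.ofReal (2 * κ0 * (π * (1 + CK p * 2 ^ p))) := by
    rw [← ENNReal.ofReal_inv_of_pos h6, ← ENNReal.ofReal_mul (by positivity)]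
    congr 1
    unfold CR
    field_simp
  rw [h7, mul_assoc]
  have h8 : ENNReal.ofReal (2 * κ0 * (1 - κ0 ^ 2) ^ L.card) ≠ 0 := by
    rw [Ne, ENNReal.ofReal_eq_zero, not_le]
    exact h6
  obtain ⟨a, ha⟩ : ∃ a, a = ENNReal.ofReal (2 * κ0 * (1 - κ0 ^ 2) ^ L.card) := ⟨_, rfl⟩
  have ha' : a ≠ ∞ := by
    rw [ha]
    exact ENNReal.ofReal_ne_top
  rw [← ha] at h3 h8 ⊢
  calc ∫⁻ v, MP A lam ζ κ p S B v * Φ v ∂(Measure.pi fun _ : ι => uni)
      = a⁻¹ * (a * ∫⁻ v, MP A lam ζ κ p S B v * Φ v ∂(Measure.pi fun _ : ι => uni)) := by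
        rw [← mul_assoc, ENNReal.inv_mul_cancel h8 ha', one_mul]
    _ ≤ _ := by
        gcongr

end P365CU
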